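import Vale.Agent.P093.Defs

/-!
# Free positions over a space containing a cube give cube windows
-/

namespace Vale.Agent.P093

/-- If window images contain the full product `K^J` on sets `J` of positions of density `δ`, the
other positions being constant, and `K` contains a topological `d`-cube, then after composing with
coordinates of the cube the windows contain axis-parallel cubes of density `δ d`. -/
theorem cubeWindows_of_freePositions {X : Type} [TopologicalSpace X] [CompactSpace X]
    {h : X ≃ₜ X} {K : Type} [TopologicalSpace K] [CompactSpace K] [T2Space K] (f : C(X, K))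
    {d : ℕ} (e : C(Fin d → unitInterval, K)) (he : Function.Injective e) {δ : ℝ}
    (hw : ∀ N₀ : ℕ, ∃ N, N₀ ≤ N ∧ ∃ J : Finset (Fin N), δ * N ≤ J.card ∧
      ∃ σ : C(↥J → K, X), (∀ y (p : ↥J), f (h^[(p.1 : ℕ)] (σ y)) = y p) ∧
        ∀ p : Fin N, p ∉ J → ∀ y y', f (h^[(p : ℕ)] (σ y)) = f (h^[(p : ℕ)] (σ y'))) :
    ∃ F : C(X, Fin d → ℝ), CubeWindows h F (δ * d) := by
  classical
  have hemb : Topology.IsClosedEmbedding e := e.continuous.isClosedEmbedding he
  have hret : ∀ c : Fin d, ∃ g : C(K, ℝ), ∀ z, g (e z) = ((z c : unitInterval) : ℝ) := by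
    intro c
    obtain ⟨g, hg⟩ := ContinuousMap.exists_extension hemb
      ⟨fun z => ((z c : unitInterval) : ℝ),
        continuous_subtype_val.comp (continuous_apply c)⟩
    exact ⟨g, fun z => by have := DFunLike.congr_fun hg z; exact this⟩
  choose g hg using hret
  refine ⟨⟨fun x c => g c (f x), continuous_pi fun c => (g c).continuous.comp f.continuous⟩,
    fun N₀ => ?_⟩
  obtain ⟨N, hN, J, hJ, σ, hfree, hfix⟩ := hw N₀
  refine ⟨N, hN, J ×ˢ Finset.univ, ?_, ?_⟩
  · rw [Finset.card_product, Finset.card_univ, Fintype.card_fin]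
    push_cast
    calc δ * d * N = δ * N * d := by ring
      _ ≤ J.card * d := mul_le_mul_of_nonneg_right hJ (Nat.cast_nonneg _)
  · refine ⟨σ.comp ⟨fun y (q : ↥J) => e fun c =>
        y ⟨(q.1, c), Finset.mem_product.2 ⟨q.2, Finset.mem_univ _⟩⟩, ?_⟩, ?_, ?_⟩
    · exact continuous_pi fun q => e.continuous.comp (continuous_pi fun c => continuous_apply _)
    · rintro y ⟨⟨p, c⟩, hpc⟩
      show g c (f (h^[(p : ℕ)] (σ _))) = _
      rw [hfree _ ⟨p, (Finset.mem_product.1 hpc).1⟩]
      exact hg c _
    · rintro ⟨p, c⟩ hp y y'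
      show g c (f (h^[(p : ℕ)] (σ _))) = g c (f (h^[(p : ℕ)] (σ _)))
      rw [hfix p fun hmem => hp (Finset.mem_product.2 ⟨hmem, Finset.mem_univ _⟩)]

end Vale.Agent.P093
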