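import Vale.Agent.P093.BlockDefs
import Vale.Agent.P093.FreePositions
import Vale.Agent.P093.Gap.MeanDimWindows

/-!
# P093: block subshifts over polyhedra

Nested periodic constraints leaving the density `δ` of the positions free give free positions of
density `δ`, by averaging over the offsets and passing to a limit of the levels, and mean dimension
at most `δ d` over a polyhedron of dimension `d`, as its points rescaled by their largest coordinate
have at most `d` coordinates off `0` and `1`.
-/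

namespace Vale.Agent.P093

open Filter
open scoped Classical Topology unitInterval

noncomputable section

/-- Some offset leaves at least the average number of positions free in a window. -/
theorem exists_offset {P : ℕ} (hP : 0 < P) {J : Finset ℕ} (hJ : J ⊆ Finset.range P) (L : ℕ) :
    ∃ o, L * J.card ≤ ((Finset.range L).filter fun i => (i + o) % P ∈ J).card * P := by
  have hsum : ∑ o ∈ Finset.range P, ((Finset.range L).filter fun i => (i + o) % P ∈ J).card =
      L * J.card := by
    simp only [Finset.card_filter]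
    rw [Finset.sum_comm]
    have : ∀ i ∈ Finset.range L,
        ∑ o ∈ Finset.range P, (if (i + o) % P ∈ J then 1 else 0) = J.card := by
      intro i _
      rw [← Finset.card_filter]
      refine Finset.card_bij (fun o _ => (i + o) % P) (fun o ho => (Finset.mem_filter.1 ho).2)
        (fun o ho o' ho' he => ?_) (fun j hj => ?_)
      · have h1 : o ≡ o' [MOD P] := Nat.ModEq.add_left_cancel' i he
        rw [Nat.ModEq, Nat.mod_eq_of_lt (Finset.mem_range.1 (Finset.mem_filter.1 ho).1),
          Nat.mod_eq_of_lt (Finset.mem_range.1 (Finset.mem_filter.1 ho').1)] at h1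
        exact h1
      · have hjP := Finset.mem_range.1 (hJ hj)
        have hi := Nat.mod_lt i hP
        have he : (i + (j + (P - i % P)) % P) % P = j := by
          rw [Nat.add_mod_mod, Nat.add_mod, Nat.add_mod j]
          simp only [← Nat.add_mod, Nat.add_mod_mod, Nat.mod_add_mod]
          have : i + (j + (P - i % P)) = j + (i / P + 1) * P := by
            have := Nat.div_add_mod i P
            rw [add_mul, one_mul, mul_comm (i / P)]
            omega
          rw [this, Nat.add_mul_mod_self_right, Nat.mod_eq_of_lt hjP]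
        refine ⟨(j + (P - i % P)) % P, Finset.mem_filter.2 ⟨Finset.mem_range.2 (Nat.mod_lt _ hP),
          ?_⟩, he⟩
        rw [he]
        exact hj
    rw [Finset.sum_congr rfl this, Finset.sum_const, Finset.card_range, smul_eq_mul]
  obtain ⟨o, -, ho⟩ := Finset.exists_le_of_sum_le (s := Finset.range P)
    (f := fun _ => L * J.card)
    (g := fun o => ((Finset.range L).filter fun i => (i + o) % P ∈ J).card * P)
    ⟨0, Finset.mem_range.2 hP⟩
    (by rw [Finset.sum_const, Finset.card_range, smul_eq_mul, ← Finset.sum_mul, hsum, mul_comm])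
  exact ⟨o, ho⟩

theorem isClosed_blockSet {E : Type} [TopologicalSpace E] [T2Space E] {P : Set E} (hP : IsClosed P)
    {N : ℕ} (hN : 0 < N) (J : Finset ℕ) (w : ℕ → E) : IsClosed (blockSet P N J w) := by
  have : blockSet P N J w = (⋂ m : ℤ, (fun y : ℤ → E => y m) ⁻¹' P) ∩
      ⋃ p ∈ Finset.Ico (0 : ℤ) N, ⋂ m : ℤ,
        {y : ℤ → E | ((m - p) % (N : ℤ)).toNat ∉ J → y m = w ((m - p) % (N : ℤ)).toNat} := by
    ext y
    simp only [blockSet, Set.mem_ofPred_eq, Set.mem_inter_iff, Set.mem_preimage, Set.mem_iUnion,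
      Set.mem_iInter, exists_prop]
    refine and_congr_right fun _ => ⟨?_, fun ⟨p, _, hp⟩ => ⟨p, hp⟩⟩
    rintro ⟨p, hp⟩
    have hN' : (0 : ℤ) < N := by exact_mod_cast hN
    refine ⟨p % N, Finset.mem_Ico.2 ⟨Int.emod_nonneg _ hN'.ne', Int.emod_lt_of_pos _ hN'⟩,
      fun m => ?_⟩
    have e : (m - p % N) % (N : ℤ) = (m - p) % N := by simp [Int.sub_emod]
    rw [e]
    exact hp m
  rw [this]
  refine (isClosed_iInter fun m => hP.preimage (continuous_apply m)).inter
    (isClosed_biUnion_finset fun p _ => isClosed_iInter fun m => ?_)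
  by_cases h : ((m - p) % (N : ℤ)).toNat ∈ J
  · simp [h]
  · simpa [h] using isClosed_eq (continuous_apply m) continuous_const

theorem isCompact_polyhedron (n : ℕ) (S : Finset (Finset (Fin n))) :
    IsCompact (polyhedron n S) := by
  have hcl : IsClosed (polyhedron n S) := by
    have : polyhedron n S = ⋃ s ∈ S, (⋂ i, {v : Fin n → ℝ | 0 ≤ v i}) ∩
        ({v : Fin n → ℝ | ∑ i, v i = 1} ∩ ⋂ i, {v : Fin n → ℝ | i ∉ s → v i = 0}) := by
      ext v
      simp only [polyhedron, Set.mem_ofPred_eq, Set.mem_inter_iff, Set.mem_iUnion,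
        Set.mem_iInter, exists_prop]
      exact ⟨fun ⟨a, b, s, hs, c⟩ => ⟨s, hs, a, b, c⟩, fun ⟨s, hs, a, b, c⟩ => ⟨a, b, s, hs, c⟩⟩
    rw [this]
    refine isClosed_biUnion_finset fun s _ => ?_
    refine (isClosed_iInter fun i => isClosed_le continuous_const (continuous_apply i)).inter
      ((isClosed_eq (continuous_finsetSum _ fun i _ => continuous_apply i) continuous_const).inter
        (isClosed_iInter fun i => ?_))
    by_cases h : i ∈ s
    · simp [h]
    · simpa [h] using isClosed_eq (continuous_apply i) continuous_const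
  refine IsCompact.of_isClosed_subset (isCompact_univ_pi fun _ => isCompact_Icc) hcl
    fun v hv i _ => (⟨hv.1 i, ?_⟩ : v i ∈ Set.Icc (0 : ℝ) 1)
  rw [← hv.2.1]
  exact Finset.single_le_sum (fun j _ => hv.1 j) (Finset.mem_univ i)

/-- A polyhedron with a face on `d + 1` vertices contains a topological `d`-cube. -/
theorem exists_cube_polyhedron {n d : ℕ} {S : Finset (Finset (Fin n))}
    (hS : ∃ s ∈ S, s.card = d + 1) :
    ∃ e : C(Fin d → I, ↥(polyhedron n S)), Function.Injective e := by
  obtain ⟨s, hs, hcard⟩ := hS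
  let q : ↥s ≃ Fin (d + 1) := s.equivFinOfCardEq hcard
  let u : (Fin d → I) → Fin (d + 1) → ℝ := fun y =>
    Fin.cases (1 - ∑ j, (y j : ℝ) / (d + 1)) fun j => (y j : ℝ) / (d + 1)
  let v : (Fin d → I) → Fin n → ℝ := fun y c => if hc : c ∈ s then u y (q ⟨c, hc⟩) else 0
  have hu0 : ∀ y i, 0 ≤ u y i := by
    intro y i
    refine Fin.cases ?_ (fun j => ?_) i
    · simp only [u, Fin.cases_zero, sub_nonneg, ← Finset.sum_div]
      rw [div_le_one (by positivity)]
      calc ∑ j, (y j : ℝ) ≤ ∑ _j : Fin d, (1 : ℝ) := Finset.sum_le_sum fun j _ => (y j).2.2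
        _ ≤ (d : ℝ) + 1 := by simp
    · simp only [u, Fin.cases_succ]
      exact div_nonneg (y j).2.1 (by positivity)
  have hmem : ∀ y, v y ∈ polyhedron n S := by
    intro y
    refine ⟨fun c => ?_, ?_, s, hs, fun c hc => dif_neg hc⟩
    · by_cases hc : c ∈ s
      · simp only [v, dif_pos hc]
        exact hu0 y _
      · simp [v, dif_neg hc]
    · calc ∑ c, v y c = ∑ c ∈ s, v y c :=
            (Finset.sum_subset (Finset.subset_univ s) fun c _ hc => dif_neg hc).symm
        _ = ∑ c : ↥s, u y (q c) := by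
            rw [← Finset.sum_coe_sort]
            exact Finset.sum_congr rfl fun c _ => dif_pos c.2
        _ = ∑ i, u y i := q.sum_comp (u y)
        _ = 1 := by simp [u, Fin.sum_univ_succ]
  have hv : Continuous v := by
    refine continuous_pi fun c => ?_
    by_cases hc : c ∈ s
    · simp only [v, dif_pos hc]
      refine Fin.cases ?_ (fun j => ?_) (q ⟨c, hc⟩)
      · simp only [u, Fin.cases_zero]
        fun_prop
      · simp only [u, Fin.cases_succ]
        fun_prop
    · simp only [v, dif_neg hc]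
      exact continuous_const
  refine ⟨⟨fun y => ⟨v y, hmem y⟩, hv.subtype_mk hmem⟩, fun y y' he => funext fun j => ?_⟩
  have hj := congrFun (congrArg Subtype.val he) (q.symm j.succ : Fin n)
  simp only [ContinuousMap.coe_mk, v, dif_pos (q.symm j.succ).2, Subtype.coe_eta,
    Equiv.apply_symm_apply, u, Fin.cases_succ] at hj
  exact Subtype.ext ((div_left_inj' (by positivity)).1 hj)

/-- Nested block sets over a compact set contain free positions of their density in every
window. -/
theorem exists_free_window {E : Type} [TopologicalSpace E] [T2Space E] {P : Set E}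
    (hP : IsCompact P) (hne : P.Nonempty) (N : ℕ → ℕ) (J : ℕ → Finset ℕ) (w : ℕ → ℕ → E)
    (hN : ∀ k, 0 < N k) (hJ : ∀ k, J k ⊆ Finset.range (N k))
    (hw : ∀ k j, j < N k → j ∉ J k → w k j ∈ P)
    (hnest : ∀ k, blockSet P (N (k + 1)) (J (k + 1)) (w (k + 1)) ⊆ blockSet P (N k) (J k) (w k))
    {δ : ℝ} (hδ : ∀ k, δ * N k ≤ (J k).card) (L : ℕ) :
    ∃ F : Finset (Fin L), δ * L ≤ F.card ∧ ∃ b : ℤ → E, ∀ z : ↥F → ↥P,
      (fun m : ℤ => if h : ∃ p : ↥F, ((p.1 : ℕ) : ℤ) = m then (z h.choose).1 else b m) ∈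
        ⋂ k, blockSet P (N k) (J k) (w k) := by
  obtain ⟨v₀, hv₀⟩ := hne
  choose o ho using fun l => exists_offset (hN l) (hJ l) L
  let idx : ℕ → ℤ → ℕ := fun l m => ((m + o l) % (N l : ℤ)).toNat
  let b : ℕ → ℤ → E := fun l m => if idx l m ∈ J l then v₀ else w l (idx l m)
  let F : ℕ → Finset (Fin L) := fun l => Finset.univ.filter fun i => ((i : ℕ) + o l) % N l ∈ J l
  have hidx : ∀ l m, idx l m < N l := fun l m => by
    have h1 := Int.emod_lt_of_pos (m + o l) (show (0 : ℤ) < N l by exact_mod_cast hN l)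
    have h2 := hN l
    simp only [idx]
    omega
  have hidx' : ∀ l (i : ℕ), idx l i = (i + o l) % N l := fun l i => by
    simp only [idx]
    rw [← Nat.cast_add, ← Int.natCast_mod, Int.toNat_natCast]
  have hF : ∀ l, δ * L ≤ (F l).card := by
    intro l
    have h1 : ((Finset.range L).filter fun i => (i + o l) % N l ∈ J l).card ≤ (F l).card :=
      Finset.card_le_card_of_surjOn (fun i : Fin L => (i : ℕ)) fun i hi =>
        have h := Finset.mem_filter.1 hi
        ⟨⟨i, Finset.mem_range.1 h.1⟩, Finset.mem_filter.2 ⟨Finset.mem_univ _, h.2⟩, rfl⟩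
    have h2 : (L : ℝ) * (J l).card ≤ (F l).card * N l := by
      exact_mod_cast (ho l).trans (Nat.mul_le_mul_right _ h1)
    have hNr : (0 : ℝ) < N l := by exact_mod_cast hN l
    refine le_of_mul_le_mul_right (le_trans ?_ h2) hNr
    calc δ * L * N l = L * (δ * N l) := by ring
      _ ≤ L * (J l).card := mul_le_mul_of_nonneg_left (hδ l) (Nat.cast_nonneg _)
  have hb : ∀ l, b l ∈ Set.univ.pi fun _ : ℤ => P := fun l m _ => by
    show (if idx l m ∈ J l then v₀ else w l (idx l m)) ∈ P
    split_ifs with h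
    · exact hv₀
    · exact hw l _ (hidx l m) h
  let U : Ultrafilter ℕ := Ultrafilter.of atTop
  obtain ⟨F₀, hF₀⟩ := Ultrafilter.eq_pure_of_finite (U.map F)
  have hev : ∀ᶠ l in (U : Filter ℕ), F l = F₀ := by
    have : ({F₀} : Set (Finset (Fin L))) ∈ U.map F := by
      rw [hF₀]
      exact Ultrafilter.mem_pure.2 rfl
    exact this
  obtain ⟨b₀, hb₀, hlim⟩ := (isCompact_univ_pi fun _ : ℤ => hP).ultrafilter_le_nhds (U.map b)
    (le_principal_iff.2 (Eventually.of_forall hb : ∀ᶠ l in (U : Filter ℕ), b l ∈ _))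
  have hlim' : Tendsto b U (𝓝 b₀) := hlim
  obtain ⟨l₀, hl₀⟩ := hev.exists
  refine ⟨F₀, hl₀ ▸ hF l₀, b₀, fun z => Set.mem_iInter.2 fun k => ?_⟩
  let pt : (ℤ → E) → ℤ → E := fun c m =>
    if h : ∃ p : ↥F₀, ((p.1 : ℕ) : ℤ) = m then (z h.choose).1 else c m
  have hpt : Continuous pt := by
    refine continuous_pi fun m => ?_
    by_cases h : ∃ p : ↥F₀, ((p.1 : ℕ) : ℤ) = m
    · simp only [pt, dif_pos h]
      exact continuous_const
    · simp only [pt, dif_neg h]
      exact continuous_apply m
  have hsub : ∀ {l}, k ≤ l → blockSet P (N l) (J l) (w l) ⊆ blockSet P (N k) (J k) (w k) := by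
    intro l hl
    induction hl with
    | refl => exact subset_rfl
    | step _ ih => exact (hnest _).trans ih
  refine (isClosed_blockSet hP.isClosed (hN k) _ _).mem_of_tendsto
    ((hpt.tendsto b₀).comp hlim') ?_
  filter_upwards [hev, (Ultrafilter.of_le atTop) (eventually_ge_atTop k)] with l hl hkl
  refine hsub hkl ⟨fun m => ?_, -(o l : ℤ), fun m hm => ?_⟩
  · show pt (b l) m ∈ P
    by_cases h : ∃ p : ↥F₀, ((p.1 : ℕ) : ℤ) = m
    · simp only [pt, dif_pos h]
      exact (z h.choose).2
    · simp only [pt, dif_neg h]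
      exact hb l m trivial
  · rw [sub_neg_eq_add] at hm ⊢
    have hno : ¬ ∃ p : ↥F₀, ((p.1 : ℕ) : ℤ) = m := by
      rintro ⟨⟨p, hp⟩, rfl⟩
      rw [← hl] at hp
      refine hm ?_
      show idx l ((p : ℕ) : ℤ) ∈ J l
      rw [hidx']
      exact (Finset.mem_filter.1 hp).2
    show pt (b l) m = _
    simp only [pt, dif_neg hno, b, idx, if_neg hm]

/-- A map to the cube which is injective on polyhedra: division by the largest coordinate. -/
theorem exists_rescale {n d : ℕ} {S : Finset (Finset (Fin n))} (hS : ∀ s ∈ S, s.card ≤ d + 1)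
    (hn : 0 < n) :
    ∃ R : (Fin n → ℝ) → _root_.P093.Cube n, ContinuousOn R (polyhedron n S) ∧
      Set.InjOn R (polyhedron n S) ∧
      ∀ v ∈ polyhedron n S, (Finset.univ.filter fun c => R v c ≠ 0 ∧ R v c ≠ 1).card ≤ d := by
  have hne : (Finset.univ : Finset (Fin n)).Nonempty := ⟨⟨0, hn⟩, Finset.mem_univ _⟩
  let top : (Fin n → ℝ) → ℝ := fun v => Finset.univ.sup' hne v
  let R : (Fin n → ℝ) → _root_.P093.Cube n := fun v c =>
    Set.projIcc 0 1 zero_le_one (v c / top v)
  have htop : Continuous top := by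
    exact Continuous.finset_sup'_apply hne fun c _ => continuous_apply c
  have hpos : ∀ v ∈ polyhedron n S, 0 < top v := by
    intro v hv
    obtain ⟨c, hc⟩ : ∃ c, 0 < v c := by
      by_contra hall
      push Not at hall
      have := Finset.sum_nonpos fun c (_ : c ∈ (Finset.univ : Finset (Fin n))) => hall c
      linarith [hv.2.1]
    exact lt_of_lt_of_le hc (Finset.le_sup' v (Finset.mem_univ c))
  have hval : ∀ v ∈ polyhedron n S, ∀ c, ((R v c : I) : ℝ) = v c / top v := fun v hv c => by
    have h1 : v c / top v ≤ 1 := by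
      rw [div_le_one (hpos v hv)]
      exact Finset.le_sup' v (Finset.mem_univ c)
    simp only [R, Set.projIcc_of_mem _ (show v c / top v ∈ Set.Icc (0 : ℝ) 1 from
      ⟨div_nonneg (hv.1 c) (hpos v hv).le, h1⟩)]
  refine ⟨R, ?_, fun v hv v' hv' he => ?_, fun v hv => ?_⟩
  · refine continuousOn_pi.2 fun c => continuous_projIcc.comp_continuousOn ?_
    exact (continuous_apply c).continuousOn.div htop.continuousOn fun v hv => (hpos v hv).ne'
  · have h : ∀ c, v c / top v = v' c / top v' := fun c => by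
      rw [← hval v hv c, ← hval v' hv' c, he]
    have ht : top v = top v' := by
      have h1 := Finset.sum_congr (rfl : (Finset.univ : Finset (Fin n)) = _) fun c _ => h c
      rw [← Finset.sum_div, ← Finset.sum_div, hv.2.1, hv'.2.1, one_div, one_div, inv_inj] at h1
      exact h1
    funext c
    have := h c
    rw [ht] at this
    exact (div_left_inj' (hpos v' hv').ne').1 this
  · obtain ⟨s, hs, hzero⟩ := hv.2.2
    obtain ⟨c₀, -, hc₀⟩ := Finset.exists_mem_eq_sup' hne v
    have hc₀' : top v = v c₀ := hc₀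
    have hmem : c₀ ∈ s := by
      by_contra hnot
      have := hpos v hv
      rw [hc₀', hzero c₀ hnot] at this
      exact lt_irrefl _ this
    refine le_trans (Finset.card_le_card (t := s.erase c₀) fun c hc => ?_) ?_
    · obtain ⟨-, hc0, hc1⟩ := Finset.mem_filter.1 hc
      refine Finset.mem_erase.2 ⟨?_, ?_⟩
      · rintro rfl
        refine hc1 (Subtype.ext ?_)
        rw [hval v hv c, hc₀']
        exact div_self (hc₀' ▸ (hpos v hv).ne')
      · by_contra hnot
        refine hc0 (Subtype.ext ?_)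
        rw [hval v hv c, hzero c hnot, zero_div]
        rfl
    · rw [Finset.card_erase_of_mem hmem]
      have := hS s hs
      omega

/-- Block subshifts over a polyhedron of dimension `d` have free positions of their density `δ`,
over the polyhedron, and mean dimension at most `δ d`. -/
theorem blockSystem {X : Type} [TopologicalSpace X] [CompactSpace X] [T2Space X] [Nonempty X]
    (h : X ≃ₜ X) {n d : ℕ} {S : Finset (Finset (Fin n))} (g : X → Fin n → ℝ) (N : ℕ → ℕ)
    (J : ℕ → Finset ℕ) (w : ℕ → ℕ → Fin n → ℝ) (hS : ∀ s ∈ S, s.card ≤ d + 1)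
    (hS' : ∃ s ∈ S, s.card = d + 1) (hg : Continuous g)
    (hinj : Function.Injective fun x (m : ℤ) => g ((h.toEquiv ^ m) x))
    (hrange : (Set.range fun x (m : ℤ) => g ((h.toEquiv ^ m) x)) =
      ⋂ k, blockSet (polyhedron n S) (N k) (J k) (w k))
    (hk : ∀ k, 0 < N k ∧ J k ⊆ Finset.range (N k) ∧
      blockSet (polyhedron n S) (N (k + 1)) (J (k + 1)) (w (k + 1)) ⊆
        blockSet (polyhedron n S) (N k) (J k) (w k)) :
    CompactSpace ↥(polyhedron n S) ∧
    (∃ (f : C(X, ↥(polyhedron n S))) (e : C(Fin d → I, ↥(polyhedron n S))),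
      Function.Injective e ∧ ∀ L₀ : ℕ, ∃ L, L₀ ≤ L ∧ ∃ F : Finset (Fin L),
        (⨅ k, ((J k).card : ℝ) / N k) * L ≤ F.card ∧
        ∃ lift₁ : C(↥F → ↥(polyhedron n S), X), (∀ y (p : ↥F), f (h^[(p.1 : ℕ)] (lift₁ y)) = y p) ∧
          ∀ p : Fin L, p ∉ F → ∀ y y', f (h^[(p : ℕ)] (lift₁ y)) = f (h^[(p : ℕ)] (lift₁ y'))) ∧
    _root_.P093.meanDim h ≤ ENNReal.ofReal ((⨅ k, ((J k).card : ℝ) / N k) * d) := by
  let P := polyhedron n S
  let Φ : X → ℤ → Fin n → ℝ := fun x m => g ((h.toEquiv ^ m) x)
  have hΦ : ∀ x k, Φ x ∈ blockSet P (N k) (J k) (w k) := fun x k => by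
    have : Φ x ∈ ⋂ k, blockSet P (N k) (J k) (w k) := hrange ▸ Set.mem_range_self x
    exact Set.mem_iInter.1 this k
  have hgP : ∀ x, g x ∈ P := fun x => by simpa [Φ] using (hΦ x 0).1 0
  have hPc : IsCompact P := isCompact_polyhedron n S
  have hw : ∀ k j, j < N k → j ∉ J k → w k j ∈ P := by
    intro k j hj hjJ
    obtain ⟨hmem, p, hp⟩ := hΦ (Classical.arbitrary X) k
    have hidx : ((p + j - p) % (N k : ℤ)).toNat = j := by
      rw [add_sub_cancel_left, ← Int.natCast_mod, Int.toNat_natCast, Nat.mod_eq_of_lt hj]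
    have := hp (p + j) (by rw [hidx]; exact hjJ)
    rw [hidx] at this
    exact this ▸ hmem _
  have hbdd : BddBelow (Set.range fun k => ((J k).card : ℝ) / N k) :=
    ⟨0, by rintro _ ⟨k, rfl⟩; positivity⟩
  have hδ : ∀ k, (⨅ k, ((J k).card : ℝ) / N k) * N k ≤ (J k).card := fun k =>
    (le_div_iff₀ (by exact_mod_cast (hk k).1)).1 (ciInf_le hbdd k)
  have : CompactSpace ↥(polyhedron n S) := isCompact_iff_compactSpace.1 hPc
  refine ⟨this, ?_, ?_⟩
  · obtain ⟨e, he⟩ := exists_cube_polyhedron hS'
    let f : C(X, ↥P) := ⟨fun x => ⟨g x, hgP x⟩, hg.subtype_mk hgP⟩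
    refine ⟨f, e, he, fun L₀ => ⟨L₀, le_rfl, ?_⟩⟩
    obtain ⟨F, hF, b, hb⟩ := exists_free_window hPc ⟨_, hgP (Classical.arbitrary X)⟩ N J w
      (fun k => (hk k).1) (fun k => (hk k).2.1) hw (fun k => (hk k).2.2) hδ L₀
    let pt : (↥F → ↥P) → ℤ → Fin n → ℝ := fun z m =>
      if h : ∃ p : ↥F, ((p.1 : ℕ) : ℤ) = m then (z h.choose).1 else b m
    have hpt : Continuous pt := continuous_pi fun m => by
      by_cases hm : ∃ p : ↥F, ((p.1 : ℕ) : ℤ) = m
      · simp only [pt, dif_pos hm]
        exact continuous_subtype_val.comp (continuous_apply _)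
      · simp only [pt, dif_neg hm]
        exact continuous_const
    have hsol : ∀ z, ∃ x, Φ x = pt z := fun z => by
      have : pt z ∈ Set.range Φ := by
        rw [hrange]
        exact hb z
      exact this
    choose lift₁ hlift using hsol
    have hΦc : Continuous Φ := continuous_pi fun m =>
      hg.comp (_root_.P093.continuous_orbitPt h m)
    have hliftc : Continuous lift₁ := by
      rw [(hΦc.isClosedEmbedding hinj).isInducing.continuous_iff]
      simpa [Function.comp_def, hlift] using hpt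
    have hit : ∀ z (i : ℕ), g (h^[i] (lift₁ z)) = pt z i := fun z i => by
      rw [← _root_.P093.orbitPt_natCast, ← hlift z]
      rfl
    refine ⟨F, hF, ⟨lift₁, hliftc⟩, fun z p => Subtype.ext ?_, fun p hp z z' => Subtype.ext ?_⟩
    · show g (h^[(p.1 : ℕ)] (lift₁ z)) = _
      have hex : ∃ q : ↥F, ((q.1 : ℕ) : ℤ) = ((p.1 : ℕ) : ℤ) := ⟨p, rfl⟩
      have hp' : hex.choose = p :=
        Subtype.ext (Fin.ext (by exact_mod_cast hex.choose_spec))
      rw [hit]
      simp only [pt, dif_pos hex, hp']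
    · show g (h^[(p : ℕ)] (lift₁ z)) = g (h^[(p : ℕ)] (lift₁ z'))
      have hno : ¬ ∃ q : ↥F, ((q.1 : ℕ) : ℤ) = ((p : ℕ) : ℤ) := fun ⟨q, hq⟩ =>
        hp (by
          have : q.1 = p := Fin.ext (by exact_mod_cast hq)
          exact this ▸ q.2)
      rw [hit, hit]
      simp only [pt, dif_neg hno]
  · have hn : 0 < n := by
      obtain ⟨s, -, hs⟩ := hS'
      have := Finset.card_le_univ s
      rw [Fintype.card_fin] at this
      omega
    obtain ⟨R, hRc, hRi, hRd⟩ := exists_rescale hS hn
    let f : C(X, _root_.P093.Cube n) := ⟨fun x => R (g x), hRc.comp_continuous hg hgP⟩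
    have key : ∀ k, _root_.P093.meanDim h ≤ ENNReal.ofReal ((d : ℝ) * (J k).card / N k) := fun k =>
      _root_.P093.meanDim_le_dim h f (fun x => hRd _ (hgP x)) (fun _ => ContinuousMap.const _ 0)
        (fun _ _ _ _ => rfl) (fun _ _ _ _ => rfl)
        (fun x y hxy _ => hinj (funext fun m => hRi (hgP _) (hgP _) (hxy m))) (hk k).1 _
        (fun j => R (w k j)) fun x => by
          obtain ⟨-, p, hp⟩ := hΦ x k
          exact ⟨p, fun m hm => congrArg R (hp m hm)⟩
    refine ENNReal.le_of_forall_pos_le_add fun ε hε _ => ?_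
    have hd : (0 : ℝ) < (d : ℝ) + 1 := by positivity
    obtain ⟨k, hk'⟩ := exists_lt_of_ciInf_lt
      (show (⨅ k, ((J k).card : ℝ) / N k) <
        (⨅ k, ((J k).card : ℝ) / N k) + (ε : ℝ) / ((d : ℝ) + 1) by
          have : (0 : ℝ) < (ε : ℝ) / ((d : ℝ) + 1) := div_pos (by exact_mod_cast hε) hd
          linarith)
    refine (key k).trans ?_
    rw [← ENNReal.ofReal_coe_nnreal]
    refine le_trans (ENNReal.ofReal_le_ofReal ?_) ENNReal.ofReal_add_le
    have h2 := mul_le_mul_of_nonneg_left hk'.le (Nat.cast_nonneg (α := ℝ) d)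
    have h3 : (d : ℝ) * ((ε : ℝ) / ((d : ℝ) + 1)) ≤ ε := by
      rw [mul_div_assoc', div_le_iff₀ hd]
      have := ε.2
      nlinarith
    rw [mul_div_assoc]
    linarith

end

end Vale.Agent.P093
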