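import Mathlib

/-!
# P093: polyhedra and block sets
-/

namespace Vale.Agent.P093

/-- The polyhedron with vertices `Fin n` and faces the subsets of members of `S`. -/
def polyhedron (n : ℕ) (S : Finset (Finset (Fin n))) : Set (Fin n → ℝ) :=
  {v | (∀ i, 0 ≤ v i) ∧ ∑ i, v i = 1 ∧ ∃ s ∈ S, ∀ i ∉ s, v i = 0}

/-- The sequences over `P` which, in some phase, have the values `w` at all positions whose residue
mod `N` is not in `J`. -/
def blockSet {E : Type} (P : Set E) (N : ℕ) (J : Finset ℕ) (w : ℕ → E) : Set (ℤ → E) :=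
  {y | (∀ m, y m ∈ P) ∧ ∃ p : ℤ,
    ∀ m : ℤ, ((m - p) % (N : ℤ)).toNat ∉ J → y m = w ((m - p) % (N : ℤ)).toNat}

end Vale.Agent.P093
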