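import Vale.Agent.P093.Window

/-!
# Counting free coordinates, lines and bad blocks in a window
-/

namespace Vale.Agent.P093.Cube

open Embed

variable {X : Type} [TopologicalSpace X] [CompactSpace X] {h : X ≃ₜ X}
variable {C : Set X} {L R M N : ℕ} {f : C(X, Fin M → ℝ)}
variable (Q : Cube h f N) (H : Returns h C L R)

open Classical in
/-- The coordinates of the window with a fixed value other than `0` or `1`. -/
noncomputable def wild : Finset (Fin N × Fin M) :=
  Finset.univ.filter fun p => p ∉ Q.J ∧ Q.value p.1 p.2 ≠ 0 ∧ Q.value p.1 p.2 ≠ 1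

open Classical in
/-- The free coordinates inside a block. -/
noncomputable def inBlock (t : ℕ) : Finset (Fin N × Fin M) :=
  Q.J.filter fun p => t ≤ (p.1 : ℕ) ∧ (p.1 : ℕ) < t + H.rt (iter h (t : ℕ) Q.base)

theorem inBlock_card_le (t : ℕ) (ht : t ∈ H.starts Q.base N) :
    (Q.inBlock H t).card ≤ R * M := by
  classical
  have hR := (H.rt_spec (H.mem_starts.1 ht).1).2.1
  calc (Q.inBlock H t).card ≤ (Finset.Ico t (t + R) ×ˢ (Finset.univ : Finset (Fin M))).card := by
        refine Finset.card_le_card_of_injOn (fun p => ((p.1 : ℕ), p.2)) ?_ ?_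
        · intro p hp
          simp only [inBlock, Finset.coe_filter] at hp
          obtain ⟨-, h1, h2⟩ := hp
          exact Finset.mem_product.2 ⟨Finset.mem_Ico.2 ⟨h1, show (p.1 : ℕ) < t + R by omega⟩,
            Finset.mem_univ _⟩
        · intro p _ p' _ he
          simp only [Prod.mk.injEq] at he
          exact Prod.ext (Fin.ext he.1) he.2
    _ = R * M := by simp

theorem inBlock_le_free (t : ℕ) (ht : t ∈ H.starts Q.base N) :
    (Q.inBlock H t).card ≤ (free (Q.pattern H t)).card := by
  classical
  have hR := (H.rt_spec (H.mem_starts.1 ht).1).2.1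
  have hkR : ∀ p ∈ Q.inBlock H t, (p.1 : ℕ) - t < R := by
    intro p hp
    simp only [inBlock, Finset.mem_filter] at hp
    omega
  refine Finset.card_le_card_of_injOn
    (fun p => if hp : (p.1 : ℕ) - t < R then finProdFinEquiv (⟨(p.1 : ℕ) - t, hp⟩, p.2)
      else finProdFinEquiv (⟨0, by have := (H.rt_spec (H.mem_starts.1 ht).1).1; omega⟩, p.2)) ?_ ?_
  · intro p hp
    simp only [dif_pos (hkR p hp)]
    simp only [inBlock, Finset.mem_coe, Finset.mem_filter] at hp
    have hfree : Q.Free (t + ((p.1 : ℕ) - t)) p.2 := by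
      refine ⟨by have := p.1.isLt; omega, ?_⟩
      rw [show ((⟨t + ((p.1 : ℕ) - t), by have := p.1.isLt; omega⟩ : Fin N), p.2) = p from
        Prod.ext (Fin.ext (by simp only; omega)) rfl]
      exact hp.1
    refine Finset.mem_coe.2 (mem_free.2 ?_)
    simp only [pattern, Equiv.symm_apply_apply]
    rw [if_pos (by omega), if_pos hfree]
  · intro p hp p' hp' he
    simp only [dif_pos (hkR p hp), dif_pos (hkR p' hp')] at he
    have := finProdFinEquiv.injective he
    simp only [inBlock, Finset.mem_coe, Finset.mem_filter] at hp hp'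
    simp only [Prod.mk.injEq, Fin.mk.injEq] at this
    exact Prod.ext (Fin.ext (by omega)) this.2

open Classical in
/-- The bad blocks. -/
noncomputable def bad : Finset ℕ := (H.starts Q.base N).filter fun t => ¬ Q.Good H t

theorem bad_card_le : (Q.bad H).card ≤ Q.wild.card := by
  classical
  have hex : ∀ t ∈ Q.bad H, ∃ p ∈ Q.wild, t ≤ (p.1 : ℕ) ∧
      (p.1 : ℕ) < t + H.rt (iter h (t : ℕ) Q.base) := by
    intro t ht
    simp only [bad, Finset.mem_filter] at ht
    obtain ⟨hts, hg⟩ := ht
    unfold Good at hg
    push Not at hg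
    obtain ⟨k, hk, c, hf, h0, h1⟩ := hg
    have hp : t + k < N := by have := (H.mem_starts.1 hts).2; omega
    refine ⟨(⟨t + k, hp⟩, c), ?_, by simp, by simp only; omega⟩
    exact Finset.mem_filter.2 ⟨Finset.mem_univ _, fun hJ => hf ⟨hp, hJ⟩, h0, h1⟩
  choose g hg hg1 hg2 using hex
  rw [← Fintype.card_coe, ← Fintype.card_coe]
  refine Fintype.card_le_of_injective (fun t => ⟨g t.1 t.2, hg t.1 t.2⟩) ?_
  rintro ⟨t, ht⟩ ⟨t', ht'⟩ he
  simp only [Subtype.mk.injEq] at he
  have h1 := hg1 t' ht'
  have h2 := hg2 t' ht'
  rw [← he] at h1 h2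
  have h3 := hg1 t ht
  have h4 := hg2 t ht
  apply Subtype.ext
  exact (H.block_unique (Finset.mem_filter.1 ht).1 (Finset.mem_filter.1 ht').1
    (i := ((g t ht).1 : ℕ) - t) (i' := ((g t ht).1 : ℕ) - t')
    (by omega) (by omega) (by omega)).1

/-- Few free coordinates are lost: each lies at an end, in a bad block, or in a line count. -/
theorem free_card_le :
    Q.J.card ≤ 2 * R * M + Q.wild.card * (R * M)
      + ∑ t ∈ H.starts Q.base N, (2 * Q.lines H t + 2) := by
  classical
  set T := H.starts Q.base N with hT
  set E : Finset (Fin N × Fin M) :=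
    Finset.univ.filter fun p => (p.1 : ℕ) < R ∨ N < (p.1 : ℕ) + R with hE
  have hsub : Q.J ⊆ E ∪ T.biUnion (Q.inBlock H) := by
    intro p hp
    by_cases hpE : (p.1 : ℕ) < R ∨ N < (p.1 : ℕ) + R
    · exact Finset.mem_union_left _ (Finset.mem_filter.2 ⟨Finset.mem_univ _, hpE⟩)
    · push Not at hpE
      obtain ⟨t, ht, i, hi, heq⟩ := H.block_exists (x := Q.base) hpE.1 hpE.2
      refine Finset.mem_union_right _ (Finset.mem_biUnion.2 ⟨t, ht, ?_⟩)
      exact Finset.mem_filter.2 ⟨hp, by omega, by omega⟩
  have hEcard : E.card ≤ 2 * R * M := by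
    calc E.card ≤ ((Finset.range R ∪ Finset.Ico (N + 1 - R) N) ×ˢ
          (Finset.univ : Finset (Fin M))).card := by
          refine Finset.card_le_card_of_injOn (fun p => ((p.1 : ℕ), p.2)) ?_ ?_
          · intro p hp
            simp only [hE, Finset.coe_filter] at hp
            refine Finset.mem_product.2 ⟨Finset.mem_union.2 ?_, Finset.mem_univ _⟩
            rcases hp.2 with h1 | h1
            · exact Or.inl (Finset.mem_range.2 h1)
            · exact Or.inr (Finset.mem_Ico.2 ⟨show N + 1 - R ≤ (p.1 : ℕ) by omega, p.1.isLt⟩)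
          · intro p _ p' _ he
            simp only [Prod.mk.injEq] at he
            exact Prod.ext (Fin.ext he.1) he.2
      _ ≤ (2 * R) * M := by
          rw [Finset.card_product, Finset.card_univ, Fintype.card_fin]
          refine Nat.mul_le_mul_right _ ((Finset.card_union_le _ _).trans ?_)
          simp
          omega
  have hblock : ∑ t ∈ T, (Q.inBlock H t).card
      ≤ Q.wild.card * (R * M) + ∑ t ∈ T, (2 * Q.lines H t + 2) := by
    calc ∑ t ∈ T, (Q.inBlock H t).card
        ≤ ∑ t ∈ T, ((if Q.Good H t then 0 else R * M) + (2 * Q.lines H t + 2)) := by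
          refine Finset.sum_le_sum fun t ht => ?_
          by_cases hg : Q.Good H t
          · rw [if_pos hg]
            have := Q.inBlock_le_free H t ht
            simp only [lines, if_pos hg, nlines]
            omega
          · rw [if_neg hg]
            have := Q.inBlock_card_le H t ht
            omega
      _ = (Q.bad H).card * (R * M) + ∑ t ∈ T, (2 * Q.lines H t + 2) := by
          rw [Finset.sum_add_distrib, Finset.sum_ite, Finset.sum_const_zero, zero_add,
            Finset.sum_const, smul_eq_mul]
          rfl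
      _ ≤ _ := by
          gcongr
          exact Q.bad_card_le H
  have := Finset.card_le_card hsub
  have := Finset.card_union_le E (T.biUnion (Q.inBlock H))
  have := Finset.card_biUnion_le (s := T) (t := Q.inBlock H)
  omega

theorem lines_le (t : ℕ) (ht : t ∈ H.starts Q.base N) :
    Q.lines H t ≤ (M * H.rt (iter h (t : ℕ) Q.base) + 1) / 2 := by
  classical
  unfold lines
  split
  swap
  · exact Nat.zero_le _
  set r := H.rt (iter h (t : ℕ) Q.base)
  have hsub : (free (Q.pattern H t)).card ≤ (Finset.range r ×ˢ (Finset.univ : Finset (Fin M))).card := by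
    refine Finset.card_le_card_of_injOn
      (fun i => (((finProdFinEquiv.symm i).1 : ℕ), (finProdFinEquiv.symm i).2)) ?_ ?_
    · intro i hi
      rw [Finset.mem_coe, mem_free] at hi
      refine Finset.mem_product.2 ⟨Finset.mem_range.2 ?_, Finset.mem_univ _⟩
      by_contra hc
      simp only [pattern] at hi
      rw [if_neg hc] at hi
      simp at hi
    · intro i _ j _ he
      simp only [Prod.mk.injEq] at he
      exact finProdFinEquiv.symm.injective (Prod.ext (Fin.ext he.1) he.2)
  simp only [Finset.card_product, Finset.card_range, Finset.card_univ, Fintype.card_fin] at hsub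
  unfold nlines
  rw [Nat.mul_comm M r]
  omega

end Vale.Agent.P093.Cube
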