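import Mathlib

/-!
# The crossed product in its regular representation on `ℓ²(X × ℤ)`
-/

open scoped InnerProductSpace ComplexConjugate

namespace Vale.Agent.P093

variable {X : Type} [TopologicalSpace X] [CompactSpace X]

/-- The integer iterates of `h`. -/
def iter (h : X ≃ₜ X) (n : ℤ) : X ≃ₜ X := h ^ n

/-- The Hilbert space `ℓ²(X × ℤ)`. -/
abbrev OrbitSpace (X : Type) : Type := lp (fun _ : X × ℤ => ℂ) 2

theorem memℓp_weighted (h : X ≃ₜ X) (g : C(X, ℂ)) (j : ℤ) (ξ : OrbitSpace X) :
    Memℓp (fun p : X × ℤ => g (iter h p.2 p.1) * ξ (p.1, p.2 - j)) 2 := by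
  apply memℓp_gen
  have hξ := (lp.memℓp ξ).summable (by norm_num : (0 : ℝ) < (2 : ENNReal).toReal)
  have h2 : (2 : ENNReal).toReal = ((2 : ℕ) : ℝ) := by norm_num
  simp only [h2, Real.rpow_natCast] at hξ ⊢
  have hsh : Summable fun p : X × ℤ => ‖ξ (p.1, p.2 - j)‖ ^ 2 :=
    (((Equiv.refl X).prodCongr (Equiv.subRight j)).summable_iff
      (f := fun p : X × ℤ => ‖ξ p‖ ^ 2)).2 hξ
  refine Summable.of_nonneg_of_le (fun p => by positivity) (fun p => ?_) (hsh.mul_left (‖g‖ ^ 2))
  rw [norm_mul, mul_pow]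
  gcongr
  exact g.norm_coe_le_norm _

/-- The operator `π(g) U^j` as a linear map:
`ξ ↦ ((x,n) ↦ g(hⁿx) ξ(x, n-j))`. -/
noncomputable def weightedShiftLin (h : X ≃ₜ X) (g : C(X, ℂ)) (j : ℤ) :
    OrbitSpace X →ₗ[ℂ] OrbitSpace X where
  toFun ξ := ⟨fun p => g (iter h p.2 p.1) * ξ (p.1, p.2 - j), memℓp_weighted h g j ξ⟩
  map_add' ξ η := lp.ext (funext fun p => mul_add _ _ _)
  map_smul' c ξ := by ext p; simp [mul_left_comm]

theorem weightedShiftLin_bound (h : X ≃ₜ X) (g : C(X, ℂ)) (j : ℤ) (ξ : OrbitSpace X) :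
    ‖weightedShiftLin h g j ξ‖ ≤ ‖g‖ * ‖ξ‖ := by
  have hp : (0 : ℝ) < (2 : ENNReal).toReal := by norm_num
  refine lp.norm_le_of_tsum_le hp (by positivity) ?_
  have h2 : (2 : ENNReal).toReal = ((2 : ℕ) : ℝ) := by norm_num
  have hξ := (lp.memℓp ξ).summable hp
  have hη := (lp.memℓp (weightedShiftLin h g j ξ)).summable hp
  have hnorm := lp.norm_rpow_eq_tsum hp ξ
  simp only [h2, Real.rpow_natCast] at hξ hη hnorm ⊢
  rw [mul_pow, hnorm, ← tsum_mul_left]
  have hsh : Summable fun p : X × ℤ => ‖g‖ ^ 2 * ‖ξ (p.1, p.2 - j)‖ ^ 2 :=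
    ((((Equiv.refl X).prodCongr (Equiv.subRight j)).summable_iff
      (f := fun p : X × ℤ => ‖ξ p‖ ^ 2)).2 hξ).mul_left _
  calc ∑' p, ‖weightedShiftLin h g j ξ p‖ ^ 2
      ≤ ∑' p : X × ℤ, ‖g‖ ^ 2 * ‖ξ (p.1, p.2 - j)‖ ^ 2 := by
        refine Summable.tsum_le_tsum (fun p => ?_) hη hsh
        show ‖g (iter h p.2 p.1) * ξ (p.1, p.2 - j)‖ ^ 2 ≤ _
        rw [norm_mul, mul_pow]
        gcongr
        exact g.norm_coe_le_norm _
    _ = ∑' p : X × ℤ, ‖g‖ ^ 2 * ‖ξ p‖ ^ 2 :=
        Equiv.tsum_eq ((Equiv.refl X).prodCongr (Equiv.subRight j))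
          (fun p : X × ℤ => ‖g‖ ^ 2 * ‖ξ p‖ ^ 2)

/-- The operator `π(g) U^j` on `ℓ²(X × ℤ)`. -/
noncomputable def weightedShift (h : X ≃ₜ X) (g : C(X, ℂ)) (j : ℤ) :
    OrbitSpace X →L[ℂ] OrbitSpace X :=
  (weightedShiftLin h g j).mkContinuous ‖g‖ (weightedShiftLin_bound h g j)

@[simp] theorem weightedShift_apply (h : X ≃ₜ X) (g : C(X, ℂ)) (j : ℤ) (ξ : OrbitSpace X)
    (p : X × ℤ) : weightedShift h g j ξ p = g (iter h p.2 p.1) * ξ (p.1, p.2 - j) := rfl

theorem iter_add (h : X ≃ₜ X) (m n : ℤ) (x : X) : iter h (m + n) x = iter h m (iter h n x) := by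
  simp only [iter, zpow_add]
  rfl

@[simp] theorem iter_zero (h : X ≃ₜ X) (x : X) : iter h 0 x = x := by
  simp only [iter, zpow_zero]
  rfl

/-- Pulling back along an iterate. -/
noncomputable def pull (h : X ≃ₜ X) (j : ℤ) (g : C(X, ℂ)) : C(X, ℂ) := g.comp (iter h j : C(X, X))

@[simp] theorem pull_apply (h : X ≃ₜ X) (j : ℤ) (g : C(X, ℂ)) (x : X) :
    pull h j g x = g (iter h j x) := rfl

theorem weightedShift_mul (h : X ≃ₜ X) (g g' : C(X, ℂ)) (j k : ℤ) :
    weightedShift h g j * weightedShift h g' k = weightedShift h (g * pull h (-j) g') (j + k) := by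
  refine ContinuousLinearMap.ext fun ξ => lp.ext (funext fun p => ?_)
  show g (iter h p.2 p.1) * weightedShift h g' k ξ (p.1, p.2 - j) = _
  rw [weightedShift_apply, weightedShift_apply]
  simp only [ContinuousMap.mul_apply, pull_apply, ← iter_add]
  rw [show p.2 - j - k = p.2 - (j + k) by ring, show -j + p.2 = p.2 - j by ring]
  ring

theorem weightedShift_one (h : X ≃ₜ X) : weightedShift h 1 0 = 1 := by
  refine ContinuousLinearMap.ext fun ξ => lp.ext (funext fun p => ?_)
  simp

theorem weightedShift_add (h : X ≃ₜ X) (g g' : C(X, ℂ)) (j : ℤ) :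
    weightedShift h (g + g') j = weightedShift h g j + weightedShift h g' j := by
  refine ContinuousLinearMap.ext fun ξ => lp.ext (funext fun p => ?_)
  simp [add_mul]

theorem weightedShift_smul (h : X ≃ₜ X) (c : ℂ) (g : C(X, ℂ)) (j : ℤ) :
    weightedShift h (c • g) j = c • weightedShift h g j := by
  refine ContinuousLinearMap.ext fun ξ => lp.ext (funext fun p => ?_)
  simp [mul_assoc]

theorem weightedShift_star (h : X ≃ₜ X) (g : C(X, ℂ)) (j : ℤ) :
    star (weightedShift h g j) = weightedShift h (pull h j (star g)) (-j) := by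
  rw [ContinuousLinearMap.star_eq_adjoint]
  refine ((ContinuousLinearMap.eq_adjoint_iff _ _).2 fun ξ η => ?_).symm
  rw [lp.inner_eq_tsum, lp.inner_eq_tsum,
    ← Equiv.tsum_eq ((Equiv.refl X).prodCongr (Equiv.subRight j))
      (fun p => ⟪weightedShift h (pull h j (star g)) (-j) ξ p, η p⟫_ℂ)]
  refine tsum_congr fun p => ?_
  simp [← iter_add, Prod.map]
  ring

/-- The bounded operators on `ℓ²(X × ℤ)`. -/
@[implicit_reducible] def Op (X : Type) : Type := OrbitSpace X →L[ℂ] OrbitSpace X

noncomputable instance instCStarAlgebraOp (X : Type) : CStarAlgebra (Op X) :=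
  (inferInstance : CStarAlgebra (OrbitSpace X →L[ℂ] OrbitSpace X))

/-- An element of `Op X` as a continuous linear map. -/
def Op.toCLM (T : Op X) : OrbitSpace X →L[ℂ] OrbitSpace X := T

/-- `T` is the operator `ξ ↦ ((x,n) ↦ g(hⁿx) ξ(x, n-j))`. -/
def IsWeightedShift (h : X ≃ₜ X) (g : C(X, ℂ)) (j : ℤ) (T : Op X) : Prop :=
  ∀ (ξ : OrbitSpace X) (x : X) (n : ℤ), T.toCLM ξ (x, n) = g (iter h n x) * ξ (x, n - j)

/-- The generators: the multiplication operators and the implementing unitary. -/
def generators (h : X ≃ₜ X) : Set (Op X) :=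
  {T | (∃ g : C(X, ℂ), IsWeightedShift h g 0 T) ∨ IsWeightedShift h 1 1 T}

/-- `π(g) U^j` as an element of `Op X`. -/
noncomputable def opShift (h : X ≃ₜ X) (g : C(X, ℂ)) (j : ℤ) : Op X := weightedShift h g j

theorem isWeightedShift_iff (h : X ≃ₜ X) (g : C(X, ℂ)) (j : ℤ) (T : Op X) :
    IsWeightedShift h g j T ↔ T = opShift h g j := by
  constructor
  · intro hT
    exact ContinuousLinearMap.ext fun ξ => lp.ext (funext fun p => hT ξ p.1 p.2)
  · rintro rfl ξ x n
    rfl

theorem opShift_mul (h : X ≃ₜ X) (g g' : C(X, ℂ)) (j k : ℤ) :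
    opShift h g j * opShift h g' k = opShift h (g * pull h (-j) g') (j + k) :=
  weightedShift_mul h g g' j k

theorem opShift_star (h : X ≃ₜ X) (g : C(X, ℂ)) (j : ℤ) :
    star (opShift h g j) = opShift h (pull h j (star g)) (-j) :=
  weightedShift_star h g j

theorem opShift_one (h : X ≃ₜ X) : opShift h 1 0 = 1 := weightedShift_one h

theorem opShift_add (h : X ≃ₜ X) (g g' : C(X, ℂ)) (j : ℤ) :
    opShift h (g + g') j = opShift h g j + opShift h g' j := weightedShift_add h g g' j

theorem opShift_smul (h : X ≃ₜ X) (c : ℂ) (g : C(X, ℂ)) (j : ℤ) :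
    opShift h (c • g) j = c • opShift h g j := weightedShift_smul h c g j

/-- The crossed product `C(X) ⋊ ℤ`: the C*-algebra of operators on `ℓ²(X × ℤ)` generated by the
multiplications `(x,n) ↦ g(hⁿx)` and the shift. -/
noncomputable def algebra (h : X ≃ₜ X) : StarSubalgebra ℂ (Op X) :=
  (StarAlgebra.adjoin ℂ (generators h)).topologicalClosure

/-- The crossed product as a type. -/
@[implicit_reducible] def CP (h : X ≃ₜ X) : Type := algebra h

noncomputable instance instCStarAlgebraCP (h : X ≃ₜ X) : CStarAlgebra (CP h) :=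
  StarSubalgebra.cstarAlgebra (algebra h)
    (h_closed := StarSubalgebra.isClosed_topologicalClosure _)

/-- An element of the crossed product as an operator. -/
def CP.op {h : X ≃ₜ X} (z : CP h) : OrbitSpace X →L[ℂ] OrbitSpace X := Op.toCLM (z : algebra h).1

theorem CP.op_sub {h : X ≃ₜ X} (z w : CP h) : CP.op (z - w) = CP.op z - CP.op w := rfl

theorem CP.op_mul {h : X ≃ₜ X} (z w : CP h) : CP.op (z * w) = CP.op z * CP.op w := rfl

theorem CP.op_zero {h : X ≃ₜ X} : CP.op (0 : CP h) = 0 := rfl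

theorem CP.op_sum {h : X ≃ₜ X} {ι : Type*} (s : Finset ι) (z : ι → CP h) :
    CP.op (∑ i ∈ s, z i) = ∑ i ∈ s, CP.op (z i) :=
  map_sum ({ toFun := CP.op, map_zero' := rfl, map_add' := fun _ _ => rfl } :
    CP h →+ (OrbitSpace X →L[ℂ] OrbitSpace X)) z s

theorem CP.norm_op {h : X ≃ₜ X} (z : CP h) : ‖CP.op z‖ = ‖z‖ := rfl

theorem opShift_zero_mem (h : X ≃ₜ X) (g : C(X, ℂ)) : opShift h g 0 ∈ algebra h :=
  StarSubalgebra.le_topologicalClosure _
    (StarAlgebra.subset_adjoin ℂ _ (Or.inl ⟨g, (isWeightedShift_iff h g 0 _).2 rfl⟩))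

theorem opShift_mem (h : X ≃ₜ X) (j : ℤ) : opShift h 1 j ∈ algebra h := by
  have h1 : opShift h (1 : C(X, ℂ)) 1 ∈ algebra h :=
    StarSubalgebra.le_topologicalClosure _
      (StarAlgebra.subset_adjoin ℂ _ (Or.inr ((isWeightedShift_iff h 1 1 _).2 rfl)))
  have hone : ∀ j, pull h j (1 : C(X, ℂ)) = 1 := fun j => ContinuousMap.ext fun x => by simp
  have hneg : opShift h (1 : C(X, ℂ)) (-1) ∈ algebra h := by
    have := star_mem h1
    rwa [opShift_star, star_one, hone] at this
  induction j using Int.induction_on with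
  | zero => exact opShift_zero_mem h 1
  | succ k ih =>
    have := mul_mem ih h1
    rwa [opShift_mul, hone, one_mul] at this
  | pred k ih =>
    have := mul_mem ih hneg
    rwa [opShift_mul, hone, one_mul] at this

/-- The multiplication operators inside the crossed product. -/
noncomputable def mult (h : X ≃ₜ X) : C(X, ℂ) →⋆ₐ[ℂ] CP h where
  toFun g := (⟨opShift h g 0, opShift_zero_mem h g⟩ : algebra h)
  map_one' := Subtype.ext (opShift_one h)
  map_mul' g g' := Subtype.ext (by
    have := opShift_mul h g g' 0 0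
    simp only [neg_zero, add_zero] at this
    rw [show pull h 0 g' = g' from ContinuousMap.ext fun x => by simp] at this
    exact this.symm)
  map_zero' := Subtype.ext (by
    refine ContinuousLinearMap.ext fun ξ => lp.ext (funext fun p => ?_)
    show (0 : C(X, ℂ)) (iter h p.2 p.1) * ξ (p.1, p.2 - 0) = 0
    simp)
  map_add' g g' := Subtype.ext (opShift_add h g g' 0)
  commutes' c := Subtype.ext (by
    show opShift h (algebraMap ℂ C(X, ℂ) c) 0 = algebraMap ℂ (Op X) c
    rw [Algebra.algebraMap_eq_smul_one, opShift_smul, opShift_one, Algebra.algebraMap_eq_smul_one])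
  map_star' g := Subtype.ext (by
    show opShift h (star g) 0 = star (opShift h g 0)
    rw [opShift_star, neg_zero]
    congr 1
    all_goals exact (ContinuousMap.ext fun x => by simp))

/-- The implementing unitaries inside the crossed product. -/
noncomputable def shift (h : X ≃ₜ X) (j : ℤ) : CP h := (⟨opShift h 1 j, opShift_mem h j⟩ : algebra h)

theorem shift_mult (h : X ≃ₜ X) (g : C(X, ℂ)) (j : ℤ) :
    shift h j * mult h g * shift h (-j) = mult h (pull h (-j) g) := by
  apply Subtype.ext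
  show opShift h 1 j * opShift h g 0 * opShift h 1 (-j) = opShift h (pull h (-j) g) 0
  rw [opShift_mul, opShift_mul]
  congr 1
  · exact ContinuousMap.ext fun x => by simp
  · ring

theorem shift_neg_mul (h : X ≃ₜ X) (j : ℤ) : shift h (-j) * shift h j = 1 := by
  apply Subtype.ext
  show opShift h 1 (-j) * opShift h 1 j = 1
  rw [opShift_mul, ← opShift_one h]
  congr 1
  · exact ContinuousMap.ext fun x => by simp
  · ring

/-- Finite sums of operators `π(g) U^j`. -/
noncomputable def polySpan (h : X ≃ₜ X) : Submodule ℂ (Op X) :=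
  Submodule.span ℂ (Set.range fun p : C(X, ℂ) × ℤ => opShift h p.1 p.2)

theorem adjoin_subset_polySpan (h : X ≃ₜ X) {z : Op X}
    (hz : z ∈ StarAlgebra.adjoin ℂ (generators h)) : z ∈ polySpan h := by
  have hgen : ∀ g j, opShift h g j ∈ polySpan h :=
    fun g j => Submodule.subset_span ⟨(g, j), rfl⟩
  induction hz using StarAlgebra.adjoin_induction with
  | mem z hz =>
    rcases hz with ⟨g, hg⟩ | hg
    · rw [(isWeightedShift_iff h g 0 z).1 hg]; exact hgen g 0
    · rw [(isWeightedShift_iff h 1 1 z).1 hg]; exact hgen 1 1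
  | algebraMap c =>
    rw [Algebra.algebraMap_eq_smul_one, ← opShift_one h, ← opShift_smul]
    exact hgen _ _
  | add z w _ _ hz hw => exact add_mem hz hw
  | mul z w hza hwa hz hw =>
    clear hza hwa
    induction hz using Submodule.span_induction with
    | mem z hz =>
      obtain ⟨⟨g, j⟩, rfl⟩ := hz
      induction hw using Submodule.span_induction with
      | mem w hw =>
        obtain ⟨⟨g', k⟩, rfl⟩ := hw
        rw [opShift_mul]
        exact hgen _ _
      | zero => rw [mul_zero]; exact zero_mem _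
      | add a b _ _ ha hb => rw [mul_add]; exact add_mem ha hb
      | smul c a _ ha => rw [mul_smul_comm]; exact Submodule.smul_mem _ c ha
    | zero => rw [zero_mul]; exact zero_mem _
    | add a b _ _ ha hb => rw [add_mul]; exact add_mem ha hb
    | smul c a _ ha => rw [smul_mul_assoc]; exact Submodule.smul_mem _ c ha
  | star z hza hz =>
    clear hza
    induction hz using Submodule.span_induction with
    | mem z hz =>
      obtain ⟨⟨g, j⟩, rfl⟩ := hz
      rw [opShift_star]
      exact hgen _ _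
    | zero => rw [star_zero]; exact zero_mem _
    | add a b _ _ ha hb => rw [star_add]; exact add_mem ha hb
    | smul c a _ ha => rw [star_smul]; exact Submodule.smul_mem _ _ ha

/-- The unit vector at `(x, n)`. -/
noncomputable def basisVec (x : X) (n : ℤ) : OrbitSpace X :=
  open scoped Classical in lp.single 2 (x, n) 1

/-- An operator has continuous coefficients along orbits, supported in a band. -/
def Banded (h : X ≃ₜ X) (R : ℕ) (z : OrbitSpace X →L[ℂ] OrbitSpace X) : Prop :=
  (∀ (k j : ℤ), Continuous fun x => z (basisVec x k) (x, j)) ∧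
    (∀ (x x' : X) (k j : ℤ), x' ≠ x → z (basisVec x k) (x', j) = 0) ∧
    ∀ (x x' : X) (k j : ℤ), (R : ℤ) < |j - k| → z (basisVec x k) (x', j) = 0

theorem weightedShift_basisVec (h : X ≃ₜ X) (g : C(X, ℂ)) (m k j : ℤ) (x x' : X)
    [Decidable (x' = x ∧ j - m = k)] :
    weightedShift h g m (basisVec x k) (x', j)
      = g (iter h j x') * if x' = x ∧ j - m = k then 1 else 0 := by
  classical
  rw [weightedShift_apply]
  congr 1
  by_cases h' : x' = x ∧ j - m = k
  · rw [if_pos h', h'.1, h'.2]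
    simp [basisVec, lp.single_apply]
  · rw [if_neg h']
    simp [basisVec, lp.single_apply, Pi.single_apply, h']

theorem exists_banded (h : X ≃ₜ X) {z : Op X} (hz : z ∈ polySpan h) :
    ∃ R, Banded h R z.toCLM := by
  classical
  induction hz using Submodule.span_induction with
  | mem z hz =>
    obtain ⟨⟨g, m⟩, rfl⟩ := hz
    show ∃ R, Banded h R (weightedShift h g m)
    refine ⟨m.natAbs, fun k j => ?_, fun x x' k j hx => ?_, fun x x' k j hkj => ?_⟩
    · simp only [weightedShift_basisVec, true_and]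
      exact (g.continuous.comp (iter h j).continuous).mul continuous_const
    · rw [weightedShift_basisVec]
      simp [hx]
    · rw [weightedShift_basisVec, if_neg, mul_zero]
      rintro ⟨-, hh⟩
      have : |j - k| = (m.natAbs : ℤ) := by
        rw [show j - k = m by omega, Int.abs_eq_natAbs]
      omega
  | zero =>
    show ∃ R, Banded h R (0 : OrbitSpace X →L[ℂ] OrbitSpace X)
    exact ⟨0, fun k j => by simpa using continuous_const, by simp, by simp⟩
  | add a b _ _ ha hb =>
    show ∃ R, Banded h R (a.toCLM + b.toCLM)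
    obtain ⟨R, hR⟩ := ha
    obtain ⟨R', hR'⟩ := hb
    refine ⟨max R R', fun k j => ?_, fun x x' k j hx => ?_, fun x x' k j hkj => ?_⟩
    · simp only [_root_.add_apply, lp.coeFn_add, Pi.add_apply]
      exact (hR.1 k j).add (hR'.1 k j)
    · simp [hR.2.1 x x' k j hx, hR'.2.1 x x' k j hx]
    · have h1 : (R : ℤ) < |j - k| := by push_cast at hkj; omega
      have h2 : (R' : ℤ) < |j - k| := by push_cast at hkj; omega
      simp [hR.2.2 x x' k j h1, hR'.2.2 x x' k j h2]
  | smul c a _ ha =>
    show ∃ R, Banded h R (c • a.toCLM)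
    obtain ⟨R, hR⟩ := ha
    refine ⟨R, fun k j => ?_, fun x x' k j hx => ?_, fun x x' k j hkj => ?_⟩
    · simp only [_root_.smul_apply, lp.coeFn_smul, Pi.smul_apply, smul_eq_mul]
      exact continuous_const.mul (hR.1 k j)
    · simp [hR.2.1 x x' k j hx]
    · simp [hR.2.2 x x' k j hkj]

/-- Elements that are finite sums of `π(g) U^j` are dense. -/
theorem dense_banded (h : X ≃ₜ X) : Dense {z : CP h | ∃ R, Banded h R (CP.op z)} := by
  show Dense {z : algebra h | ∃ R, Banded h R z.1.toCLM}
  intro z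
  rw [closure_subtype]
  have hz : (z : Op X) ∈
      closure ((StarAlgebra.adjoin ℂ (generators h) : StarSubalgebra ℂ _) : Set _) := by
    rw [← StarSubalgebra.topologicalClosure_coe]
    exact z.2
  refine closure_mono ?_ hz
  intro w hw
  exact ⟨⟨w, StarSubalgebra.le_topologicalClosure _ hw⟩,
    exists_banded h (adjoin_subset_polySpan h hw), rfl⟩

end Vale.Agent.P093
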