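import Vale.Agent.P093.Crossed

/-!
# Radius of comparison of the crossed product, and the hypotheses on the dynamics
-/

namespace Vale.Agent.P093

open Filter

variable {X : Type} [TopologicalSpace X] [CompactSpace X]

noncomputable instance instPartialOrderCP (h : X ≃ₜ X) : PartialOrder (CP h) :=
  CStarAlgebra.spectralOrder _

instance instStarOrderedRingCP (h : X ≃ₜ X) : StarOrderedRing (CP h) :=
  CStarAlgebra.spectralOrderedRing _

/-- Matrices over the crossed product, with their C*-algebra structure. -/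
abbrev Mat (h : X ≃ₜ X) (q : ℕ) : Type := CStarMatrix (Fin q) (Fin q) (CP h)

/-- The real functional calculus on matrices over the crossed product (Mathlib's instance). -/
noncomputable instance instRealCFCMat (h : X ≃ₜ X) (q : ℕ) :
    ContinuousFunctionalCalculus ℝ (Mat h q) IsSelfAdjoint :=
  IsSelfAdjoint.instContinuousFunctionalCalculus

noncomputable instance instNonnegSpectrumMat (h : X ≃ₜ X) (q : ℕ) :
    NonnegSpectrumClass ℝ (Mat h q) :=
  CStarAlgebra.instNonnegSpectrumClass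

/-- A tracial state: a linear functional with `τ(1) = 1`, `τ(x*x) ≥ 0` and `τ(xy) = τ(yx)`. -/
structure TracialState (h : X ≃ₜ X) where
  /-- The functional. -/
  toLin : CP h →ₗ[ℂ] ℂ
  map_one : toLin 1 = 1
  nonneg : ∀ x : CP h, ∃ t : ℝ, 0 ≤ t ∧ toLin (star x * x) = (t : ℂ)
  tracial : ∀ x y : CP h, toLin (x * y) = toLin (y * x)

/-- `(τ ⊗ Tr)(a)`, as a real number. -/
noncomputable def trace {h : X ≃ₜ X} (τ : TracialState h) {q : ℕ} (a : Mat h q) : ℝ :=
  ∑ i, (τ.toLin (a i i)).re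

/-- `d_τ(a) = lim (τ ⊗ Tr)(a^{1/m})` (the limit exists for positive `a`). -/
noncomputable def dtau {h : X ≃ₜ X} (τ : TracialState h) {q : ℕ} (a : Mat h q) : ℝ :=
  limUnder atTop fun m : ℕ => trace τ (a ^ ((m : ℝ) + 1)⁻¹)

/-- The upper-left corner inclusion of `M_q` in `M_n`. -/
noncomputable def pad {h : X ≃ₜ X} {q : ℕ} (n : ℕ) (a : Mat h q) : Mat h n :=
  CStarMatrix.ofMatrix fun i j =>
    if hi : (i : ℕ) < q then if hj : (j : ℕ) < q then a ⟨i, hi⟩ ⟨j, hj⟩ else 0 else 0

/-- Cuntz subequivalence in `M_∞`: `a ≾ b` when `a` is a norm limit of `x* b x`. -/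
def CuntzLE {h : X ≃ₜ X} {q : ℕ} (a b : Mat h q) : Prop :=
  ∀ ε : ℝ, 0 < ε → ∃ n : ℕ, q ≤ n ∧
    ∃ x : Mat h n, ‖star x * pad n b * x - pad n a‖ < ε

/-- `r` is a comparison bound for the crossed product of `h`. -/
def IsComparisonBound (h : X ≃ₜ X) (r : ℝ) : Prop :=
  0 ≤ r ∧ ∀ (q : ℕ) (a b : Mat h q), 0 ≤ a → 0 ≤ b →
    (∀ τ : TracialState h, dtau τ a + r < dtau τ b) → CuntzLE a b

/-- Window images contain axis-parallel cubes of dimension at least `m N`: for arbitrarily large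
`N` there are a set `J` of at least `m N` of the `N·M` window coordinates and a continuous map `σ`
of the cube on `J` into `X` along which these coordinates are the cube coordinates and all other
window coordinates are constant. -/
def CubeWindows (h : X ≃ₜ X) {M : ℕ} (f : C(X, Fin M → ℝ)) (m : ℝ) : Prop :=
  ∀ N₀ : ℕ, ∃ N : ℕ, N₀ ≤ N ∧ ∃ J : Finset (Fin N × Fin M), m * N ≤ J.card ∧
    ∃ σ : C(↥J → unitInterval, X),
      (∀ y (p : ↥J), f (h^[(p.1.1 : ℕ)] (σ y)) p.1.2 = (y p : ℝ)) ∧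
      ∀ p : Fin N × Fin M, p ∉ J → ∀ y y',
        f (h^[(p.1 : ℕ)] (σ y)) p.2 = f (h^[(p.1 : ℕ)] (σ y')) p.2

/-- For every `L` some clopen set has return times at least `L` and is reached from every point
in boundedly many steps. -/
def HasLongReturns (h : X ≃ₜ X) : Prop :=
  ∀ L : ℕ, ∃ C : Set X, IsClopen C ∧ (∀ x ∈ C, ∀ k, 0 < k → k < L → h^[k] x ∉ C) ∧
    ∃ R : ℕ, ∀ x, ∃ k, k < R ∧ h^[k] x ∈ C

end Vale.Agent.P093
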