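import Vale.Agent.P093.Field

/-!
# Diagonal matrices of real functions in the matrices over the crossed product
-/

namespace Vale.Agent.P093

variable {X : Type} [TopologicalSpace X]

/-- A real function as a complex one. -/
noncomputable def cplxC (g : C(X, ℝ)) : C(X, ℂ) :=
  ⟨fun x => (g x : ℂ), Complex.continuous_ofReal.comp g.continuous⟩

@[simp] theorem cplxC_apply (g : C(X, ℝ)) (x : X) : cplxC g x = (g x : ℂ) := rfl

variable [CompactSpace X]

/-- The diagonal matrix with the functions `g p` on the diagonal. -/
noncomputable def diagMat (h : X ≃ₜ X) {n : ℕ} (g : Fin n → C(X, ℝ)) : Mat h n :=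
  multMat h fun p p' => if p = p' then cplxC (g p) else 0

theorem diagMat_nonneg (h : X ≃ₜ X) {n : ℕ} (g : Fin n → C(X, ℝ)) (hg : ∀ p x, 0 ≤ g p x) :
    0 ≤ diagMat h g := by
  classical
  let r : Fin n → Fin n → C(X, ℂ) := fun p p' =>
    if p = p' then cplxC ⟨fun x => Real.sqrt (g p x), Real.continuous_sqrt.comp (g p).continuous⟩
    else 0
  have : star (multMat h r) * multMat h r = diagMat h g := by
    refine multMat_star_mul _ _ fun x p p' => ?_
    rw [Finset.sum_eq_single p]
    · by_cases hp : p = p'
      · subst hp
        simp [r, ← Complex.ofReal_mul, Real.mul_self_sqrt (hg p x)]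
      · simp [r, hp]
    · intro k _ hne
      simp [r, hne]
    · exact fun hc => absurd (Finset.mem_univ _) hc
  rw [← this]
  exact star_mul_self_nonneg _

end Vale.Agent.P093
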