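import Vale.Agent.P093.Lines

/-!
# Spheres inside faces of a cube, and a field of Bloch vectors on the cube
-/

namespace Vale.Agent.P093

open Matrix

instance : T2Space Sph :=
  inferInstanceAs <| T2Space {v : Fin 3 → ℝ // v 0 ^ 2 + v 1 ^ 2 + v 2 ^ 2 = 1}

instance : CompactSpace Sph := by
  refine isCompact_iff_compactSpace.1 ?_
  refine Metric.isCompact_of_isClosed_isBounded (isClosed_eq (by fun_prop) continuous_const) ?_
  refine (Metric.isBounded_closedBall (x := (0 : Fin 3 → ℝ)) (r := 1)).subset fun v hv => ?_
  rw [mem_closedBall_zero_iff, pi_norm_le_iff_of_nonneg zero_le_one]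
  intro i
  rw [Real.norm_eq_abs, abs_le]
  replace hv : v 0 ^ 2 + v 1 ^ 2 + v 2 ^ 2 = 1 := hv
  have := sq_nonneg (v 0)
  have := sq_nonneg (v 1)
  have := sq_nonneg (v 2)
  fin_cases i <;> simp <;> constructor <;> nlinarith

theorem Sph.continuous_val : Continuous fun s : Sph => s.1 := continuous_subtype_val

namespace Embed

/-- A continuous injection of a product of `l` spheres into `ℝ^(2l+1)`. -/
noncomputable def gam : (l : ℕ) → (Fin l → Sph) → Fin (2 * l + 1) → ℝ
  | 0, _ => fun _ => 0
  | l + 1, s => fun k =>
      if h : (k : ℕ) < 3 then Real.exp (gam l (Fin.tail s) 0) * (s 0).1 ⟨k, h⟩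
      else gam l (Fin.tail s) ⟨(k : ℕ) - 2, by have := k.isLt; omega⟩

theorem continuous_gam : ∀ l, Continuous (gam l)
  | 0 => by
    show Continuous fun _ : Fin 0 → Sph => fun _ : Fin 1 => (0 : ℝ)
    fun_prop
  | l + 1 => by
    have ih := continuous_gam l
    have ht : Continuous fun s : Fin (l + 1) → Sph => gam l (Fin.tail s) :=
      ih.comp (continuous_pi fun i => continuous_apply _)
    refine continuous_pi fun k => ?_
    simp only [gam]
    by_cases h : (k : ℕ) < 3
    · simp only [dif_pos h]
      exact (Real.continuous_exp.comp ((continuous_apply 0).comp ht)).mul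
        ((continuous_apply _).comp (Sph.continuous_val.comp (continuous_apply 0)))
    · simp only [dif_neg h]
      exact (continuous_apply _).comp ht

theorem gam_injective : ∀ l, Function.Injective (gam l)
  | 0 => fun _ _ _ => funext fun i => i.elim0
  | l + 1 => by
    intro s t h
    have h3 : ∀ k : Fin 3, Real.exp (gam l (Fin.tail s) 0) * (s 0).1 k
        = Real.exp (gam l (Fin.tail t) 0) * (t 0).1 k := by
      intro k
      have := congrFun h ⟨k, by have := k.isLt; omega⟩
      simpa [gam] using this
    have hs := (s 0).2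
    have ht := (t 0).2
    have hsq : Real.exp (gam l (Fin.tail s) 0) ^ 2 = Real.exp (gam l (Fin.tail t) 0) ^ 2 := by
      calc Real.exp (gam l (Fin.tail s) 0) ^ 2
          = (Real.exp (gam l (Fin.tail s) 0) * (s 0).1 0) ^ 2
            + (Real.exp (gam l (Fin.tail s) 0) * (s 0).1 1) ^ 2
            + (Real.exp (gam l (Fin.tail s) 0) * (s 0).1 2) ^ 2 := by
              linear_combination -(Real.exp (gam l (Fin.tail s) 0) ^ 2) * hs
        _ = Real.exp (gam l (Fin.tail t) 0) ^ 2 := by
              rw [h3, h3, h3]
              linear_combination (Real.exp (gam l (Fin.tail t) 0) ^ 2) * ht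
    have hexp : Real.exp (gam l (Fin.tail s) 0) = Real.exp (gam l (Fin.tail t) 0) :=
      pow_left_injective₀_of_nonneg hsq
    have hg0 := Real.exp_injective hexp
    have h00 : s 0 = t 0 := by
      apply Subtype.ext
      funext k
      have := h3 k
      rw [hexp] at this
      exact mul_left_cancel₀ (Real.exp_pos _).ne' this
    have htl : Fin.tail s = Fin.tail t := by
      apply gam_injective l
      funext j
      by_cases hj : (j : ℕ) = 0
      · rwa [show j = 0 from Fin.ext hj]
      · have := congrFun h ⟨(j : ℕ) + 2, by have := j.isLt; omega⟩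
        simpa [gam, show ¬ (j : ℕ) + 2 < 3 by omega] using this
    rw [← Fin.cons_self_tail s, ← Fin.cons_self_tail t, h00, htl]
where
  pow_left_injective₀_of_nonneg {a b : ℝ} (h : Real.exp a ^ 2 = Real.exp b ^ 2) :
      Real.exp a = Real.exp b := by
    have := Real.exp_pos a
    have := Real.exp_pos b
    nlinarith

/-- The free coordinates of a pattern. -/
def free {D : ℕ} (P : Fin D → Option Bool) : Finset (Fin D) :=
  Finset.univ.filter fun i => P i = none

/-- The number of spheres carried by a pattern. -/
def nlines {D : ℕ} (P : Fin D → Option Bool) : ℕ := ((free P).card - 1) / 2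

theorem mem_free {D : ℕ} {P : Fin D → Option Bool} {i : Fin D} : i ∈ free P ↔ P i = none := by
  simp [free]

/-- The embedding of a product of spheres in the face given by a pattern. -/
noncomputable def emb {D : ℕ} (P : Fin D → Option Bool) (s : Fin (nlines P) → Sph) :
    Fin D → ℝ := fun i =>
  if h : i ∈ free P then
    if h' : (((free P).equivFin ⟨i, h⟩ : Fin _) : ℕ) < 2 * nlines P + 1 then
      1 / 2 + Real.arctan (gam _ s ⟨_, h'⟩) / Real.pi
    else 1 / 2
  else if P i = some true then 1 else 0

theorem continuous_emb {D : ℕ} (P : Fin D → Option Bool) : Continuous (emb P) := by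
  refine continuous_pi fun i => ?_
  unfold emb
  by_cases h : i ∈ free P
  · simp only [dif_pos h]
    split
    · exact continuous_const.add ((Real.continuous_arctan.comp
        ((continuous_apply _).comp (continuous_gam _))).div_const _)
    · exact continuous_const
  · simp only [dif_neg h]
    exact continuous_const

theorem squash_mem (x : ℝ) :
    0 < 1 / 2 + Real.arctan x / Real.pi ∧ 1 / 2 + Real.arctan x / Real.pi < 1 := by
  have h1 := Real.neg_pi_div_two_lt_arctan x
  have h2 := Real.arctan_lt_pi_div_two x
  have hp := Real.pi_pos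
  constructor
  · have : -(1 / 2 : ℝ) < Real.arctan x / Real.pi := by
      rw [lt_div_iff₀ hp]; linarith
    linarith
  · have : Real.arctan x / Real.pi < 1 / 2 := by
      rw [div_lt_iff₀ hp]; linarith
    linarith

theorem emb_free {D : ℕ} (P : Fin D → Option Bool) (s : Fin (nlines P) → Sph) (i : Fin D) :
    (P i = none → 0 < emb P s i ∧ emb P s i < 1) ∧
      (∀ x, P i = some x → emb P s i = if x then 1 else 0) := by
  constructor
  · intro h
    unfold emb
    rw [dif_pos (mem_free.2 h)]
    split
    · exact squash_mem _
    · constructor <;> norm_num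
  · intro x hx
    unfold emb
    rw [dif_neg (fun h => by rw [mem_free] at h; simp [h] at hx), hx]
    simp

theorem emb_injective {D : ℕ} :
    Function.Injective fun p : Σ P : Fin D → Option Bool, (Fin (nlines P) → Sph) => emb p.1 p.2 := by
  rintro ⟨P, s⟩ ⟨Q, t⟩ h
  simp only at h
  have hPQ : P = Q := by
    funext i
    have hi := congrFun h i
    have hP := emb_free P s i
    have hQ := emb_free Q t i
    rcases hp : P i with _ | x <;> rcases hq : Q i with _ | y
    · rfl
    · have h1 := hP.1 hp
      rw [hi, hQ.2 y hq] at h1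
      cases y <;> norm_num at h1
    · have h1 := hQ.1 hq
      rw [← hi, hP.2 x hp] at h1
      cases x <;> norm_num at h1
    · rw [hP.2 x hp, hQ.2 y hq] at hi
      cases x <;> cases y <;> simp at hi ⊢
  subst hPQ
  congr 1
  by_cases hl : nlines P = 0
  · funext i
    exact absurd i.isLt (by omega)
  apply gam_injective
  funext k
  have hk : (k : ℕ) < (free P).card := by
    have := k.isLt
    unfold nlines at *
    omega
  set i := (free P).equivFin.symm ⟨k, hk⟩ with hi
  have hi2 : i.1 ∈ free P := i.2
  have := congrFun h i.1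
  have he : (((free P).equivFin ⟨i.1, hi2⟩ : Fin _) : ℕ) = k := by
    simp [hi]
  unfold emb at this
  rw [dif_pos hi2, dif_pos hi2, dif_pos (by rw [he]; exact k.isLt),
    dif_pos (by rw [he]; exact k.isLt)] at this
  have h0 := add_left_cancel this
  rw [div_left_inj' Real.pi_pos.ne'] at h0
  have h' := Real.arctan_injective h0
  simpa [he] using h'

/-- A field of Bloch vectors on the cube: on each embedded product of spheres the first
coordinates are the tautological ones, the others constant. -/
theorem exists_field (D d : ℕ) :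
    ∃ v : Fin d → (Fin D → ℝ) → Fin 3 → ℝ, (∀ i, Continuous (v i)) ∧
      (∀ i x, v i x 0 ^ 2 + v i x 1 ^ 2 + v i x 2 ^ 2 ≤ 1) ∧
      ∀ (P : Fin D → Option Bool) (s : Fin (nlines P) → Sph) (i : Fin d),
        v i (emb P s) = if h : (i : ℕ) < nlines P then (s ⟨i, h⟩).1 else ![0, 0, 1] := by
  classical
  let K := Σ P : Fin D → Option Bool, (Fin (nlines P) → Sph)
  have hcont : Continuous fun p : K => emb p.1 p.2 :=
    continuous_sigma fun P => continuous_emb P
  have hemb : Topology.IsClosedEmbedding fun p : K => emb p.1 p.2 :=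
    hcont.isClosedEmbedding emb_injective
  let tgt : K → Fin d → Fin 3 → ℝ := fun p i =>
    if h : (i : ℕ) < nlines p.1 then (p.2 ⟨i, h⟩).1 else ![0, 0, 1]
  have htgt : Continuous tgt := by
    refine continuous_pi fun i => continuous_sigma fun P => ?_
    by_cases h : (i : ℕ) < nlines P
    · simp only [tgt, dif_pos h]
      exact Sph.continuous_val.comp (continuous_apply _)
    · simp only [tgt, dif_neg h]
      exact continuous_const
  obtain ⟨g, hg⟩ := ContinuousMap.exists_extension hemb ⟨tgt, htgt⟩
  let nr : (Fin 3 → ℝ) → ℝ := fun u => max 1 (Real.sqrt (u 0 ^ 2 + u 1 ^ 2 + u 2 ^ 2))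
  have hnr : Continuous nr := by unfold nr; fun_prop
  have hnr1 : ∀ u, 1 ≤ nr u := fun u => le_max_left _ _
  refine ⟨fun i x k => g x i k / nr (g x i), fun i => continuous_pi fun k => ?_, fun i x => ?_,
    fun P s i => ?_⟩
  · have hgi : Continuous fun x => g x i := (continuous_apply i).comp g.continuous
    exact ((continuous_apply k).comp hgi).div (hnr.comp hgi)
      fun x => (lt_of_lt_of_le one_pos (hnr1 _)).ne'
  · have h1 := hnr1 (g x i)
    simp only [div_pow, ← add_div]
    rw [div_le_one (by positivity)]
    have h2 : Real.sqrt (g x i 0 ^ 2 + g x i 1 ^ 2 + g x i 2 ^ 2) ≤ nr (g x i) := le_max_right _ _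
    exact (Real.sqrt_le_left (by positivity)).1 h2
  · have h1 : g (emb P s) i = tgt ⟨P, s⟩ i :=
      congrFun (congrArg (fun f : C(K, Fin d → Fin 3 → ℝ) => f ⟨P, s⟩) hg) i
    have h2 : nr (tgt ⟨P, s⟩ i) = 1 := by
      apply max_eq_left
      apply le_of_eq
      simp only [tgt]
      split
      · next h => rw [(s ⟨i, h⟩).2, Real.sqrt_one]
      · simp
    funext k
    simp only [h1, h2, div_one]
    rfl

end Embed

end Vale.Agent.P093
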