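import Mathlib

/-!
# A Borsuk-Ulam theorem for products of boxes

Combinatorial proof, by a mod 2 count over the symmetric Freudenthal triangulation of a grid box
in which antipodal points of each block of coordinates are identified on the boundary.
-/

namespace Vale.Agent.P093.Engine

open Finset

variable {ι β : Type*} [Fintype ι] [DecidableEq ι] [DecidableEq β]

/-- Negate the coordinates in block `B`. -/
def flip {α : Type*} [Neg α] (b : ι → β) (B : β) (v : ι → α) : ι → α :=
  fun i => if b i = B then -v i else v i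

/-- The parity of component `i` under the flip of block `B`. -/
def par (b : ι → β) (w0 : β) (tw : ι → Bool) (i : ι) (B : β) : ZMod 2 :=
  (if b i = B then 1 else 0) + (if tw i = true ∧ B = w0 then 1 else 0)

/-- The sign of a Boolean. -/
def sg (x : Bool) : ℤ := if x then 1 else -1

theorem sg_not (x : Bool) : sg (!x) = -sg x := by cases x <;> rfl

/-- The index set of top simplices: a permutation, a centre and a corner. -/
abbrev Simp (ι : Type*) [Fintype ι] (R : ℕ) : Type _ :=
  (Fin (Fintype.card ι) ≃ ι) × (ι → Fin R) × (ι → Bool)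

/-- The centre of a grid cube. -/
def ctr {R : ℕ} (S : Simp ι R) (i : ι) : ℤ := 2 * (S.2.1 i : ℤ) - R + 1

/-- The `m`th vertex. -/
def pt {R : ℕ} (S : Simp ι R) (m : ℕ) : ι → ℤ :=
  fun i => if (S.1.symm i : ℕ) < m then ctr S i else ctr S i + sg (S.2.2 i)

/-- `v` lies on the boundary of block `B`. -/
def OnBd (b : ι → β) (R : ℕ) (B : β) (v : ι → ℤ) : Prop :=
  ∃ i, b i = B ∧ (v i = R ∨ v i = -(R : ℤ))

/-- A labelling with the prescribed parities. -/
def Good (b : ι → β) (w0 : β) (tw : ι → Bool) (R : ℕ) (s : ι → (ι → ℤ) → ZMod 2) : Prop :=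
  ∀ i v B, OnBd b R B v → s i (flip b B v) = s i v + par b w0 tw i B

/-- The mod 2 count of a labelling. -/
def count (R : ℕ) (e : Fin (Fintype.card ι) ≃ ι) (s : ι → (ι → ℤ) → ZMod 2) : ZMod 2 :=
  ∑ S : Simp ι R, ∏ m : Fin (Fintype.card ι), (s (e m) (pt S m) + s (e m) (pt S ((m : ℕ) + 1)))

/-! ## The telescoping identity -/

/-- Sequence with the term `i` omitted. -/
def omit' {V : Type*} (p : ℕ → V) (i m : ℕ) : V := if m < i then p m else p (m + 1)

theorem two_cancel (x y : ZMod 2) : x + x + y = y := by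
  rw [CharTwo.add_self_eq_zero, zero_add]

theorem left_identity {V : Type*} (p : ℕ → V) (s : ℕ → V → ZMod 2) (k : ℕ) :
    ∑ i ∈ range (k + 1), ∏ m ∈ range k, (s m (omit' p i m) + s m (omit' p i (m + 1)))
      = ∏ m ∈ range k, (s m (p m) + s m (p (m + 1))) := by
  induction k with
  | zero => simp
  | succ k ih =>
    rw [Finset.sum_range_succ]
    have h1 : ∀ i ∈ range (k + 1),
        (∏ m ∈ range (k + 1), (s m (omit' p i m) + s m (omit' p i (m + 1))))
          = (∏ m ∈ range k, (s m (omit' p i m) + s m (omit' p i (m + 1))))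
              * (s k (p (k + 1)) + s k (p (k + 2))) := by
      intro i hi
      rw [Finset.mem_range] at hi
      rw [Finset.prod_range_succ]
      simp [omit', show ¬ k < i by omega, show ¬ k + 1 < i by omega]
    rw [Finset.sum_congr rfl h1, ← Finset.sum_mul, ih]
    have h2 : (∏ m ∈ range (k + 1), (s m (omit' p (k + 1) m) + s m (omit' p (k + 1) (m + 1))))
          = (∏ m ∈ range k, (s m (p m) + s m (p (m + 1))))
              * (s k (p k) + s k (p (k + 2))) := by
      rw [Finset.prod_range_succ]
      congr 1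
      · refine Finset.prod_congr rfl fun m hm => ?_
        rw [Finset.mem_range] at hm
        simp [omit', show m < k + 1 by omega, hm]
      · simp [omit']
    rw [h2, Finset.prod_range_succ, ← mul_add]
    congr 1
    calc s k (p (k + 1)) + s k (p (k + 2)) + (s k (p k) + s k (p (k + 2)))
        = s k (p (k + 2)) + s k (p (k + 2)) + (s k (p k) + s k (p (k + 1))) := by ring
      _ = s k (p k) + s k (p (k + 1)) := two_cancel _ _

theorem right_identity {V : Type*} (p : ℕ → V) (s : ℕ → V → ZMod 2) (k n : ℕ) (hn : k + 1 ≤ n) :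
    ∑ i ∈ Ico (k + 1) (n + 1),
        ∏ m ∈ Ico (k + 1) n, (s m (omit' p i (m - 1)) + s m (omit' p i m))
      = ∏ m ∈ Ico (k + 1) n, (s m (p m) + s m (p (m + 1))) := by
  induction n, hn using Nat.le_induction with
  | base => simp
  | succ n hn ih =>
    set A := s n (p n) + s n (p (n + 1)) with hA
    set Q := fun i => ∏ m ∈ Ico (k + 1) n, (s m (omit' p i (m - 1)) + s m (omit' p i m)) with hQ
    have hstep : ∀ i, (∏ m ∈ Ico (k + 1) (n + 1),
        (s m (omit' p i (m - 1)) + s m (omit' p i m)))
        = Q i * (s n (omit' p i (n - 1)) + s n (omit' p i n)) :=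
      fun i => Finset.prod_Ico_succ_top hn _
    have htop : Q (n + 1) = Q n := by
      refine Finset.prod_congr rfl fun m hm => ?_
      rw [Finset.mem_Ico] at hm
      simp [omit', show m - 1 < n + 1 by omega, show m - 1 < n by omega, hm.2,
        show m < n + 1 by omega]
    have h1 : ∀ i ∈ Ico (k + 1) n, (∏ m ∈ Ico (k + 1) (n + 1),
        (s m (omit' p i (m - 1)) + s m (omit' p i m))) = Q i * A := by
      intro i hi
      rw [Finset.mem_Ico] at hi
      rw [hstep]
      simp [omit', hA, show ¬ n - 1 < i by omega, show ¬ n < i by omega,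
        show n - 1 + 1 = n by omega]
    have h2 : s n (omit' p n (n - 1)) + s n (omit' p n n)
        + (s n (omit' p (n + 1) (n - 1)) + s n (omit' p (n + 1) n)) = A := by
      simp only [omit', show n - 1 < n by omega, show n - 1 < n + 1 by omega, lt_irrefl,
        Nat.lt_succ_self, if_true, if_false]
      calc s n (p (n - 1)) + s n (p (n + 1)) + (s n (p (n - 1)) + s n (p n))
          = s n (p (n - 1)) + s n (p (n - 1)) + (s n (p n) + s n (p (n + 1))) := by ring
        _ = A := two_cancel _ _
    have h3 : ∑ i ∈ Ico (k + 1) n, Q i + Q n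
        = ∏ m ∈ Ico (k + 1) n, (s m (p m) + s m (p (m + 1))) := by
      rw [Finset.sum_Ico_succ_top (by omega)] at ih
      exact ih
    calc ∑ i ∈ Ico (k + 1) (n + 1 + 1), ∏ m ∈ Ico (k + 1) (n + 1),
          (s m (omit' p i (m - 1)) + s m (omit' p i m))
        = (∑ i ∈ Ico (k + 1) n, Q i * A)
            + Q n * (s n (omit' p n (n - 1)) + s n (omit' p n n))
            + Q (n + 1) * (s n (omit' p (n + 1) (n - 1)) + s n (omit' p (n + 1) n)) := by
          rw [Finset.sum_Ico_succ_top (by omega), Finset.sum_Ico_succ_top (by omega),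
            Finset.sum_congr rfl h1, hstep n, hstep (n + 1)]
      _ = (∑ i ∈ Ico (k + 1) n, Q i + Q n) * A := by
          rw [← Finset.sum_mul, htop, add_assoc, ← mul_add, h2, add_mul]
      _ = ∏ m ∈ Ico (k + 1) (n + 1), (s m (p m) + s m (p (m + 1))) := by
          rw [h3, Finset.prod_Ico_succ_top hn]

/-- The term attached to a facet. -/
def facet {V : Type*} (s : ℕ → V → ZMod 2) (φ : V → ZMod 2) (k n : ℕ) (q : ℕ → V) : ZMod 2 :=
  (∏ m ∈ range k, (s m (q m) + s m (q (m + 1)))) * φ (q k) *
    ∏ m ∈ Ico (k + 1) n, (s m (q (m - 1)) + s m (q m))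

theorem facet_sum {V : Type*} (p : ℕ → V) (s : ℕ → V → ZMod 2) (φ : V → ZMod 2) (k n : ℕ)
    (hk : k < n) :
    ∑ i ∈ range (n + 1), facet s φ k n (omit' p i)
      = (∏ m ∈ range k, (s m (p m) + s m (p (m + 1)))) * (φ (p k) + φ (p (k + 1))) *
          ∏ m ∈ Ico (k + 1) n, (s m (p m) + s m (p (m + 1))) := by
  rw [← Finset.sum_range_add_sum_Ico _ (show k + 1 ≤ n + 1 by omega)]
  have h1 : ∀ i ∈ range (k + 1), facet s φ k n (omit' p i)
      = (∏ m ∈ range k, (s m (omit' p i m) + s m (omit' p i (m + 1)))) * φ (p (k + 1)) *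
          ∏ m ∈ Ico (k + 1) n, (s m (p m) + s m (p (m + 1))) := by
    intro i hi
    rw [Finset.mem_range] at hi
    unfold facet
    congr 1
    · simp [omit', show ¬ k < i by omega]
    · refine Finset.prod_congr rfl fun m hm => ?_
      rw [Finset.mem_Ico] at hm
      simp [omit', show ¬ m - 1 < i by omega, show ¬ m < i by omega,
        show m - 1 + 1 = m by omega]
  have h2 : ∀ i ∈ Ico (k + 1) (n + 1), facet s φ k n (omit' p i)
      = (∏ m ∈ range k, (s m (p m) + s m (p (m + 1)))) * φ (p k) *
          ∏ m ∈ Ico (k + 1) n, (s m (omit' p i (m - 1)) + s m (omit' p i m)) := by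
    intro i hi
    rw [Finset.mem_Ico] at hi
    unfold facet
    congr 2
    · refine Finset.prod_congr rfl fun m hm => ?_
      rw [Finset.mem_range] at hm
      simp [omit', show m < i by omega, show m + 1 < i by omega]
    · simp [omit', show k < i by omega]
  rw [Finset.sum_congr rfl h1, Finset.sum_congr rfl h2, ← Finset.sum_mul, ← Finset.sum_mul,
    left_identity, ← Finset.mul_sum, right_identity p s k n (by omega)]
  ring

theorem prod_split {n k : ℕ} (hk : k < n) (g : ℕ → ZMod 2) :
    ∏ m ∈ range n, g m = (∏ m ∈ range k, g m) * g k * ∏ m ∈ Ico (k + 1) n, g m := by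
  rw [← Finset.prod_range_succ, Finset.prod_range_mul_prod_Ico g (by omega)]

end Vale.Agent.P093.Engine
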