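import Vale.Agent.P093.Engine

/-!
# Invariance of the mod 2 count, and its value
-/

namespace Vale.Agent.P093.Engine

open Finset

variable {ι β : Type*} [Fintype ι] [DecidableEq ι] [DecidableEq β]
variable {b : ι → β} {w0 : β} {tw : ι → Bool} {R : ℕ}

/-- Flip of a simplex in block `B`. -/
def flipS (b : ι → β) (B : β) (S : Simp ι R) : Simp ι R :=
  (S.1, fun i => if b i = B then (S.2.1 i).rev else S.2.1 i,
    fun i => if b i = B then !(S.2.2 i) else S.2.2 i)

theorem pt_flipS (B : β) (S : Simp ι R) (m : ℕ) : pt (flipS b B S) m = flip b B (pt S m) := by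
  funext i
  have hlt := (S.2.1 i).isLt
  by_cases hB : b i = B <;> by_cases hm : (S.1.symm i : ℕ) < m <;>
    simp [pt, flip, flipS, ctr, hB, hm, sg_not, Fin.val_rev] <;> omega

theorem flipS_flipS (B : β) (S : Simp ι R) : flipS b B (flipS b B S) = S := by
  refine Prod.ext rfl (Prod.ext ?_ ?_) <;> funext i <;> by_cases hB : b i = B <;>
    simp [flipS, hB]

/-- The corner coordinate `i` is on the boundary. -/
def Outer (S : Simp ι R) (i : ι) : Prop :=
  ctr S i + sg (S.2.2 i) = R ∨ ctr S i + sg (S.2.2 i) = -(R : ℤ)

theorem sg_cases (x : Bool) : (x = true ∧ sg x = 1) ∨ (x = false ∧ sg x = -1) := by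
  cases x <;> simp [sg]

theorem outer_flipS (B : β) (S : Simp ι R) (i : ι) : Outer (flipS b B S) i ↔ Outer S i := by
  have hlt := (S.2.1 i).isLt
  by_cases hB : b i = B <;>
    simp [Outer, flipS, ctr, hB, sg_not, Fin.val_rev] <;> constructor <;> intro h <;> omega

/-- Move across the face through a corner coordinate in the interior. -/
def moveS (S : Simp ι R) (i : ι) : Simp ι R :=
  (S.1,
    Function.update S.2.1 i ⟨if S.2.2 i then min ((S.2.1 i : ℕ) + 1) (R - 1) else (S.2.1 i : ℕ) - 1,
      by have := (S.2.1 i).isLt; split <;> omega⟩,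
    Function.update S.2.2 i (!(S.2.2 i)))

theorem moveS_ctr_self (S : Simp ι R) (i : ι) (h : ¬ Outer S i) :
    ctr (moveS S i) i = ctr S i + 2 * sg (S.2.2 i) := by
  have hlt := (S.2.1 i).isLt
  rcases sg_cases (S.2.2 i) with ⟨hb, hs⟩ | ⟨hb, hs⟩ <;>
    simp [Outer, ctr, hs] at h <;> simp [ctr, moveS, hb, sg] <;> omega

theorem moveS_corner (S : Simp ι R) (i : ι) (h : ¬ Outer S i) (j : ι) :
    ctr (moveS S i) j + sg ((moveS S i).2.2 j) = ctr S j + sg (S.2.2 j) := by
  by_cases hj : j = i
  · subst hj
    rw [moveS_ctr_self S j h]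
    simp [moveS, sg_not]
    ring
  · simp [moveS, ctr, hj]

theorem not_outer_moveS (S : Simp ι R) (i : ι) (h : ¬ Outer S i) : ¬ Outer (moveS S i) i := by
  unfold Outer
  rw [moveS_corner S i h i]
  exact h

theorem moveS_moveS (S : Simp ι R) (i : ι) (h : ¬ Outer S i) : moveS (moveS S i) i = S := by
  have hlt := (S.2.1 i).isLt
  refine Prod.ext rfl (Prod.ext ?_ ?_) <;> funext j <;> by_cases hj : j = i
  · subst hj
    apply Fin.ext
    rcases sg_cases (S.2.2 j) with ⟨hb, hs⟩ | ⟨hb, hs⟩ <;>
      simp [Outer, ctr, hs] at h <;> simp [moveS, hb] <;> omega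
  · simp [moveS, hj]
  · subst hj; simp [moveS]
  · simp [moveS, hj]

theorem moveS_ne (S : Simp ι R) (i : ι) : moveS S i ≠ S := by
  intro h
  have := congrFun (congrArg (fun S : Simp ι R => S.2.2) h) i
  simp [moveS] at this

/-- Reversal of the corner sign of a coordinate. -/
def negS (S : Simp ι R) (i : ι) : Simp ι R :=
  (S.1, S.2.1, Function.update S.2.2 i (!(S.2.2 i)))

/-- The facet sum with the vertex `i` omitted vanishes. -/
theorem facet_total_zero (hR : 0 < R) (e : Fin (Fintype.card ι) ≃ ι)
    (s : ι → (ι → ℤ) → ZMod 2) (φ : (ι → ℤ) → ZMod 2)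
    (k : Fin (Fintype.card ι))
    (hs : ∀ m, m ≠ e k → ∀ v B, OnBd b R B v → s m (flip b B v) = s m v + par b w0 tw m B)
    (hφ : ∀ v B, OnBd b R B v → φ (flip b B v) = φ v)
    (sN : ℕ → (ι → ℤ) → ZMod 2) (hsN : ∀ m : Fin (Fintype.card ι), sN m = s (e m))
    (i : ℕ) (hi : i ≤ Fintype.card ι) :
    ∑ S : Simp ι R, facet sN φ k (Fintype.card ι) (omit' (pt S) i) = 0 := by
  have hkn : (k : ℕ) < (Fintype.card ι) := k.isLt
  have key : ∀ S T : Simp ι R, (∀ m, m ≤ (Fintype.card ι) → m ≠ i → pt T m = pt S m) →
      facet sN φ k (Fintype.card ι) (omit' (pt S) i) = facet sN φ k (Fintype.card ι) (omit' (pt T) i) := by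
    intro S T h
    have hq : ∀ m, m < (Fintype.card ι) → omit' (pt S) i m = omit' (pt T) i m := by
      intro m hm
      unfold omit'
      split
      · exact (h m (by omega) (by omega)).symm
      · exact (h (m + 1) (by omega) (by omega)).symm
    unfold facet
    congr 1
    · congr 1
      · refine Finset.prod_congr rfl fun m hm => ?_
        rw [Finset.mem_range] at hm
        rw [hq m (by omega), hq (m + 1) (by omega)]
      · rw [hq k hkn]
    · refine Finset.prod_congr rfl fun m hm => ?_
      rw [Finset.mem_Ico] at hm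
      rw [hq (m - 1) (by omega), hq m (by omega)]
  rcases Nat.eq_zero_or_pos i with rfl | hipos
  · have hn0 : 0 < (Fintype.card ι) := by omega
    set g : Simp ι R → Simp ι R := fun S => negS S (S.1 ⟨0, hn0⟩) with hg
    have hpt : ∀ S : Simp ι R, ∀ m, m ≤ (Fintype.card ι) → m ≠ 0 → pt (g S) m = pt S m := by
      intro S m _ hm0
      funext j
      by_cases hj : j = S.1 ⟨0, hn0⟩
      · subst hj
        simp [pt, hg, negS, ctr, Nat.pos_of_ne_zero hm0]
      · simp [pt, hg, negS, ctr, hj]
    refine Finset.sum_involution (fun S _ => g S) ?_ ?_ (fun S _ => Finset.mem_univ _) ?_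
    · intro S _
      rw [← key S (g S) (hpt S)]
      exact CharTwo.add_self_eq_zero _
    · intro S _ _ h
      have := congrFun (congrArg (fun S : Simp ι R => S.2.2) h) (S.1 ⟨0, hn0⟩)
      simp [hg, negS] at this
    · intro S _
      refine Prod.ext rfl (Prod.ext rfl ?_)
      funext j
      by_cases hj : j = S.1 ⟨0, hn0⟩
      · subst hj; simp [hg, negS]
      · simp [hg, negS, hj]
  rcases hi.lt_or_eq with hin | rfl
  · set a : Fin (Fintype.card ι) := ⟨i - 1, by omega⟩ with ha
    set c : Fin (Fintype.card ι) := ⟨i, hin⟩ with hc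
    set g : Simp ι R → Simp ι R := fun S => ((Equiv.swap a c).trans S.1, S.2.1, S.2.2) with hg
    have hpt : ∀ S : Simp ι R, ∀ m, m ≤ (Fintype.card ι) → m ≠ i → pt (g S) m = pt S m := by
      intro S m _ hm
      funext j
      have hiff : ((Equiv.swap a c (S.1.symm j) : Fin (Fintype.card ι)) : ℕ) < m ↔ (S.1.symm j : ℕ) < m := by
        rw [Equiv.swap_apply_def]
        split_ifs with h1 h2
        · simp [h1, ha, hc]; omega
        · simp [h2, ha, hc]; omega
        · rfl
      simp [pt, hg, ctr, Equiv.symm_swap, hiff]
    refine Finset.sum_involution (fun S _ => g S) ?_ ?_ (fun S _ => Finset.mem_univ _) ?_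
    · intro S _
      rw [← key S (g S) (hpt S)]
      exact CharTwo.add_self_eq_zero _
    · intro S _ _ h
      have h' := congrArg (fun S : Simp ι R => S.1 a) h
      simp [hg, ha, hc, Fin.ext_iff] at h'
      omega
    · intro S _
      refine Prod.ext ?_ rfl
      ext j
      simp [hg]
  · have hn0 : 0 < (Fintype.card ι) := by omega
    set last : Fin (Fintype.card ι) := ⟨(Fintype.card ι) - 1, by omega⟩ with hlast
    classical
    set g : Simp ι R → Simp ι R := fun S =>
      if Outer S (S.1 last) then flipS b (b (S.1 last)) S else moveS S (S.1 last) with hg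
    have hcoord : ∀ S : Simp ι R, ∀ m, m < (Fintype.card ι) →
        pt S m (S.1 last) = ctr S (S.1 last) + sg (S.2.2 (S.1 last)) := by
      intro S m hm
      simp [pt, hlast, show ¬ (Fintype.card ι) - 1 < m by omega]
    have hval : ∀ S, facet sN φ k (Fintype.card ι) (omit' (pt (g S)) (Fintype.card ι)) = facet sN φ k (Fintype.card ι) (omit' (pt S) (Fintype.card ι)) := by
      intro S
      by_cases hO : Outer S (S.1 last)
      · set B := b (S.1 last) with hB
        have hgS : g S = flipS b B S := by simp [hg, hO, hB]
        have hbd : ∀ m, m < (Fintype.card ι) → OnBd b R B (pt S m) := by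
          intro m hm
          refine ⟨S.1 last, rfl, ?_⟩
          rw [hcoord S m hm]
          exact hO
        have hq : ∀ m, m < (Fintype.card ι) → omit' (pt S) (Fintype.card ι) m = pt S m := fun m hm => by simp [omit', hm]
        have hq' : ∀ m, m < (Fintype.card ι) → omit' (pt (g S)) (Fintype.card ι) m = flip b B (pt S m) := fun m hm => by
          simp [omit', hm, hgS, pt_flipS]
        have hedge : ∀ m : ℕ, (hm : m < (Fintype.card ι)) → m ≠ k → ∀ p q, OnBd b R B p → OnBd b R B q →
            sN m (flip b B p) + sN m (flip b B q) = sN m p + sN m q := by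
          intro m hm hmk p q hp hq
          rw [show sN m = s (e ⟨m, hm⟩) from hsN ⟨m, hm⟩]
          have hne : e ⟨m, hm⟩ ≠ e k := fun h => hmk (by simpa [Fin.ext_iff] using e.injective h)
          rw [hs _ hne p B hp, hs _ hne q B hq]
          calc _ = par b w0 tw (e ⟨m, hm⟩) B + par b w0 tw (e ⟨m, hm⟩) B
                + (s (e ⟨m, hm⟩) p + s (e ⟨m, hm⟩) q) := by ring
            _ = _ := two_cancel _ _
        unfold facet
        congr 1
        · congr 1
          · refine Finset.prod_congr rfl fun m hm => ?_
            rw [Finset.mem_range] at hm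
            rw [hq m (by omega), hq (m + 1) (by omega), hq' m (by omega), hq' (m + 1) (by omega)]
            exact hedge m (by omega) (by omega) _ _ (hbd m (by omega)) (hbd (m + 1) (by omega))
          · rw [hq k hkn, hq' k hkn]
            exact hφ _ _ (hbd k hkn)
        · refine Finset.prod_congr rfl fun m hm => ?_
          rw [Finset.mem_Ico] at hm
          rw [hq m (by omega), hq (m - 1) (by omega), hq' m (by omega), hq' (m - 1) (by omega)]
          exact hedge m (by omega) (by omega) _ _ (hbd (m - 1) (by omega)) (hbd m (by omega))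
      · refine (key S (g S) ?_).symm
        intro m hm hmn
        funext j
        simp only [hg, if_neg hO]
        unfold pt
        simp only [moveS_corner S _ hO j]
        by_cases hj : j = S.1 last
        · subst hj
          simp [moveS, hlast, show ¬ (Fintype.card ι) - 1 < m by omega]
        · simp [moveS, ctr, hj]
    refine Finset.sum_involution (fun S _ => g S) ?_ ?_ (fun S _ => Finset.mem_univ _) ?_
    · intro S _
      rw [hval S]
      exact CharTwo.add_self_eq_zero _
    · intro S _ _ h
      by_cases hO : Outer S (S.1 last)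
      · have := congrFun (congrArg (fun S : Simp ι R => S.2.2) h) (S.1 last)
        simp [hg, hO, flipS] at this
      · simp only [hg, if_neg hO] at h
        exact moveS_ne S _ h
    · intro S _
      by_cases hO : Outer S (S.1 last)
      · have h1 : g S = flipS b (b (S.1 last)) S := by simp [hg, hO]
        have hO' : Outer (g S) ((g S).1 last) := by
          rw [h1]
          exact (outer_flipS _ S _).2 hO
        show g (g S) = S
        calc g (g S) = flipS b (b ((g S).1 last)) (g S) := if_pos hO'
          _ = S := by rw [h1]; exact flipS_flipS _ S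
      · have h1 : g S = moveS S (S.1 last) := by simp [hg, hO]
        have hO' : ¬ Outer (g S) ((g S).1 last) := by
          rw [h1]
          exact not_outer_moveS S _ hO
        show g (g S) = S
        calc g (g S) = moveS (g S) ((g S).1 last) := if_neg hO'
          _ = S := by rw [h1]; exact moveS_moveS S _ hO

/-- Changing one component does not change the count. -/
theorem count_update (hR : 0 < R) (e : Fin (Fintype.card ι) ≃ ι)
    (s : ι → (ι → ℤ) → ZMod 2) (hs : Good b w0 tw R s) (k : Fin (Fintype.card ι))
    (t : (ι → ℤ) → ZMod 2)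
    (ht : ∀ v B, OnBd b R B v → t (flip b B v) = t v + par b w0 tw (e k) B) :
    count R e (Function.update s (e k) t) = count R e s := by
  set φ : (ι → ℤ) → ZMod 2 := fun v => t v + s (e k) v with hφdef
  set sN : ℕ → (ι → ℤ) → ZMod 2 := fun m => if h : m < (Fintype.card ι) then s (e ⟨m, h⟩) else 0 with hsN
  set u := Function.update s (e k) t with hu
  set uN : ℕ → (ι → ℤ) → ZMod 2 := fun m => if h : m < (Fintype.card ι) then u (e ⟨m, h⟩) else 0 with huN
  have hφ : ∀ v B, OnBd b R B v → φ (flip b B v) = φ v := by
    intro v B h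
    simp only [hφdef]
    rw [ht v B h, hs (e k) v B h]
    calc _ = par b w0 tw (e k) B + par b w0 tw (e k) B + (t v + s (e k) v) := by ring
      _ = _ := two_cancel _ _
  have hne : ∀ m, m ≠ (k : ℕ) → ∀ v, uN m v = sN m v := by
    intro m hm v
    by_cases h : m < (Fintype.card ι)
    · have : e ⟨m, h⟩ ≠ e k := fun h' => hm (by simpa [Fin.ext_iff] using e.injective h')
      simp [huN, hsN, h, hu, this]
    · simp [huN, hsN, h]
  have hdiff : ∀ S : Simp ι R,
      (∏ m ∈ range (Fintype.card ι), (uN m (pt S m) + uN m (pt S (m + 1))))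
        + (∏ m ∈ range (Fintype.card ι), (sN m (pt S m) + sN m (pt S (m + 1))))
      = ∑ i ∈ range ((Fintype.card ι) + 1), facet sN φ k (Fintype.card ι) (omit' (pt S) i) := by
    intro S
    rw [facet_sum (pt S) sN φ k (Fintype.card ι) k.isLt, prod_split k.isLt, prod_split k.isLt]
    have e1 : ∀ m ∈ range (k : ℕ), uN m (pt S m) + uN m (pt S (m + 1))
        = sN m (pt S m) + sN m (pt S (m + 1)) := by
      intro m hm
      rw [Finset.mem_range] at hm
      rw [hne m (by omega), hne m (by omega)]
    have e2 : ∀ m ∈ Ico ((k : ℕ) + 1) (Fintype.card ι), uN m (pt S m) + uN m (pt S (m + 1))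
        = sN m (pt S m) + sN m (pt S (m + 1)) := by
      intro m hm
      rw [Finset.mem_Ico] at hm
      rw [hne m (by omega), hne m (by omega)]
    rw [Finset.prod_congr rfl e1, Finset.prod_congr rfl e2, ← add_mul, ← mul_add]
    congr 2
    simp [hφdef, huN, hsN, hu]
    ring
  have hzero : ∑ S : Simp ι R, ∑ i ∈ range ((Fintype.card ι) + 1), facet sN φ k (Fintype.card ι) (omit' (pt S) i) = 0 := by
    rw [Finset.sum_comm]
    refine Finset.sum_eq_zero fun i hi => ?_
    rw [Finset.mem_range] at hi
    exact facet_total_zero hR e s φ k (fun m _ => hs m) hφ sN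
      (fun m => by simp [hsN]) i (by omega)
  have hsum : count R e u + count R e s = 0 := by
    rw [← hzero]
    unfold count
    rw [← Finset.sum_add_distrib]
    refine Finset.sum_congr rfl fun S _ => ?_
    rw [← hdiff S, ← Fin.prod_univ_eq_prod_range, ← Fin.prod_univ_eq_prod_range]
    simp [huN, hsN]
  calc count R e u = count R e u + count R e s + count R e s := by
        rw [add_assoc, CharTwo.add_self_eq_zero, add_zero]
    _ = count R e s := by rw [hsum, zero_add]

/-- The count does not depend on the labelling. -/
theorem count_eq (hR : 0 < R) (e : Fin (Fintype.card ι) ≃ ι)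
    (s t : ι → (ι → ℤ) → ZMod 2) (hs : Good b w0 tw R s) (ht : Good b w0 tw R t) :
    count R e s = count R e t := by
  classical
  have main : ∀ K : Finset ι, count R e (fun i => if i ∈ K then t i else s i) = count R e s := by
    intro K
    induction K using Finset.induction with
    | empty => simp
    | @insert a K ha ih =>
      rw [← ih]
      set s' : ι → (ι → ℤ) → ZMod 2 := fun i => if i ∈ K then t i else s i with hs'
      have hgood : Good b w0 tw R s' := by
        intro i v B h
        simp only [hs']
        split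
        · exact ht i v B h
        · exact hs i v B h
      have heq : (fun i => if i ∈ insert a K then t i else s i)
          = Function.update s' (e (e.symm a)) (t a) := by
        funext i
        by_cases hia : i = a
        · subst hia; simp
        · simp [hia, hs']
      rw [heq]
      exact count_update hR e s' hgood (e.symm a) (t a) (fun v B h => by simpa using ht a v B h)
  rw [← main Finset.univ]
  simp

end Vale.Agent.P093.Engine
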