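import Vale.Agent.P093.EngineCount

/-!
# The model labelling, and the zero theorem
-/

namespace Vale.Agent.P093.Engine

open Finset

variable {ι β : Type*} [Fintype ι] [DecidableEq ι] [DecidableEq β]
variable {b : ι → β} {w0 : β} {tw : ι → Bool} {R : ℕ}

/-- The boundary coordinates of a block, in an enumeration. -/
def bdSet (b : ι → β) (R : ℕ) (e : Fin (Fintype.card ι) ≃ ι) (B : β) (v : ι → ℤ) :
    Finset (Fin (Fintype.card ι)) :=
  univ.filter fun m => b (e m) = B ∧ (v (e m) = R ∨ v (e m) = -(R : ℤ))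

/-- An odd function on the boundary of a block, zero inside. -/
def tie (b : ι → β) (R : ℕ) (e : Fin (Fintype.card ι) ≃ ι) (B : β) (v : ι → ℤ) : ZMod 2 :=
  if h : (bdSet b R e B v).Nonempty then
    (if v (e ((bdSet b R e B v).min' h)) < 0 then 1 else 0) else 0

/-- Negativity of a coordinate, with ties broken on the boundary of its block. -/
def negCoord (b : ι → β) (R : ℕ) (e : Fin (Fintype.card ι) ≃ ι) (i : ι) (v : ι → ℤ) : ZMod 2 :=
  (if v i < 0 then 1 else 0) + (if v i = 0 then tie b R e (b i) v else 0)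

/-- The model labelling. -/
def model (b : ι → β) (w0 : β) (tw : ι → Bool) (R : ℕ) (e : Fin (Fintype.card ι) ≃ ι) (i : ι)
    (v : ι → ℤ) : ZMod 2 :=
  negCoord b R e i v + (if tw i then tie b R e w0 v else 0)

theorem mem_bdSet (e : Fin (Fintype.card ι) ≃ ι) (B : β) (v : ι → ℤ) (m : Fin (Fintype.card ι)) :
    m ∈ bdSet b R e B v ↔ b (e m) = B ∧ (v (e m) = R ∨ v (e m) = -(R : ℤ)) := by
  unfold bdSet
  exact ⟨fun h => (Finset.mem_filter.1 h).2, fun h => Finset.mem_filter.2 ⟨Finset.mem_univ _, h⟩⟩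

theorem bdSet_flip (e : Fin (Fintype.card ι) ≃ ι) (B B' : β) (v : ι → ℤ) :
    bdSet b R e B' (flip b B v) = bdSet b R e B' v := by
  ext m
  by_cases h : b (e m) = B <;> simp only [mem_bdSet, flip, h, if_true, if_false] <;>
    constructor <;> rintro ⟨h1, h2⟩ <;> exact ⟨h1, by omega⟩

theorem tie_flip_self (hR : 0 < R) (e : Fin (Fintype.card ι) ≃ ι) (B : β) (v : ι → ℤ)
    (h : OnBd b R B v) : tie b R e B (flip b B v) = tie b R e B v + 1 := by
  obtain ⟨i, hi, hv⟩ := h
  have hne : (bdSet b R e B v).Nonempty := ⟨e.symm i, by simp [mem_bdSet, hi, hv]⟩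
  have hmem := Finset.min'_mem _ hne
  rw [mem_bdSet] at hmem
  have hne' : (bdSet b R e B (flip b B v)).Nonempty := by rw [bdSet_flip]; exact hne
  simp only [tie, dif_pos hne, dif_pos hne']
  simp only [bdSet_flip]
  set m := (bdSet b R e B v).min' hne with hm
  have hfl : flip b B v (e m) = -v (e m) := by simp [flip, hmem.1]
  rw [hfl]
  rcases hmem.2 with h' | h' <;> rw [h'] <;> simp [hR, show ¬ ((R : ℤ) < 0) by omega]
  decide

theorem tie_flip_other (e : Fin (Fintype.card ι) ≃ ι) (B B' : β) (hne : B' ≠ B) (v : ι → ℤ) :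
    tie b R e B' (flip b B v) = tie b R e B' v := by
  unfold tie
  simp only [bdSet_flip]
  split
  · next h =>
    have hmem := Finset.min'_mem _ h
    rw [mem_bdSet] at hmem
    have : flip b B v (e ((bdSet b R e B' v).min' h)) = v (e ((bdSet b R e B' v).min' h)) := by
      simp [flip, show ¬ b (e ((bdSet b R e B' v).min' h)) = B from fun h' => hne (hmem.1 ▸ h')]
    rw [this]
  · rfl

theorem negCoord_flip (hR : 0 < R) (e : Fin (Fintype.card ι) ≃ ι) (i : ι) (B : β) (v : ι → ℤ)
    (h : OnBd b R B v) :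
    negCoord b R e i (flip b B v) = negCoord b R e i v + (if b i = B then 1 else 0) := by
  by_cases hB : b i = B
  · subst hB
    simp only [negCoord, tie_flip_self hR e _ v h]
    simp only [flip, if_true]
    rcases lt_trichotomy (v i) 0 with h' | h' | h'
    · simp [h', h'.ne, show ¬ (0 < v i) by omega]
      decide
    · simp [h']
    · simp [h'.ne', show ¬ (v i < 0) by omega, h']
  · simp [negCoord, tie_flip_other e B (b i) hB v, flip, hB]

theorem model_good (hR : 0 < R) (htw : ∀ i, tw i = true → b i ≠ w0)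
    (e : Fin (Fintype.card ι) ≃ ι) : Good b w0 tw R (model b w0 tw R e) := by
  intro i v B h
  simp only [model, par, negCoord_flip hR e i B v h]
  by_cases ht : tw i = true
  · by_cases hB : B = w0
    · subst hB
      simp [ht, tie_flip_self hR e B v h]
      ring
    · simp [ht, hB, tie_flip_other e B w0 (Ne.symm hB) v]
      ring
  · simp [ht]

theorem tie_eq_zero (e : Fin (Fintype.card ι) ≃ ι) (B : β) (v : ι → ℤ)
    (h : ∀ i, b i = B → -(R : ℤ) < v i ∧ v i < R) : tie b R e B v = 0 := by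
  refine dif_neg ?_
  rintro ⟨m, hm⟩
  rw [mem_bdSet] at hm
  have := h _ hm.1
  omega

omit [DecidableEq β] in
theorem pt_bounds (S : Simp ι R) (m : ℕ) (i : ι) :
    pt S m i = ctr S i ∨ pt S m i = ctr S i + sg (S.2.2 i) := by
  unfold pt
  split <;> simp

theorem count_model (r : ℕ) (hr : 2 ≤ r) (htw : ∀ i, tw i = true → b i ≠ w0)
    (e : Fin (Fintype.card ι) ≃ ι) :
    count (2 * r) e (model b w0 tw (2 * r) e) = 1 := by
  classical
  set t := model b w0 tw (2 * r) e with htdef
  let S0 : Simp ι (2 * r) := (e, fun _ => ⟨r - 1, by omega⟩, fun _ => true)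
  have hedge : ∀ (S : Simp ι (2 * r)) (m : Fin (Fintype.card ι)),
      (∀ v v', v = pt S m → v' = pt S ((m : ℕ) + 1) → t (e m) v = t (e m) v') →
      ∏ m : Fin (Fintype.card ι), (t (e m) (pt S m) + t (e m) (pt S ((m : ℕ) + 1))) = 0 := by
    intro S m h
    refine Finset.prod_eq_zero (Finset.mem_univ m) ?_
    rw [h _ _ rfl rfl]
    exact CharTwo.add_self_eq_zero _
  have hsmall : ∀ (S : Simp ι (2 * r)),
      ∏ m : Fin (Fintype.card ι), (t (e m) (pt S m) + t (e m) (pt S ((m : ℕ) + 1))) ≠ 0 →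
      (∀ i, ctr S i = 1 ∨ ctr S i = -1) ∧
        ∀ m : ℕ, ∀ i, t i (pt S m) = if pt S m i < 0 then 1 else 0 := by
    intro S hne
    have hodd : ∀ i, ctr S i = 1 ∨ ctr S i = -1 ∨ 3 ≤ ctr S i ∨ ctr S i ≤ -3 := by
      intro i
      simp only [ctr]
      push_cast
      omega
    have hfar : ∀ i, (3 ≤ ctr S i ∨ ctr S i ≤ -3) → ∀ m m' : ℕ,
        negCoord b (2 * r) e i (pt S m) = negCoord b (2 * r) e i (pt S m') := by
      intro i hi m m'
      have hsign : ∀ k : ℕ, pt S k i ≠ 0 ∧ (pt S k i < 0 ↔ ctr S i < 0) := by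
        intro k
        rcases sg_cases (S.2.2 i) with ⟨-, hs⟩ | ⟨-, hs⟩ <;>
        rcases pt_bounds S k i with h1 | h1 <;> rw [h1] <;> rw [hs] at * <;> omega
      simp [negCoord, (hsign m).1, (hsign m').1, (hsign m).2, (hsign m').2]
    have hw : ∀ i, b i = w0 → ctr S i = 1 ∨ ctr S i = -1 := by
      intro i hi
      by_contra hc
      have hi' : 3 ≤ ctr S i ∨ ctr S i ≤ -3 := by
        rcases hodd i with h | h | h | h
        · exact absurd (Or.inl h) hc
        · exact absurd (Or.inr h) hc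
        · exact Or.inl h
        · exact Or.inr h
      refine hne (hedge S (e.symm i) ?_)
      rintro _ _ rfl rfl
      have ht : tw i = false := by
        by_contra h
        exact htw i (by simpa using h) hi
      simp [htdef, model, ht]
      exact hfar i hi' _ _
    have hin : ∀ i, (ctr S i = 1 ∨ ctr S i = -1) → ∀ m : ℕ,
        -((2 * r : ℕ) : ℤ) < pt S m i ∧ pt S m i < ((2 * r : ℕ) : ℤ) := by
      intro i hi m
      rcases sg_cases (S.2.2 i) with ⟨-, hs⟩ | ⟨-, hs⟩ <;>
      rcases pt_bounds S m i with h1 | h1 <;> rcases hi with hi | hi <;>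
      rw [h1] <;> constructor <;> push_cast <;> omega
    have hη : ∀ m : ℕ, tie b (2 * r) e w0 (pt S m) = 0 :=
      fun m => tie_eq_zero e w0 _ fun i hi => hin i (hw i hi) m
    have htm : ∀ (m : ℕ) (i : ι), t i (pt S m) = negCoord b (2 * r) e i (pt S m) := by
      intro m i
      simp [htdef, model, hη]
    have hall : ∀ i, ctr S i = 1 ∨ ctr S i = -1 := by
      intro i
      by_contra hc
      have hi' : 3 ≤ ctr S i ∨ ctr S i ≤ -3 := by
        rcases hodd i with h | h | h | h
        · exact absurd (Or.inl h) hc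
        · exact absurd (Or.inr h) hc
        · exact Or.inl h
        · exact Or.inr h
      refine hne (hedge S (e.symm i) ?_)
      rintro _ _ rfl rfl
      rw [Equiv.apply_symm_apply, htm, htm]
      exact hfar i hi' _ _
    refine ⟨hall, fun m i => ?_⟩
    rw [htm]
    simp [negCoord, tie_eq_zero e (b i) _ fun j _ => hin j (hall j) m]
  have hS0 : ∀ m : Fin (Fintype.card ι),
      t (e m) (pt S0 m) + t (e m) (pt S0 ((m : ℕ) + 1)) = 1 := by
    intro m
    have hc : ∀ i, ctr S0 i = -1 := by intro i; simp [ctr, S0]; omega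
    have hin : ∀ (k : ℕ) i, -((2 * r : ℕ) : ℤ) < pt S0 k i ∧ pt S0 k i < ((2 * r : ℕ) : ℤ) := by
      intro k i
      rcases pt_bounds S0 k i with h1 | h1 <;> rw [h1, hc] <;>
        simp [S0, sg] <;> omega
    have ht : ∀ (k : ℕ) i, t i (pt S0 k) = if pt S0 k i < 0 then 1 else 0 := by
      intro k i
      simp [htdef, model, negCoord, tie_eq_zero e w0 _ fun j _ => hin k j,
        tie_eq_zero e (b i) _ fun j _ => hin k j]
    rw [ht, ht]
    simp [pt, S0, hc, sg]
  unfold count
  rw [Finset.sum_eq_single S0]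
  · exact Finset.prod_eq_one fun m _ => hS0 m
  · intro S _ hS
    by_contra hne
    obtain ⟨hall, ht⟩ := hsmall S hne
    apply hS
    have hchg : ∀ m : Fin (Fintype.card ι), S.1 m = e m ∧ ctr S (e m) = -1 ∧
        S.2.2 (e m) = true := by
      intro m
      by_contra hc
      refine hne (hedge S m ?_)
      rintro _ _ rfl rfl
      rw [ht, ht]
      by_cases hπ : S.1 m = e m
      · have hpi : S.1.symm (e m) = m := by rw [← hπ]; simp
        rcases sg_cases (S.2.2 (e m)) with ⟨hb, hs⟩ | ⟨hb, hs⟩ <;>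
        rcases hall (e m) with h1 | h1 <;>
        simp [pt, hpi, hs, h1]
        exact hc ⟨hπ, h1, hb⟩
      · have hne' : (S.1.symm (e m) : ℕ) ≠ m := by
          intro h
          exact hπ ((congrArg S.1 (Fin.ext h)).symm.trans (Equiv.apply_symm_apply _ _))
        have hiff : ((S.1.symm (e m) : ℕ) < (m : ℕ) + 1) ↔ (S.1.symm (e m) : ℕ) < m := by omega
        simp [pt, hiff]
    refine Prod.ext ?_ (Prod.ext ?_ ?_)
    · exact Equiv.ext fun m => (hchg m).1
    · funext i
      have h := (hchg (e.symm i)).2.1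
      simp [ctr] at h
      apply Fin.ext
      simp [S0]
      omega
    · funext i
      simpa [S0] using (hchg (e.symm i)).2.2
  · simp

/-- Discrete form: every good labelling changes in every component along some small simplex. -/
theorem exists_simplex (r : ℕ) (hr : 2 ≤ r) (htw : ∀ i, tw i = true → b i ≠ w0)
    (e : Fin (Fintype.card ι) ≃ ι) (s : ι → (ι → ℤ) → ZMod 2) (hs : Good b w0 tw (2 * r) s) :
    ∃ S : Simp ι (2 * r), ∀ m : Fin (Fintype.card ι),
      s (e m) (pt S m) ≠ s (e m) (pt S ((m : ℕ) + 1)) := by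
  by_contra h
  push Not at h
  have h0 : count (2 * r) e s = 0 := by
    refine Finset.sum_eq_zero fun S _ => ?_
    obtain ⟨m, hm⟩ := h S
    refine Finset.prod_eq_zero (Finset.mem_univ m) ?_
    rw [hm]
    exact CharTwo.add_self_eq_zero _
  have h1 := count_model (b := b) (w0 := w0) (tw := tw) r hr htw e
  rw [← count_eq (by omega) e s _ hs (model_good (by omega) htw e), h0] at h1
  exact zero_ne_one h1

omit [DecidableEq ι] in
theorem scale_flip (B : β) (v : ι → ℤ) :
    (fun i => ((flip b B v i : ℤ) : ℝ) / R) = flip b B (fun i => ((v i : ℤ) : ℝ) / R) := by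
  funext i
  by_cases h : b i = B <;> simp [flip, h, neg_div]

omit [DecidableEq β] in
theorem pt_abs (S : Simp ι R) (m : ℕ) (i : ι) : |pt S m i| ≤ (R : ℤ) := by
  have := (S.2.1 i).isLt
  rcases sg_cases (S.2.2 i) with ⟨-, hs⟩ | ⟨-, hs⟩ <;>
    rcases pt_bounds S m i with h | h <;> rw [h, abs_le] <;>
    simp only [ctr, hs] <;> constructor <;> omega

omit [DecidableEq β] in
theorem pt_near (S : Simp ι R) (m m' : ℕ) (i : ι) : |pt S m i - pt S m' i| ≤ (2 : ℤ) := by
  rcases sg_cases (S.2.2 i) with ⟨-, hs⟩ | ⟨-, hs⟩ <;>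
    rcases pt_bounds S m i with h | h <;> rcases pt_bounds S m' i with h' | h' <;>
    simp [h, h', hs]

open Filter Topology in
/-- **Zero theorem.** Functions on a box whose signs transform by `par` under the flip of each
block on the boundary of that block have a common zero. -/
theorem exists_common_zero (b : ι → β) (w0 : β) (tw : ι → Bool)
    (htw : ∀ i, tw i = true → b i ≠ w0)
    (G : ι → (ι → ℝ) → ℝ) (hG : ∀ j, Continuous (G j))
    (hodd : ∀ j B v, (∀ i, |v i| ≤ 1) → (∃ i, b i = B ∧ |v i| = 1) →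
      G j (flip b B v) = if par b w0 tw j B = 1 then -G j v else G j v) :
    ∃ v : ι → ℝ, (∀ i, |v i| ≤ 1) ∧ ∀ j, G j v = 0 := by
  classical
  set e := (Fintype.equivFin ι).symm with he
  let sc : ℕ → (ι → ℤ) → ι → ℝ := fun N v i => ((v i : ℤ) : ℝ) / (2 * (N + 2) : ℕ)
  have hz : ∀ z : ZMod 2, z = 0 ∨ z = 1 := by decide
  let lab : ℕ → ι → (ι → ℤ) → ZMod 2 := fun N j v =>
    if (∀ i, |sc N v i| ≤ 1) then
      (if G j (sc N v) < 0 then 1 else if 0 < G j (sc N v) then 0
        else model b w0 tw (2 * (N + 2)) e j v)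
    else model b w0 tw (2 * (N + 2)) e j v
  have hflipabs : ∀ N B v, (∀ i, |sc N (flip b B v) i| ≤ 1) ↔ ∀ i, |sc N v i| ≤ 1 := by
    intro N B v
    refine forall_congr' fun i => ?_
    by_cases h : b i = B <;> simp [sc, flip, h, neg_div]
  have hgood : ∀ N, Good b w0 tw (2 * (N + 2)) (lab N) := by
    intro N j v B h
    have hm := model_good (b := b) (w0 := w0) (tw := tw) (R := 2 * (N + 2)) (by omega) htw e j v B h
    simp only [lab, hflipabs N B v]
    by_cases hv : ∀ i, |sc N v i| ≤ 1
    · simp only [if_pos hv]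
      have hb : ∃ i, b i = B ∧ |sc N v i| = 1 := by
        obtain ⟨i, hi, hvi⟩ := h
        refine ⟨i, hi, ?_⟩
        have hne : ((2 * (N + 2) : ℕ) : ℝ) ≠ 0 := by positivity
        rcases hvi with h' | h' <;> simp only [sc, h'] <;> push_cast at * <;>
          simp [neg_div, hne]
      have hfl : sc N (flip b B v) = flip b B (sc N v) := scale_flip B v
      rw [hfl, hodd j B _ hv hb, hm]
      rcases hz (par b w0 tw j B) with hp | hp <;>
        rcases lt_trichotomy (G j (sc N v)) 0 with hG' | hG' | hG' <;>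
        simp [hp, hG', hG'.le, not_lt.2 hG'.le] <;>
        simp_all [le_of_lt, not_lt.2] <;> decide
    · simp only [if_neg hv, hm]
  have hS : ∀ N, ∃ S : Simp ι (2 * (N + 2)), ∀ m : Fin (Fintype.card ι),
      lab N (e m) (pt S m) ≠ lab N (e m) (pt S ((m : ℕ) + 1)) :=
    fun N => exists_simplex (N + 2) (by omega) htw e (lab N) (hgood N)
  choose S hS using hS
  have habs : ∀ N m i, |sc N (pt (S N) m) i| ≤ 1 := by
    intro N m i
    have h := pt_abs (S N) m i
    simp only [sc, abs_div, Nat.abs_cast]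
    rw [div_le_one (by positivity)]
    exact_mod_cast h
  let P : ℕ → ι → ℝ := fun N => sc N (pt (S N) 0)
  obtain ⟨a, ha, φ, hφ, hlim⟩ := (isCompact_univ_pi fun _ : ι => isCompact_Icc (a := (-1 : ℝ))
    (b := 1)).tendsto_subseq (x := P) fun N => by
      intro i _
      exact abs_le.1 (habs N 0 i)
  have hclose : ∀ m : ℕ → ℕ,
      Tendsto (fun N => sc (φ N) (pt (S (φ N)) (m N))) atTop (𝓝 a) := by
    intro m
    rw [tendsto_pi_nhds] at hlim ⊢
    intro i
    have h1 : Tendsto (fun N => sc (φ N) (pt (S (φ N)) (m N)) i - P (φ N) i) atTop (𝓝 0) := by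
      refine squeeze_zero_norm (a := fun N => 1 / ((φ N : ℝ) + 1)) (fun N => ?_)
        ((tendsto_one_div_add_atTop_nhds_zero_nat).comp hφ.tendsto_atTop)
      have h := pt_near (S (φ N)) (m N) 0 i
      have h' : |((pt (S (φ N)) (m N) i : ℤ) : ℝ) - (pt (S (φ N)) 0 i : ℤ)| ≤ 2 := by
        exact_mod_cast h
      simp only [sc, P, Real.norm_eq_abs, ← sub_div, abs_div, Nat.abs_cast]
      push_cast
      rw [div_le_div_iff₀ (by positivity) (by positivity)]
      nlinarith
    simpa using h1.add (hlim i)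
  refine ⟨a, fun i => abs_le.2 (ha i (Set.mem_univ i)), fun j => ?_⟩
  set m := e.symm j with hm
  have hsigns : ∀ N, ∃ k k' : ℕ, G j (sc (φ N) (pt (S (φ N)) k)) ≤ 0 ∧
      0 ≤ G j (sc (φ N) (pt (S (φ N)) k')) := by
    intro N
    have h := hS (φ N) m
    rw [hm, Equiv.apply_symm_apply] at h
    simp only [lab, if_pos (habs (φ N) _)] at h
    refine ⟨if G j (sc (φ N) (pt (S (φ N)) (e.symm j))) ≤ 0 then (e.symm j : ℕ)
      else (e.symm j : ℕ) + 1, if 0 ≤ G j (sc (φ N) (pt (S (φ N)) (e.symm j)))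
      then (e.symm j : ℕ) else (e.symm j : ℕ) + 1, ?_, ?_⟩
    · split_ifs with h1
      · exact h1
      · by_contra h2
        rw [not_le] at h1 h2
        simp [h1, h2, not_lt.2 h1.le, not_lt.2 h2.le] at h
    · split_ifs with h1
      · exact h1
      · by_contra h2
        rw [not_le] at h1 h2
        simp [h1, h2] at h
  choose k k' hk hk' using hsigns
  apply le_antisymm
  · exact le_of_tendsto' (((hG j).tendsto a).comp (hclose k)) hk
  · exact ge_of_tendsto' (((hG j).tendsto a).comp (hclose k')) hk'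

end Vale.Agent.P093.Engine
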