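import Vale.Agent.P093.Gap.Blocks

/-!
# Systems with cube windows of their full mean dimension
-/

namespace Vale.Agent.P093

open scoped ENNReal

/-- Minimal systems, of mean dimension `m` arbitrarily close to every positive integer `M`, whose
cube windows have density `m`. -/
theorem exists_cubeWindows_system (M : ℕ) (hM : 0 < M) {ρ : ℝ} (h0 : 0 ≤ ρ) (h1 : ρ < 1) :
    ∃ (X : Type) (_ : TopologicalSpace X) (_ : CompactSpace X) (_ : T2Space X)
      (_ : TopologicalSpace.MetrizableSpace X) (_ : Infinite X) (h : X ≃ₜ X)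
      (f : C(X, Fin M → ℝ)) (m : ℝ),
      (∀ x, Dense (Set.range fun n : ℤ => (h.toEquiv ^ n) x)) ∧ ρ * M ≤ m ∧ m ≤ M ∧
      _root_.P093.meanDim h = ENNReal.ofReal m ∧ CubeWindows h f m := by
  obtain ⟨X, i1, i2, i3, i4, i5, h, f, m, hmin, hlo, hhi, hmd, hw, -⟩ :=
    exists_cubeWindowSystem hM h0 h1
  exact ⟨X, i1, i2, i3, i4, i5, h, f, m, hmin, hlo, hhi, hmd, hw⟩

end Vale.Agent.P093
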