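import Vale.Agent.P093.Defs

/-!
# Return times to a clopen set, and the tower identity for tracial states
-/

namespace Vale.Agent.P093

variable {X : Type} [TopologicalSpace X] [CompactSpace X] {h : X ≃ₜ X}

theorem iter_natCast (h : X ≃ₜ X) (k : ℕ) (x : X) : iter h (k : ℤ) x = h^[k] x := by
  induction k generalizing x with
  | zero => simp
  | succ k ih =>
    rw [Function.iterate_succ_apply, ← ih (h x), Nat.cast_succ, iter_add]
    simp [iter]

theorem iter_neg_self (h : X ≃ₜ X) (n : ℤ) (x : X) : iter h n (iter h (-n) x) = x := by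
  rw [← iter_add, add_neg_cancel, iter_zero]

/-- The part of `C` with first return time `r`. -/
def retSet (h : X ≃ₜ X) (C : Set X) (r : ℕ) : Set X :=
  {x | x ∈ C ∧ iter h r x ∈ C ∧ ∀ k ∈ Finset.Ico 1 r, iter h (k : ℕ) x ∉ C}

theorem isClopen_retSet {C : Set X} (hC : IsClopen C) (r : ℕ) : IsClopen (retSet h C r) := by
  have heq : retSet h C r = C ∩ ((iter h (r : ℕ)) ⁻¹' C ∩
      ⋂ k ∈ Finset.Ico 1 r, ((iter h (k : ℕ)) ⁻¹' C)ᶜ) := by
    ext x
    simp only [retSet, Set.mem_ofPred_eq, Set.mem_inter_iff, Set.mem_preimage, Set.mem_iInter,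
      Set.mem_compl_iff]
  rw [heq]
  exact hC.inter ((hC.preimage (iter h (r : ℕ)).continuous).inter
    (isClopen_biInter_finset fun k _ => (hC.preimage (iter h (k : ℕ)).continuous).compl))

/-- Bounded, gapped return times. -/
structure Returns (h : X ≃ₜ X) (C : Set X) (L R : ℕ) : Prop where
  clopen : IsClopen C
  gap : ∀ x ∈ C, ∀ k, 0 < k → k < L → h^[k] x ∉ C
  cover : ∀ x, ∃ k, k < R ∧ h^[k] x ∈ C

namespace Returns

variable {C : Set X} {L R : ℕ} (H : Returns h C L R)
include H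

theorem retSet_unique {x : X} {r r' : ℕ} (hr : 0 < r) (hr' : 0 < r') (h1 : x ∈ retSet h C r)
    (h2 : x ∈ retSet h C r') : r = r' := by
  rcases lt_trichotomy r r' with hlt | heq | hlt
  · exact absurd h1.2.1 (h2.2.2 r (Finset.mem_Ico.2 ⟨hr, hlt⟩))
  · exact heq
  · exact absurd h2.2.1 (h1.2.2 r' (Finset.mem_Ico.2 ⟨hr', hlt⟩))

theorem exists_retSet {x : X} (hx : x ∈ C) :
    ∃ r ∈ Finset.Icc 1 R, L ≤ r ∧ x ∈ retSet h C r := by
  classical
  have hex : ∃ r, 0 < r ∧ r ≤ R ∧ h^[r] x ∈ C := by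
    obtain ⟨k, hk, hkC⟩ := H.cover (h x)
    exact ⟨k + 1, by omega, by omega, by rwa [Function.iterate_succ_apply]⟩
  refine ⟨Nat.find hex, ?_, ?_, hx, ?_, ?_⟩
  · have := Nat.find_spec hex
    simp only [Finset.mem_Icc]
    omega
  · by_contra hc
    exact H.gap x hx _ (Nat.find_spec hex).1 (not_le.1 hc) (Nat.find_spec hex).2.2
  · rw [iter_natCast]; exact (Nat.find_spec hex).2.2
  · intro k hk hkC
    rw [Finset.mem_Ico] at hk
    rw [iter_natCast] at hkC
    exact Nat.find_min hex hk.2 ⟨hk.1, by have := (Nat.find_spec hex).2.1; omega, hkC⟩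

theorem retSet_ge {x : X} {r : ℕ} (hr : 0 < r) (hx : x ∈ retSet h C r) : L ≤ r ∧ r ≤ R := by
  obtain ⟨r', hr', hL, hx'⟩ := H.exists_retSet hx.1
  rw [Finset.mem_Icc] at hr'
  have := H.retSet_unique hr (by omega) hx hx'
  omega

theorem exists_level (x : X) :
    ∃ r ∈ Finset.Icc 1 R, ∃ k, k < r ∧ iter h (-(k : ℤ)) x ∈ retSet h C r := by
  classical
  have hex : ∃ k : ℕ, k < R ∧ iter h (-(k : ℤ)) x ∈ C := by
    obtain ⟨i, hi, hiC⟩ := H.cover (iter h (-((R - 1 : ℕ) : ℤ)) x)
    refine ⟨R - 1 - i, by omega, ?_⟩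
    rw [← iter_natCast, ← iter_add] at hiC
    convert hiC using 3
    omega
  obtain ⟨hkR, hkC⟩ := Nat.find_spec hex
  obtain ⟨r, hr, -, hrC⟩ := H.exists_retSet hkC
  refine ⟨r, hr, Nat.find hex, ?_, hrC⟩
  by_contra hc
  have h2 := hrC.2.1
  rw [← iter_add] at h2
  rw [Finset.mem_Icc] at hr
  refine Nat.find_min hex (m := Nat.find hex - r) (by omega) ⟨by omega, ?_⟩
  convert h2 using 3
  omega

theorem level_unique {x : X} {r r' k k' : ℕ} (hk : k < r) (hk' : k' < r')
    (h1 : iter h (-(k : ℤ)) x ∈ retSet h C r) (h2 : iter h (-(k' : ℤ)) x ∈ retSet h C r') :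
    r = r' ∧ k = k' := by
  have aux : ∀ {r r' k k' : ℕ}, k < r → k' < k → iter h (-(k : ℤ)) x ∈ retSet h C r →
      iter h (-(k' : ℤ)) x ∈ retSet h C r' → False := by
    intro r r' k k' hk hkk h1 h2
    refine h1.2.2 (k - k') (Finset.mem_Ico.2 ⟨by omega, by omega⟩) ?_
    rw [← iter_add]
    convert h2.1 using 3
    omega
  rcases lt_trichotomy k k' with hlt | heq | hlt
  · exact (aux hk' hlt h2 h1).elim
  · subst heq
    exact ⟨H.retSet_unique (by omega) (by omega) h1 h2, rfl⟩
  · exact (aux hk hlt h1 h2).elim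

/-- The indicator of `retSet` as a continuous function. -/
noncomputable def ind (r : ℕ) : C(X, ℂ) :=
  ⟨(retSet h C r).indicator fun _ => 1,
    continuous_const.indicator fun a ha => by
      rw [(isClopen_retSet H.clopen r).frontier_eq] at ha
      simp at ha⟩

theorem ind_apply_mem {x : X} {r : ℕ} (hx : x ∈ retSet h C r) : H.ind r x = 1 :=
  by simp [ind, hx]

theorem ind_apply_notMem {x : X} {r : ℕ} (hx : x ∉ retSet h C r) : H.ind r x = 0 :=
  by simp [ind, hx]

theorem ind_sum :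
    ∑ r ∈ Finset.Icc 1 R, ∑ k ∈ Finset.range r, pull h (-(k : ℤ)) (H.ind r) = 1 := by
  classical
  refine ContinuousMap.ext fun x => ?_
  obtain ⟨r, hr, k, hk, hx⟩ := H.exists_level x
  simp only [ContinuousMap.sum_apply, pull_apply, ContinuousMap.one_apply]
  rw [Finset.sum_eq_single r]
  · rw [Finset.sum_eq_single k]
    · exact H.ind_apply_mem hx
    · intro k' hk' hne
      refine H.ind_apply_notMem fun hx' => hne ?_
      exact ((H.level_unique hk (Finset.mem_range.1 hk') hx hx').2).symm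
    · exact fun hc => absurd (Finset.mem_range.2 hk) hc
  · intro r' _ hne
    refine Finset.sum_eq_zero fun k' hk' => ?_
    refine H.ind_apply_notMem fun hx' => hne ?_
    exact ((H.level_unique hk (Finset.mem_range.1 hk') hx hx').1).symm
  · exact fun hc => absurd hr hc

/-- The mass of `retSet` under a tracial state. -/
noncomputable def mass (τ : TracialState h) (r : ℕ) : ℝ := (τ.toLin (mult h (H.ind r))).re

theorem mass_nonneg (τ : TracialState h) (r : ℕ) : 0 ≤ H.mass τ r := by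
  have hsq : star (H.ind r) * H.ind r = H.ind r := by
    refine ContinuousMap.ext fun x => ?_
    by_cases hx : x ∈ retSet h C r <;> simp [ind, hx]
  obtain ⟨t, ht, heq⟩ := τ.nonneg (mult h (H.ind r))
  rw [← map_star, ← map_mul, hsq] at heq
  simp [mass, heq, ht]

theorem mass_sum (τ : TracialState h) : ∑ r ∈ Finset.Icc 1 R, (r : ℝ) * H.mass τ r = 1 := by
  have hinv : ∀ (r : ℕ) (k : ℤ),
      τ.toLin (mult h (pull h (-k) (H.ind r))) = τ.toLin (mult h (H.ind r)) := by
    intro r k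
    rw [← shift_mult, mul_assoc, τ.tracial, mul_assoc, shift_neg_mul, mul_one]
  have h1 := congrArg (fun g => (τ.toLin (mult h g)).re) H.ind_sum
  simp only [map_sum, Complex.re_sum, hinv, map_one, τ.map_one, Complex.one_re,
    Finset.sum_const, Finset.card_range, nsmul_eq_mul] at h1
  simpa [mass, Complex.mul_re] using h1

theorem mass_eq_zero (τ : TracialState h) {r : ℕ} (hr : 0 < r) (hL : r < L) : H.mass τ r = 0 := by
  have : H.ind r = 0 := by
    refine ContinuousMap.ext fun x => ?_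
    exact H.ind_apply_notMem fun hx => by have := (H.retSet_ge hr hx).1; omega
  simp [mass, this]

theorem mass_sum_le (τ : TracialState h) (hL : 0 < L) :
    ∑ r ∈ Finset.Icc 1 R, H.mass τ r ≤ (L : ℝ)⁻¹ := by
  rw [inv_eq_one_div, le_div_iff₀ (by exact_mod_cast hL), ← H.mass_sum τ, Finset.sum_mul]
  refine Finset.sum_le_sum fun r hr => ?_
  rw [Finset.mem_Icc] at hr
  by_cases hrL : r < L
  · simp [H.mass_eq_zero τ hr.1 hrL]
  · have : (L : ℝ) ≤ r := by exact_mod_cast not_lt.1 hrL
    nlinarith [H.mass_nonneg τ r]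

open Classical in
/-- The return time of a point, `0` off `C`. -/
noncomputable def rt (x : X) : ℕ :=
  if hx : x ∈ C then Classical.choose (H.exists_retSet hx) else 0

theorem rt_spec {x : X} (hx : x ∈ C) :
    1 ≤ H.rt x ∧ H.rt x ≤ R ∧ L ≤ H.rt x ∧ x ∈ retSet h C (H.rt x) := by
  obtain ⟨h1, h2, h3⟩ := Classical.choose_spec (H.exists_retSet hx)
  rw [Finset.mem_Icc] at h1
  simp only [rt, dif_pos hx]
  exact ⟨h1.1, h1.2, h2, h3⟩

open Classical in
/-- The block starts inside the window `[0, N)`. -/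
noncomputable def starts (x : X) (N : ℕ) : Finset ℕ :=
  (Finset.range N).filter fun t => iter h (t : ℕ) x ∈ C ∧ t + H.rt (iter h (t : ℕ) x) ≤ N

theorem mem_starts {x : X} {N t : ℕ} : t ∈ H.starts x N ↔
    iter h (t : ℕ) x ∈ C ∧ t + H.rt (iter h (t : ℕ) x) ≤ N := by
  classical
  simp only [starts, Finset.mem_filter, Finset.mem_range, and_iff_right_iff_imp]
  intro ht
  have := (H.rt_spec ht.1).1
  omega

theorem block_unique {x : X} {N t t' i i' : ℕ} (ht : t ∈ H.starts x N) (ht' : t' ∈ H.starts x N)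
    (hi : i < H.rt (iter h (t : ℕ) x)) (hi' : i' < H.rt (iter h (t' : ℕ) x))
    (heq : t + i = t' + i') : t = t' ∧ i = i' := by
  have h1 := (H.rt_spec (H.mem_starts.1 ht).1).2.2.2
  have h2 := (H.rt_spec (H.mem_starts.1 ht').1).2.2.2
  have := H.level_unique (x := iter h ((t + i : ℕ) : ℤ) x) hi hi'
    (by rw [← iter_add]; convert h1 using 2; push_cast; simp)
    (by rw [← iter_add]; convert h2 using 2; rw [heq]; push_cast; simp)
  omega

theorem block_exists {x : X} {N p : ℕ} (h1 : R ≤ p) (h2 : p + R ≤ N) :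
    ∃ t ∈ H.starts x N, ∃ i, i < H.rt (iter h (t : ℕ) x) ∧ t + i = p := by
  obtain ⟨r, hr, k, hk, hx⟩ := H.exists_level (iter h (p : ℕ) x)
  rw [Finset.mem_Icc] at hr
  have heq : iter h (-(k : ℤ)) (iter h (p : ℕ) x) = iter h ((p - k : ℕ) : ℤ) x := by
    rw [← iter_add]; congr 2; omega
  rw [heq] at hx
  have hrt : H.rt (iter h ((p - k : ℕ) : ℤ) x) = r :=
    H.retSet_unique (H.rt_spec hx.1).1 hr.1 (H.rt_spec hx.1).2.2.2 hx
  refine ⟨p - k, H.mem_starts.2 ⟨hx.1, ?_⟩, k, ?_, ?_⟩ <;> omega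

theorem sum_rt_le (x : X) (N : ℕ) :
    ∑ t ∈ H.starts x N, H.rt (iter h (t : ℕ) x) ≤ N := by
  classical
  calc ∑ t ∈ H.starts x N, H.rt (iter h (t : ℕ) x)
      = ((H.starts x N).sigma fun t => Finset.range (H.rt (iter h (t : ℕ) x))).card := by
        simp [Finset.card_sigma]
    _ ≤ (Finset.range N).card := by
        refine Finset.card_le_card_of_injOn (fun p => p.1 + p.2) ?_ ?_
        · intro p hp
          simp only [Finset.mem_coe, Finset.mem_sigma, Finset.mem_range] at hp ⊢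
          have := (H.mem_starts.1 hp.1).2
          omega
        · intro p hp p' hp' he
          simp only [Finset.mem_coe, Finset.mem_sigma, Finset.mem_range] at hp hp'
          obtain ⟨ha, hb⟩ := H.block_unique hp.1 hp'.1 hp.2 hp'.2 he
          exact Sigma.ext ha (heq_of_eq hb)
    _ = N := Finset.card_range N

end Returns

end Vale.Agent.P093
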