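import Vale.Agent.P093.Defs

/-!
# Traces on matrices and the dimension function
-/

namespace Vale.Agent.P093

open Filter Topology

variable {X : Type} [TopologicalSpace X] [CompactSpace X] {h : X ≃ₜ X} {q : ℕ}

theorem trace_add (τ : TracialState h) (a b : Mat h q) :
    trace τ (a + b) = trace τ a + trace τ b := by
  simp [trace, Finset.sum_add_distrib]

theorem trace_nonneg (τ : TracialState h) {a : Mat h q} (ha : 0 ≤ a) : 0 ≤ trace τ a := by
  obtain ⟨c, rfl⟩ := CStarAlgebra.nonneg_iff_eq_star_mul_self.1 ha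
  refine Finset.sum_nonneg fun i _ => ?_
  rw [CStarMatrix.mul_apply, map_sum, Complex.re_sum]
  refine Finset.sum_nonneg fun k _ => ?_
  obtain ⟨t, ht, heq⟩ := τ.nonneg (c k i)
  rw [show (star c) i k = star (c k i) from rfl, heq]
  simpa using ht

theorem trace_mono (τ : TracialState h) {a b : Mat h q} (hab : a ≤ b) :
    trace τ a ≤ trace τ b := by
  have h1 := trace_nonneg τ (sub_nonneg.2 hab)
  have h2 : trace τ b = trace τ a + trace τ (b - a) := by rw [← trace_add, add_sub_cancel]
  linarith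

theorem trace_smul (τ : TracialState h) (c : ℝ) (a : Mat h q) :
    trace τ (c • a) = c * trace τ a := by
  simp [trace, Finset.mul_sum]

theorem trace_one (τ : TracialState h) : trace τ (1 : Mat h q) = q := by
  simp [trace, τ.map_one]

/-- The sequence of exponents. -/
noncomputable def expo (m : ℕ) : ℝ := ((m : ℝ) + 1)⁻¹

theorem expo_pos (m : ℕ) : 0 < expo m := by unfold expo; positivity

theorem expo_le_one (m : ℕ) : expo m ≤ 1 := by
  unfold expo
  exact inv_le_one_of_one_le₀ (by linarith [show (0 : ℝ) ≤ m from m.cast_nonneg])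

theorem expo_antitone : Antitone expo := fun m n hmn => by
  unfold expo
  gcongr

theorem continuousOn_rpow {s : Set ℝ} {p : ℝ} (hp : 0 ≤ p) :
    ContinuousOn (fun x : ℝ => x ^ p) s :=
  (Real.continuous_rpow_const hp).continuousOn

/-- The limit defining `d_τ` exists. -/
theorem exists_tendsto (τ : TracialState h) {a : Mat h q} (ha : 0 ≤ a) :
    ∃ L, Tendsto (fun m : ℕ => trace τ (a ^ expo m)) atTop (𝓝 L) := by
  set s : ℝ := ‖a‖ + 1 with hs
  have hs0 : 0 < s := by positivity
  have hspec : ∀ x ∈ spectrum ℝ a, 0 ≤ x ∧ x ≤ s := by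
    intro x hx
    refine ⟨spectrum_nonneg_of_nonneg ha hx, ?_⟩
    have hle : a ≤ algebraMap ℝ _ ‖a‖ := IsSelfAdjoint.le_algebraMap_norm_self (.of_nonneg ha)
    have := (le_algebraMap_iff_spectrum_le (R := ℝ) (.of_nonneg ha)).1 hle x hx
    linarith
  set u : ℕ → Mat h q := fun m => cfc (fun x : ℝ => (x / s) ^ expo m) a with hu
  have hcont : ∀ m, ContinuousOn (fun x : ℝ => (x / s) ^ expo m) (spectrum ℝ a) := fun m =>
    ((Real.continuous_rpow_const (expo_pos m).le).comp (continuous_id.div_const s)).continuousOn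
  have hle1 : ∀ m, u m ≤ 1 := fun m => by
    refine cfc_le_one _ a fun x hx => ?_
    exact Real.rpow_le_one (div_nonneg (hspec x hx).1 hs0.le)
      ((div_le_one hs0).2 (hspec x hx).2) (expo_pos m).le
  have hmono : Monotone fun m => trace τ (u m) := by
    intro m n hmn
    refine trace_mono τ (cfc_mono (fun x hx => ?_) (hcont m) (hcont n))
    rcases (hspec x hx).1.eq_or_lt with h0 | h0
    · simp [← h0, Real.zero_rpow (expo_pos m).ne', Real.zero_rpow (expo_pos n).ne']
    · exact Real.rpow_le_rpow_of_exponent_ge (div_pos h0 hs0) ((div_le_one hs0).2 (hspec x hx).2)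
        (expo_antitone hmn)
  have hbdd : BddAbove (Set.range fun m => trace τ (u m)) := by
    refine ⟨q, ?_⟩
    rintro _ ⟨m, rfl⟩
    exact (trace_mono τ (hle1 m)).trans_eq (trace_one τ)
  have hu_tend := tendsto_atTop_ciSup hmono hbdd
  have hsm : Tendsto (fun m : ℕ => s ^ expo m) atTop (𝓝 1) := by
    have he : Tendsto expo atTop (𝓝 0) :=
      tendsto_inv_atTop_zero.comp
        (tendsto_atTop_add_const_right _ 1 tendsto_natCast_atTop_atTop)
    have := ((Real.continuous_const_rpow hs0.ne').tendsto 0).comp he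
    simpa [Function.comp_def] using this
  refine ⟨_, Tendsto.congr (fun m => ?_) (hsm.mul hu_tend)⟩
  rw [CFC.rpow_eq_cfc_real ha, ← trace_smul, hu]
  congr 1
  rw [← cfc_smul (s ^ expo m) _ a (hcont m)]
  refine cfc_congr fun x hx => ?_
  rw [smul_eq_mul, Real.div_rpow (hspec x hx).1 hs0.le]
  field_simp

theorem dtau_eq (τ : TracialState h) {a : Mat h q} :
    dtau τ a = limUnder atTop (fun m : ℕ => trace τ (a ^ expo m)) := rfl

/-- `d_τ` is the limit of `(τ ⊗ Tr)(a^{1/m})`. -/
theorem tendsto_dtau (τ : TracialState h) {a : Mat h q} (ha : 0 ≤ a) :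
    Tendsto (fun m : ℕ => trace τ (a ^ expo m)) atTop (𝓝 (dtau τ a)) := by
  rw [dtau_eq]
  exact tendsto_nhds_limUnder (exists_tendsto τ ha)

/-- For a positive contraction `d_τ` dominates the trace. -/
theorem trace_le_dtau (τ : TracialState h) {a : Mat h q} (ha : 0 ≤ a) (ha1 : a ≤ 1) :
    trace τ a ≤ dtau τ a := by
  refine ge_of_tendsto' (tendsto_dtau τ ha) fun m => trace_mono τ ?_
  rw [CFC.rpow_eq_cfc_real ha]
  conv_lhs => rw [← cfc_id' ℝ a (IsSelfAdjoint.of_nonneg ha)]
  refine cfc_mono (fun x hx => ?_) continuousOn_id (continuousOn_rpow (expo_pos m).le)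
  have h1 : x ≤ 1 := by
    have : a ≤ algebraMap ℝ _ 1 := by simpa using ha1
    exact (le_algebraMap_iff_spectrum_le (R := ℝ) (.of_nonneg ha)).1 this x hx
  exact Real.self_le_rpow_of_le_one (spectrum_nonneg_of_nonneg ha hx) h1 (expo_le_one m)

/-- For a projection `d_τ` is the trace. -/
theorem dtau_projection (τ : TracialState h) {a : Mat h q} (ha : IsSelfAdjoint a)
    (hidem : a * a = a) : dtau τ a = trace τ a := by
  have h0 : 0 ≤ a := by
    rw [← hidem]
    nth_rewrite 1 [← ha.star_eq]
    exact star_mul_self_nonneg a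
  refine tendsto_nhds_unique (tendsto_dtau τ h0) (Tendsto.congr (fun m => ?_) tendsto_const_nhds)
  congr 1
  rw [CFC.rpow_eq_cfc_real h0]
  conv_lhs => rw [← cfc_id' ℝ a ha]
  refine cfc_congr fun x hx => ?_
  have hx2 : x * x = x := by
    have hz : cfc (fun x : ℝ => x * x - x) a = 0 := by
      rw [cfc_sub _ _ a (by fun_prop) (by fun_prop), cfc_mul _ _ a (by fun_prop) (by fun_prop),
        cfc_id' ℝ a ha, hidem, sub_self]
    have := (cfc_eq_cfc_iff_eqOn (f := fun x : ℝ => x * x - x) (g := fun _ => 0) (a := a)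
      (ha := ha) (hf := by fun_prop) (hg := by fun_prop)).1 (by simpa using hz) hx
    simpa [sub_eq_zero] using this
  rcases mul_left_eq_self₀.1 hx2 with h | h
  · simp [h]
  · simp [h, Real.zero_rpow (expo_pos m).ne']

end Vale.Agent.P093
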