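import Vale.Agent.P093.Embed
import Vale.Agent.P093.Trace
import Vale.Agent.P093.Towers

/-!
# The witnesses: a projection and a Bloch field
-/

namespace Vale.Agent.P093

open Matrix

/-- One quarter of `1 - |v|²`. -/
noncomputable def defect (v : Fin 3 → ℝ) : ℝ := (1 - (v 0 ^ 2 + v 1 ^ 2 + v 2 ^ 2)) / 4

/-- A square root of the Bloch matrix. -/
noncomputable def root (v : Fin 3 → ℝ) : Matrix (Fin 2) (Fin 2) ℂ :=
  ((Real.sqrt (1 + 2 * Real.sqrt (defect v)))⁻¹ : ℂ) •
    (blo v + (Real.sqrt (defect v) : ℂ) • (1 : Matrix (Fin 2) (Fin 2) ℂ))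

theorem continuous_root : Continuous root := by
  have h1 : Continuous fun v => Real.sqrt (defect v) := by unfold defect; fun_prop
  have h2 : Continuous fun v => ((Real.sqrt (1 + 2 * Real.sqrt (defect v)))⁻¹ : ℂ) := by
    refine Continuous.inv₀ (Complex.continuous_ofReal.comp (by fun_prop)) fun v => ?_
    have := Real.sqrt_nonneg (defect v)
    exact Complex.ofReal_ne_zero.2 (Real.sqrt_ne_zero'.2 (by linarith))
  exact h2.smul (continuous_blo.add ((Complex.continuous_ofReal.comp h1).smul continuous_const))

theorem blo_conjTranspose (v : Fin 3 → ℝ) : (blo v)ᴴ = blo v := by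
  ext i j
  fin_cases i <;> fin_cases j <;>
    simp [blo, Matrix.conjTranspose_apply, Complex.ext_iff, Complex.div_ofNat_re, Complex.div_ofNat_im]

theorem root_conjTranspose (v : Fin 3 → ℝ) : (root v)ᴴ = root v := by
  simp [root, blo_conjTranspose]

theorem blo_sq (v : Fin 3 → ℝ) :
    blo v * blo v = blo v - (defect v : ℂ) • (1 : Matrix (Fin 2) (Fin 2) ℂ) := by
  ext i j
  fin_cases i <;> fin_cases j <;> simp [blo, defect, Matrix.mul_apply, Fin.sum_univ_two]
  all_goals ring_nf
  all_goals simp [Complex.I_sq]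
  all_goals ring

theorem root_mul_root (v : Fin 3 → ℝ) (hv : v 0 ^ 2 + v 1 ^ 2 + v 2 ^ 2 ≤ 1) :
    root v * root v = blo v := by
  have hd : 0 ≤ defect v := by unfold defect; linarith
  set s := Real.sqrt (defect v) with hs
  have hs0 : 0 ≤ s := Real.sqrt_nonneg _
  have hpos : 0 < 1 + 2 * s := by linarith
  set k := Real.sqrt (1 + 2 * s) with hk
  have hk2 : (k : ℂ) * k = 1 + 2 * (s : ℂ) := by
    rw [← Complex.ofReal_mul, hk, Real.mul_self_sqrt hpos.le]; simp
  have hs2 : (s : ℂ) * s = defect v := by
    rw [← Complex.ofReal_mul, hs, Real.mul_self_sqrt hd]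
  have hk0 : (k : ℂ) ≠ 0 := Complex.ofReal_ne_zero.2 (Real.sqrt_ne_zero'.2 hpos)
  show ((k : ℂ)⁻¹ • (blo v + (s : ℂ) • 1)) * ((k : ℂ)⁻¹ • (blo v + (s : ℂ) • 1)) = blo v
  rw [Matrix.smul_mul, Matrix.mul_smul, smul_smul, Matrix.add_mul, Matrix.mul_add,
    Matrix.mul_add, blo_sq]
  simp only [Matrix.smul_mul, Matrix.mul_smul, Matrix.one_mul, Matrix.mul_one, smul_smul, hs2]
  have : blo v - (defect v : ℂ) • (1 : Matrix (Fin 2) (Fin 2) ℂ) + (s : ℂ) • blo v
      + ((s : ℂ) • blo v + (defect v : ℂ) • 1) = ((k : ℂ) * k) • blo v := by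
    rw [hk2]
    module
  rw [this, smul_smul, show (k : ℂ)⁻¹ * (k : ℂ)⁻¹ * ((k : ℂ) * k) = 1 by field_simp, one_smul]

theorem blo_trace (v : Fin 3 → ℝ) : blo v 0 0 + blo v 1 1 = 1 := by
  simp [blo]
  ring

theorem one_sub_blo (v : Fin 3 → ℝ) : 1 - blo v = blo (-v) := by
  ext i j
  fin_cases i <;> fin_cases j <;> simp [blo] <;> ring

variable {X : Type} [TopologicalSpace X] [CompactSpace X] {h : X ≃ₜ X}

/-- A matrix of functions as a matrix over the crossed product. -/
noncomputable def multMat (h : X ≃ₜ X) {n : ℕ} (g : Fin n → Fin n → C(X, ℂ)) : Mat h n :=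
  CStarMatrix.ofMatrix fun i j => mult h (g i j)

@[simp] theorem multMat_apply {n : ℕ} (g : Fin n → Fin n → C(X, ℂ)) (i j : Fin n) :
    multMat h g i j = mult h (g i j) := rfl

theorem multMat_star_mul {n : ℕ} (g G : Fin n → Fin n → C(X, ℂ))
    (hg : ∀ x i j, ∑ k, (starRingEnd ℂ) (g k i x) * g k j x = G i j x) :
    star (multMat h g) * multMat h g = multMat h G := by
  refine CStarMatrix.ext fun i j => ?_
  rw [CStarMatrix.mul_apply, multMat_apply,
    show G i j = ∑ k, star (g k i) * g k j from
      ContinuousMap.ext fun x => by simp [← hg x i j], map_sum]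
  refine Finset.sum_congr rfl fun k _ => ?_
  rw [map_mul, map_star]
  rfl

variable {M K : ℕ} {C : Set X} {L R : ℕ} (H : Returns h C L R)

/-- The coordinates of a block of length `r`, padded with zeros. -/
noncomputable def blockVec (h : X ≃ₜ X) (f : C(X, Fin M → ℝ)) (R r : ℕ) (x : X)
    (i : Fin (R * M)) : ℝ :=
  if ((finProdFinEquiv.symm i).1 : ℕ) < r then
    f (iter h ((finProdFinEquiv.symm i).1 : ℕ) x) (finProdFinEquiv.symm i).2
  else 0

omit [CompactSpace X] in
theorem continuous_blockVec (f : C(X, Fin M → ℝ)) (r : ℕ) :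
    Continuous (blockVec h f R r) := by
  refine continuous_pi fun i => ?_
  unfold blockVec
  split
  · exact (continuous_apply _).comp (f.continuous.comp (iter h _).continuous)
  · exact continuous_const

/-- The data of the witnesses. -/
structure Data (h : X ≃ₜ X) (M K R : ℕ) where
  /-- The coordinate map. -/
  f : C(X, Fin M → ℝ)
  /-- The Bloch field on padded blocks. -/
  v : Fin K → (Fin (R * M) → ℝ) → Fin 3 → ℝ
  /-- Number of lines per return time. -/
  d : ℕ → ℕ
  /-- Rank of the projection per return time. -/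
  q : ℕ → ℕ
  v_cont : ∀ i, Continuous (v i)
  v_le : ∀ i x, v i x 0 ^ 2 + v i x 1 ^ 2 + v i x 2 ^ 2 ≤ 1

namespace Data

variable (D : Data h M K R)

/-- Indicator of the return times for which line `i` is used. -/
noncomputable def chi (i : Fin K) : C(X, ℂ) :=
  ∑ r ∈ (Finset.Icc 1 R).filter (fun r => (i : ℕ) < D.d r), H.ind r

/-- The Bloch vector of line `i` on `X`. -/
noncomputable def vec (i : Fin K) (x : X) : Fin 3 → ℝ :=
  ∑ r ∈ Finset.Icc 1 R, (H.ind r x).re • D.v i (blockVec h D.f R r x)

theorem continuous_vec (i : Fin K) : Continuous (D.vec H i) :=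
  continuous_finsetSum _ fun r _ =>
    (Complex.continuous_re.comp (H.ind r).continuous).smul
      ((D.v_cont i).comp (continuous_blockVec D.f r))

theorem chi_eq (i : Fin K) {x : X} {r : ℕ} (hr : r ∈ Finset.Icc 1 R) (hx : x ∈ retSet h C r) :
    D.chi H i x = if (i : ℕ) < D.d r then 1 else 0 := by
  rw [chi, ContinuousMap.sum_apply, Finset.sum_filter, Finset.sum_eq_single r]
  · split <;> simp [H.ind_apply_mem hx]
  · intro r' hr' hne
    rw [Finset.mem_Icc] at hr hr'
    have : x ∉ retSet h C r' := fun hx' => hne (H.retSet_unique (by omega) (by omega) hx' hx)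
    split <;> simp [H.ind_apply_notMem this]
  · exact fun hc => absurd hr hc

theorem chi_off (i : Fin K) {x : X} (hx : x ∉ C) : D.chi H i x = 0 := by
  rw [chi, ContinuousMap.sum_apply]
  exact Finset.sum_eq_zero fun r _ => H.ind_apply_notMem fun h' => hx h'.1

theorem chi_cases (i : Fin K) (x : X) : D.chi H i x = 0 ∨ D.chi H i x = 1 := by
  by_cases hx : x ∈ C
  · obtain ⟨r, hr, -, hxr⟩ := H.exists_retSet hx
    rw [chi_eq H D i hr hxr]
    split <;> simp
  · exact Or.inl (D.chi_off H i hx)

theorem vec_eq (i : Fin K) {x : X} {r : ℕ} (hr : r ∈ Finset.Icc 1 R) (hx : x ∈ retSet h C r) :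
    D.vec H i x = D.v i (blockVec h D.f R r x) := by
  rw [vec, Finset.sum_eq_single r]
  · simp [H.ind_apply_mem hx]
  · intro r' hr' hne
    rw [Finset.mem_Icc] at hr hr'
    have : x ∉ retSet h C r' := fun hx' => hne (H.retSet_unique (by omega) (by omega) hx' hx)
    simp [H.ind_apply_notMem this]
  · exact fun hc => absurd hr hc

theorem vec_le (i : Fin K) (x : X) :
    D.vec H i x 0 ^ 2 + D.vec H i x 1 ^ 2 + D.vec H i x 2 ^ 2 ≤ 1 := by
  by_cases hx : x ∈ C
  · obtain ⟨r, hr, -, hxr⟩ := H.exists_retSet hx
    rw [vec_eq H D i hr hxr]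
    exact D.v_le _ _
  · have h0 : D.vec H i x = 0 :=
      Finset.sum_eq_zero fun r _ => by simp [H.ind_apply_notMem fun h' => hx h'.1]
    simp [h0]

/-- The index of a row. -/
def row (p : Fin (K * 2)) : Fin K := (finProdFinEquiv.symm p).1

/-- The position inside a two-block. -/
def col (p : Fin (K * 2)) : Fin 2 := (finProdFinEquiv.symm p).2

/-- A block-diagonal matrix of functions. -/
noncomputable def blockDiag (F : Fin K → X → Matrix (Fin 2) (Fin 2) ℂ)
    (hF : ∀ i, Continuous (F i)) : Fin (K * 2) → Fin (K * 2) → C(X, ℂ) := fun p p' =>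
  if row p = row p' then
    ⟨fun x => F (row p) x (col p) (col p'),
      (continuous_apply _).comp ((continuous_apply _).comp (hF _))⟩
  else 0

theorem blockDiag_apply (F : Fin K → X → Matrix (Fin 2) (Fin 2) ℂ) (hF : ∀ i, Continuous (F i))
    (p p' : Fin (K * 2)) (x : X) :
    blockDiag F hF p p' x = if row p = row p' then F (row p) x (col p) (col p') else 0 := by
  unfold blockDiag
  split <;> simp

theorem blockDiag_star_mul (h : X ≃ₜ X) (F G : Fin K → X → Matrix (Fin 2) (Fin 2) ℂ)
    (hF : ∀ i, Continuous (F i)) (hG : ∀ i, Continuous (G i))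
    (hFG : ∀ i x, (F i x)ᴴ * F i x = G i x) :
    star (multMat h (blockDiag F hF)) * multMat h (blockDiag F hF)
      = multMat h (blockDiag G hG) := by
  refine multMat_star_mul _ _ fun x p p' => ?_
  rw [← finProdFinEquiv.sum_comp, Fintype.sum_prod_type, Finset.sum_eq_single (row p)]
  · rw [blockDiag_apply]
    split
    · next hpp =>
      rw [← hFG, Matrix.mul_apply]
      refine Finset.sum_congr rfl fun k _ => ?_
      simp [blockDiag_apply, row, col, ← hpp, Matrix.conjTranspose_apply]
      simp [row] at hpp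
      simp [hpp]
    · next hpp =>
      refine Finset.sum_eq_zero fun k _ => ?_
      simp [blockDiag_apply, row] at hpp ⊢
      intro h1
      exact absurd h1 hpp
  · intro i _ hne
    refine Finset.sum_eq_zero fun k _ => ?_
    rw [blockDiag_apply F hF (finProdFinEquiv (i, k)) p,
      if_neg (fun he => hne (by simpa [row] using he)), map_zero, zero_mul]
  · intro hc
    exact absurd (Finset.mem_univ _) hc

/-- The Bloch part of the witness `b`. -/
noncomputable def bField (i : Fin K) (x : X) : Matrix (Fin 2) (Fin 2) ℂ :=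
  D.chi H i x • blo (D.vec H i x)

/-- The square root of the Bloch part. -/
noncomputable def rField (i : Fin K) (x : X) : Matrix (Fin 2) (Fin 2) ℂ :=
  D.chi H i x • root (D.vec H i x)

/-- The square root of the complement. -/
noncomputable def cField (i : Fin K) (x : X) : Matrix (Fin 2) (Fin 2) ℂ :=
  D.chi H i x • root (-D.vec H i x) + (1 - D.chi H i x) • 1

theorem continuous_bField (i : Fin K) : Continuous (D.bField H i) :=
  (D.chi H i).continuous.smul (continuous_blo.comp (D.continuous_vec H i))

theorem continuous_rField (i : Fin K) : Continuous (D.rField H i) :=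
  (D.chi H i).continuous.smul (continuous_root.comp (D.continuous_vec H i))

theorem continuous_cField (i : Fin K) : Continuous (D.cField H i) :=
  ((D.chi H i).continuous.smul (continuous_root.comp (D.continuous_vec H i).neg)).add
    ((continuous_const.sub (D.chi H i).continuous).smul continuous_const)

/-- The witness `b`. -/
noncomputable def bMat : Mat h (K * 2) :=
  multMat h (blockDiag (D.bField H) (D.continuous_bField H))

/-- The entries of the witness `a`. -/
noncomputable def aFun (p : Fin (K * 2)) : C(X, ℂ) :=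
  ∑ r ∈ (Finset.Icc 1 R).filter (fun r => (p : ℕ) < D.q r), H.ind r

/-- The witness `a`. -/
noncomputable def aMat : Mat h (K * 2) :=
  multMat h fun p p' => if p = p' then D.aFun H p else 0

theorem bMat_nonneg : 0 ≤ D.bMat H := by
  have := blockDiag_star_mul h (D.rField H) (D.bField H) (D.continuous_rField H)
    (D.continuous_bField H) fun i x => by
      rcases D.chi_cases H i x with h0 | h0
      · simp [rField, bField, h0]
      · simp [rField, bField, h0, root_conjTranspose, root_mul_root _ (D.vec_le H i x)]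
  rw [bMat, ← this]
  exact star_mul_self_nonneg _

theorem bMat_le_one : D.bMat H ≤ 1 := by
  have hG : ∀ i, Continuous fun x => (1 : Matrix (Fin 2) (Fin 2) ℂ) - D.bField H i x :=
    fun i => continuous_const.sub (D.continuous_bField H i)
  have := blockDiag_star_mul h (D.cField H) (fun i x => 1 - D.bField H i x)
    (D.continuous_cField H) hG fun i x => by
      rcases D.chi_cases H i x with h0 | h0
      · simp [cField, bField, h0]
      · have hle : (-D.vec H i x) 0 ^ 2 + (-D.vec H i x) 1 ^ 2 + (-D.vec H i x) 2 ^ 2 ≤ 1 := by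
          simpa using D.vec_le H i x
        simp [cField, bField, h0, root_conjTranspose, root_mul_root _ hle, one_sub_blo]
  have heq : multMat h (blockDiag (fun i x => 1 - D.bField H i x) hG) = 1 - D.bMat H := by
    refine CStarMatrix.ext fun p p' => ?_
    rw [CStarMatrix.sub_apply, bMat, multMat_apply, multMat_apply, CStarMatrix.one_apply]
    have e : blockDiag (fun i x => 1 - D.bField H i x) hG p p'
        = (if p = p' then 1 else 0) - blockDiag (D.bField H) (D.continuous_bField H) p p' := by
      refine ContinuousMap.ext fun x => ?_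
      by_cases hr : row p = row p'
      · by_cases hp : p = p'
        · simp [blockDiag_apply, hp]
        · have hc : col p ≠ col p' := fun hc => hp (finProdFinEquiv.symm.injective (Prod.ext hr hc))
          simp [blockDiag_apply, hr, hp, hc]
      · have hp : p ≠ p' := fun hp => hr (by rw [hp])
        simp [blockDiag_apply, hr, hp]
    rw [e, map_sub]
    split <;> simp
  rw [← sub_nonneg, ← heq, ← this]
  exact star_mul_self_nonneg _

theorem aFun_cases (p : Fin (K * 2)) (x : X) : D.aFun H p x = 0 ∨ D.aFun H p x = 1 := by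
  by_cases hx : x ∈ C
  · obtain ⟨r, hr, -, hxr⟩ := H.exists_retSet hx
    rw [aFun, ContinuousMap.sum_apply, Finset.sum_filter, Finset.sum_eq_single r]
    · split <;> simp [H.ind_apply_mem hxr]
    · intro r' hr' hne
      rw [Finset.mem_Icc] at hr hr'
      have : x ∉ retSet h C r' := fun h' => hne (H.retSet_unique (by omega) (by omega) h' hxr)
      split <;> simp [H.ind_apply_notMem this]
    · exact fun hc => absurd hr hc
  · left
    rw [aFun, ContinuousMap.sum_apply]
    exact Finset.sum_eq_zero fun r _ => H.ind_apply_notMem fun h' => hx h'.1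

theorem aMat_star_mul : star (D.aMat H) * D.aMat H = D.aMat H := by
  classical
  refine multMat_star_mul _ _ fun x p p' => ?_
  rw [Finset.sum_eq_single p]
  · rcases D.aFun_cases H p x with h0 | h0 <;> by_cases hp : p = p' <;> simp [hp] <;>
      subst hp <;> simp [h0]
  · intro k _ hne
    simp [hne]
  · exact fun hc => absurd (Finset.mem_univ _) hc

theorem aMat_selfAdjoint : IsSelfAdjoint (D.aMat H) := by
  rw [← aMat_star_mul H D]
  exact IsSelfAdjoint.star_mul_self _

theorem aMat_nonneg : 0 ≤ D.aMat H := by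
  rw [← aMat_star_mul H D]
  exact star_mul_self_nonneg _

theorem dtau_aMat (τ : TracialState h) :
    dtau τ (D.aMat H) = trace τ (D.aMat H) :=
  dtau_projection τ (D.aMat_selfAdjoint H) (by
    have := D.aMat_star_mul H
    rwa [(D.aMat_selfAdjoint H).star_eq] at this)

theorem trace_aMat (τ : TracialState h) (hq : ∀ r ∈ Finset.Icc 1 R, D.q r ≤ K * 2) :
    trace τ (D.aMat H) = ∑ r ∈ Finset.Icc 1 R, (D.q r : ℝ) * H.mass τ r := by
  simp only [trace, aMat, multMat_apply, if_true, aFun, map_sum, Complex.re_sum,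
    Finset.sum_filter]
  rw [Finset.sum_comm]
  refine Finset.sum_congr rfl fun r hr => ?_
  simp only [apply_ite (mult h), map_zero, apply_ite τ.toLin, apply_ite Complex.re, Complex.zero_re]
  rw [← Finset.sum_filter, Finset.sum_const, nsmul_eq_mul]
  congr 2
  rw [← Fintype.card_subtype]
  exact_mod_cast Fintype.card_fin_lt_of_le (hq r hr)

theorem trace_bMat (τ : TracialState h) (hd : ∀ r ∈ Finset.Icc 1 R, D.d r ≤ K) :
    trace τ (D.bMat H) = ∑ r ∈ Finset.Icc 1 R, (D.d r : ℝ) * H.mass τ r := by
  have hpair : ∀ i : Fin K, ∑ a : Fin 2,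
      blockDiag (D.bField H) (D.continuous_bField H) (finProdFinEquiv (i, a))
        (finProdFinEquiv (i, a)) = D.chi H i := by
    intro i
    refine ContinuousMap.ext fun x => ?_
    simp [blockDiag_apply, row, col, Fin.sum_univ_two, bField, ← mul_add, blo_trace]
  have h1 : trace τ (D.bMat H) = ∑ i : Fin K, (τ.toLin (mult h (D.chi H i))).re := by
    rw [trace, ← finProdFinEquiv.sum_comp, Fintype.sum_prod_type]
    refine Finset.sum_congr rfl fun i _ => ?_
    rw [← hpair i]
    simp [bMat]
  rw [h1]
  simp only [chi, map_sum, Complex.re_sum, Finset.sum_filter]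
  rw [Finset.sum_comm]
  refine Finset.sum_congr rfl fun r hr => ?_
  simp only [apply_ite (mult h), map_zero, apply_ite τ.toLin, apply_ite Complex.re, Complex.zero_re]
  rw [← Finset.sum_filter, Finset.sum_const, nsmul_eq_mul]
  congr 2
  rw [← Fintype.card_subtype]
  exact_mod_cast Fintype.card_fin_lt_of_le (hd r hr)

end Data

end Vale.Agent.P093
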