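import Vale.Agent.P093.Diag
import Vale.Agent.P093.Gap.Trace
import Vale.Agent.P093.Gap.Markers

/-!
# Diagonal witnesses of prescribed frequency

Diagonal matrices of functions, an upper bound for their dimension functions by window frequencies
of the positivity sets, and functions with prescribed frequency that persists above a threshold.
-/

namespace Vale.Agent.P093

open Filter Topology
open scoped Classical

variable {X : Type} [TopologicalSpace X] [CompactSpace X] {h : X ≃ₜ X}

/-- The restriction of a tracial state to the real functions is an invariant state. -/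
noncomputable def traceInv (τ : TracialState h) : _root_.P093.InvState h where
  toLin :=
    { toFun := fun g => (τ.toLin (mult h (cplxC g))).re
      map_add' := fun g g' => by
        have e : cplxC (g + g') = cplxC g + cplxC g' := by ext x; simp
        simp [e, map_add]
      map_smul' := fun c g => by
        have e : cplxC (c • g) = (c : ℂ) • cplxC g := by ext x; simp
        show (τ.toLin (mult h (cplxC (c • g)))).re = c * (τ.toLin (mult h (cplxC g))).re
        rw [e, map_smul, map_smul, smul_eq_mul, Complex.re_ofReal_mul] }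
  mono := fun u v huv => by
    have e : cplxC v = cplxC u + star (cplxC ⟨fun x => Real.sqrt (v x - u x), by fun_prop⟩) *
        cplxC ⟨fun x => Real.sqrt (v x - u x), by fun_prop⟩ := by
      ext x
      have h0 := Real.mul_self_sqrt (sub_nonneg.2 (huv x))
      simp only [ContinuousMap.add_apply, ContinuousMap.mul_apply, ContinuousMap.star_apply,
        cplxC_apply, ContinuousMap.coe_mk, Complex.star_def, Complex.conj_ofReal]
      rw [← Complex.ofReal_mul, h0, ← Complex.ofReal_add, add_sub_cancel]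
    show (τ.toLin (mult h (cplxC u))).re ≤ (τ.toLin (mult h (cplxC v))).re
    rw [e, map_add, map_mul, map_star, map_add, Complex.add_re]
    obtain ⟨t, ht, heq⟩ := τ.nonneg
      (mult h (cplxC ⟨fun x => Real.sqrt (v x - u x), by fun_prop⟩))
    rw [heq, Complex.ofReal_re]
    linarith
  map_one := by
    have e : cplxC (1 : C(X, ℝ)) = 1 := by ext x; simp
    show (τ.toLin (mult h (cplxC 1))).re = 1
    simp [e, τ.map_one]
  invariant := fun g => by
    show (τ.toLin (mult h (cplxC (g.comp (h : C(X, X)))))).re = (τ.toLin (mult h (cplxC g))).re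
    have hpull : pull h (-1) (cplxC (g.comp (h : C(X, X)))) = cplxC g := by
      ext x
      have e1 := iter_natCast h 1 (iter h (-1) x)
      rw [Nat.cast_one, iter_neg_self] at e1
      simp only [pull_apply, cplxC_apply, ContinuousMap.comp_apply]
      exact congrArg (fun y => ((g y : ℝ) : ℂ)) e1.symm
    have h1 := shift_mult h (cplxC (g.comp (h : C(X, X)))) 1
    rw [hpull] at h1
    rw [← h1, τ.tracial, ← mul_assoc, shift_neg_mul, one_mul]

theorem diagMat_mul {n : ℕ} (f g : Fin n → C(X, ℝ)) :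
    diagMat h f * diagMat h g = diagMat h fun p => f p * g p := by
  refine CStarMatrix.ext fun i j => ?_
  rw [CStarMatrix.mul_apply, Finset.sum_eq_single i]
  · simp only [diagMat, multMat_apply, if_true]
    rw [← map_mul]
    congr 1
    by_cases hij : i = j
    · subst hij
      simp only [if_true]
      ext x
      simp
    · simp [hij]
  · intro k _ hk
    simp [diagMat, Ne.symm hk]
  · exact fun hc => absurd (Finset.mem_univ _) hc

theorem diagMat_one {n : ℕ} : diagMat h (fun _ : Fin n => (1 : C(X, ℝ))) = 1 := by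
  refine CStarMatrix.ext fun i j => ?_
  rw [CStarMatrix.one_apply]
  simp only [diagMat, multMat_apply]
  split_ifs with hij
  · rw [show cplxC (1 : C(X, ℝ)) = 1 from ContinuousMap.ext fun x => by simp, map_one]
  · exact map_zero _

theorem diagMat_pow {n : ℕ} (g : Fin n → C(X, ℝ)) (k : ℕ) :
    diagMat h g ^ k = diagMat h fun p => g p ^ k := by
  induction k with
  | zero => simp [diagMat_one]
  | succ k ih => simp [pow_succ, ih, diagMat_mul]

theorem star_diagMat {n : ℕ} (g : Fin n → C(X, ℝ)) : star (diagMat h g) = diagMat h g := by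
  refine CStarMatrix.ext fun i j => ?_
  show star (diagMat h g j i) = diagMat h g i j
  simp only [diagMat, multMat_apply]
  rw [← map_star]
  congr 1
  by_cases hij : i = j
  · subst hij
    ext x
    simp
  · simp [hij, Ne.symm hij]

theorem trace_diagMat (τ : TracialState h) {n : ℕ} (g : Fin n → C(X, ℝ)) :
    trace τ (diagMat h g) = ∑ p, (traceInv τ).toLin (g p) := by
  refine Finset.sum_congr rfl fun p _ => ?_
  simp [diagMat, traceInv]

/-- Window frequencies of the positivity sets bound the dimension function. -/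
theorem dtau_diagMat_le (τ : TracialState h) {n : ℕ} (g : Fin n → C(X, ℝ))
    (hg0 : ∀ p x, 0 ≤ g p x) (hg1 : ∀ p x, g p x ≤ 1) (c : Fin n → ℝ) {N : ℕ} (hN : 0 < N)
    (hc : ∀ p x,
      (((Finset.range N).filter fun i : ℕ => 0 < g p ((⇑h)^[i] x)).card : ℝ) ≤ c p * N) :
    dtau τ (diagMat h g) ≤ ∑ p, c p := by
  refine le_of_tendsto' (tendsto_dtau τ (diagMat_nonneg h g hg0)) fun m => ?_
  have hroot : diagMat h g ^ expo m =
      diagMat h fun p => _root_.P093.powC (g p) (expo_pos m).le := by
    have hpow : diagMat h g =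
        (diagMat h fun p => _root_.P093.powC (g p) (expo_pos m).le) ^ (m + 1) := by
      rw [diagMat_pow]
      congr 1
      funext p
      ext x
      show g p x = (g p x ^ expo m) ^ (m + 1)
      rw [← Real.rpow_natCast, ← Real.rpow_mul (hg0 p x), expo]
      push_cast
      rw [inv_mul_cancel₀ (by positivity), Real.rpow_one]
    have h0 : (0 : Mat h n) ≤ diagMat h fun p => _root_.P093.powC (g p) (expo_pos m).le :=
      diagMat_nonneg h _ fun p x => Real.rpow_nonneg (hg0 p x) _
    conv_lhs => rw [hpow]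
    rw [← CFC.rpow_natCast _ (m + 1) h0,
      CFC.rpow_rpow_of_exponent_nonneg _ _ _ (Nat.cast_nonneg _) (expo_pos m).le h0]
    rw [show ((m + 1 : ℕ) : ℝ) * expo m = 1 by
      rw [expo]; push_cast; exact mul_inv_cancel₀ (by positivity), CFC.rpow_one _ h0]
  rw [hroot, trace_diagMat]
  refine Finset.sum_le_sum fun p _ => ?_
  refine (traceInv τ).le_frequency (g p) _ (fun x => ?_) (fun x hx => ?_) hN (hc p)
  · exact Real.rpow_le_one (hg0 p x) (hg1 p x) (expo_pos m).le
  · show g p x ^ expo m ≤ 0
    rw [le_antisymm hx (hg0 p x), Real.zero_rpow (expo_pos m).ne']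

omit [CompactSpace X] in
/-- A window count of the positivity set persists above a threshold, for all long windows. -/
theorem exists_threshold [CompactSpace X] (g : C(X, ℝ)) {c ε : ℝ} (hε : 0 < ε) {N₀ : ℕ}
    (hN₀ : 0 < N₀)
    (hc : ∀ x, c * N₀ ≤ (((Finset.range N₀).filter fun i : ℕ => 0 < g ((⇑h)^[i] x)).card : ℝ)) :
    ∃ η : ℝ, 0 < η ∧ ∃ N₁ : ℕ, ∀ x, ∀ N ≥ N₁,
      (c - ε) * N ≤ (((Finset.range N).filter fun i : ℕ => η < g ((⇑h)^[i] x)).card : ℝ) := by
  let O : ℕ → Set X := fun k => {x | c * N₀ ≤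
    ((((Finset.range N₀).filter fun i : ℕ => (1 : ℝ) / (k + 1) < g ((⇑h)^[i] x)).card : ℝ))}
  have hO : ∀ k, IsOpen (O k) := by
    intro k
    rw [isOpen_iff_mem_nhds]
    intro x hx
    have : ∀ᶠ y in 𝓝 x, ∀ i ∈ (Finset.range N₀).filter fun i : ℕ => (1 : ℝ) / (k + 1) < g ((⇑h)^[i] x),
        (1 : ℝ) / (k + 1) < g ((⇑h)^[i] y) := by
      rw [Filter.eventually_all_finset]
      exact fun i hi => (g.continuous.comp' (h.continuous.iterate i)).continuousAt.eventually_const_lt
        (Finset.mem_filter.1 hi).2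
    filter_upwards [this] with y hy
    simp only [O, Set.mem_ofPred_eq] at hx ⊢
    refine le_trans hx ?_
    exact_mod_cast Finset.card_le_card fun i hi =>
      Finset.mem_filter.2 ⟨(Finset.mem_filter.1 hi).1, hy i hi⟩
  have hmono : Monotone O := by
    intro k l hkl x hx
    simp only [O, Set.mem_ofPred_eq] at hx ⊢
    refine le_trans hx ?_
    refine Nat.cast_le.2 (Finset.card_le_card fun i hi => ?_)
    obtain ⟨h1, h2⟩ := Finset.mem_filter.1 hi
    exact Finset.mem_filter.2 ⟨h1, lt_of_le_of_lt (by gcongr) h2⟩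
  have hcov : Set.univ ⊆ ⋃ k, O k := by
    intro x _
    have : ∀ᶠ k : ℕ in atTop, ∀ i ∈ (Finset.range N₀).filter fun i : ℕ => 0 < g ((⇑h)^[i] x),
        (1 : ℝ) / (k + 1) < g ((⇑h)^[i] x) := by
      rw [Filter.eventually_all_finset]
      exact fun i hi => tendsto_one_div_add_atTop_nhds_zero_nat.eventually_lt_const
        (Finset.mem_filter.1 hi).2
    obtain ⟨k, hk⟩ := this.exists
    refine Set.mem_iUnion.2 ⟨k, (hc x).trans ?_⟩
    exact Nat.cast_le.2 (Finset.card_le_card fun i hi =>
      Finset.mem_filter.2 ⟨(Finset.mem_filter.1 hi).1, hk i hi⟩)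
  obtain ⟨k, hk⟩ := isCompact_univ.elim_directed_cover O hO hcov hmono.directed_le
  set η : ℝ := 1 / (k + 1)
  let G : X → ℕ → ℝ := fun x i => if η < g ((⇑h)^[i] x) then 1 else 0
  have hG : ∀ x M, (((Finset.range M).filter fun i : ℕ => η < g ((⇑h)^[i] x)).card : ℝ)
      = ∑ i ∈ Finset.range M, G x i := fun x M => by simp [G, Finset.sum_boole]
  have hwin : ∀ x, c * N₀ ≤ ∑ i ∈ Finset.range N₀, G x i := fun x => by
    rw [← hG]
    exact hk (Set.mem_univ x)
  have hblocks : ∀ t : ℕ, ∀ x, t * (c * N₀) ≤ ∑ i ∈ Finset.range (t * N₀), G x i := by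
    intro t
    induction t with
    | zero => simp
    | succ t ih =>
      intro x
      rw [Nat.succ_mul, Finset.sum_range_add, Nat.cast_succ, add_mul, one_mul]
      refine add_le_add (ih x) ((hwin ((⇑h)^[t * N₀] x)).trans (le_of_eq ?_))
      refine Finset.sum_congr rfl fun i _ => ?_
      simp only [G]
      rw [← Function.iterate_add_apply, add_comm i]
  refine ⟨η, by positivity, ⌈|c| * N₀ / ε⌉₊, fun x N hN => ?_⟩
  rw [hG]
  have hb := (hblocks (N / N₀) x).trans (Finset.sum_le_sum_of_subset_of_nonneg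
    (Finset.range_mono (Nat.div_mul_le_self N N₀)) fun i _ _ => by simp only [G]; split_ifs <;> simp)
  have hN' : |c| * N₀ ≤ N * ε := (div_le_iff₀ hε).1 ((Nat.le_ceil _).trans (Nat.cast_le.2 hN))
  refine le_trans ?_ hb
  have h1 : (N : ℝ) = (N / N₀ : ℕ) * (N₀ : ℝ) + (N % N₀ : ℕ) := by
    exact_mod_cast (Nat.div_add_mod' N N₀).symm
  have h2 : ((N % N₀ : ℕ) : ℝ) ≤ N₀ := Nat.cast_le.2 (Nat.mod_lt _ hN₀).le
  have h3 : c * (N % N₀ : ℕ) ≤ |c| * N₀ :=
    mul_le_mul (le_abs_self c) h2 (by positivity) (abs_nonneg c)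
  have h4 : c * N = c * ((N / N₀ : ℕ) * (N₀ : ℝ)) + c * (N % N₀ : ℕ) := by rw [← mul_add, ← h1]
  linarith

/-- A function of prescribed frequency, between `0` and `1`. -/
theorem exists_fun_frequency [T2Space X] [TopologicalSpace.MetrizableSpace X] [Infinite X]
    (hmin : ∀ x, Dense (Set.range fun n : ℤ => _root_.P093.orbitPt h n x))
    {s ε : ℝ} (h0 : 0 ≤ s) (h1 : s ≤ 1) (hε : 0 < ε) :
    ∃ g : C(X, ℝ), (∀ x, 0 ≤ g x) ∧ (∀ x, g x ≤ 1) ∧ ∃ N₀ : ℕ, ∀ x : X, ∀ N ≥ N₀,
      |(((Finset.range N).filter fun i : ℕ => 0 < g ((⇑h)^[i] x)).card : ℝ) - s * N| ≤ ε * N := by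
  obtain ⟨g, hg, N₀, hN⟩ := _root_.P093.exists_fun_frequency h hmin h0 h1 hε
  refine ⟨⟨fun x => min (g x) 1, by fun_prop⟩, fun x => le_min (hg x) zero_le_one,
    fun x => min_le_right _ _, N₀, fun x N hx => ?_⟩
  simpa [lt_min_iff] using hN x N hx

end Vale.Agent.P093
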