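import Vale.Agent.P093.EngineZero

/-!
# No injection of a trivial bundle into lines over a product of spheres plus a smaller trivial one
-/

namespace Vale.Agent.P093

open Matrix

/-- The unit sphere in three-space. -/
def Sph : Type := {v : Fin 3 → ℝ // v 0 ^ 2 + v 1 ^ 2 + v 2 ^ 2 = 1}

instance : TopologicalSpace Sph :=
  inferInstanceAs <| TopologicalSpace {v : Fin 3 → ℝ // v 0 ^ 2 + v 1 ^ 2 + v 2 ^ 2 = 1}

/-- The Bloch matrix of a vector in three-space. -/
noncomputable def blo (v : Fin 3 → ℝ) : Matrix (Fin 2) (Fin 2) ℂ :=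
  !![((1 + v 2) / 2 : ℝ), ((v 0 : ℂ) - v 1 * Complex.I) / 2;
     ((v 0 : ℂ) + v 1 * Complex.I) / 2, ((1 - v 2) / 2 : ℝ)]

theorem continuous_blo : Continuous blo := by
  unfold blo
  refine continuous_pi fun i => continuous_pi fun j => ?_
  fin_cases i <;> fin_cases j <;> simp <;> fun_prop

namespace Lines

variable {F e : ℕ}

/-- Coordinates of the box: two for each sphere and two for each of the `e` directions. -/
abbrev Idx (F e : ℕ) : Type := (Fin F × Bool) ⊕ (Fin e × Bool)

/-- The block of a coordinate. -/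
def blk : Idx F e → Option (Fin F) := Sum.elim (fun p => some p.1) (fun _ => none)

/-- The twisted coordinates. -/
def twist : Idx F e → Bool := Sum.elim (fun _ => true) (fun _ => false)

/-- The real weight of square `i`. -/
def z0 (v : Idx F e → ℝ) (i : Fin F) : ℝ :=
  (1 - |v (.inl (i, true))|) * (1 - |v (.inl (i, false))|)

/-- The complex coordinate of square `i`. -/
noncomputable def z1 (v : Idx F e → ℝ) (i : Fin F) : ℂ :=
  (v (.inl (i, true)) : ℂ) + v (.inl (i, false)) * Complex.I

/-- The squared length of the spinor of square `i`. -/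
noncomputable def nrm (v : Idx F e → ℝ) (i : Fin F) : ℝ :=
  z0 v i ^ 2 + (v (.inl (i, true)) ^ 2 + v (.inl (i, false)) ^ 2)

theorem nrm_pos (v : Idx F e → ℝ) (i : Fin F) : 0 < nrm v i := by
  unfold nrm
  by_contra h
  have h1 := sq_nonneg (z0 v i)
  have h2 := sq_nonneg (v (.inl (i, true)))
  have h3 := sq_nonneg (v (.inl (i, false)))
  have e1 : v (.inl (i, true)) ^ 2 = 0 := by linarith
  have e2 : v (.inl (i, false)) ^ 2 = 0 := by linarith
  have e3 : z0 v i ^ 2 = 0 := by linarith
  simp only [sq_eq_zero_iff] at e1 e2 e3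
  simp [z0, e1, e2] at e3

/-- The sphere point of square `i`. -/
noncomputable def pnt (v : Idx F e → ℝ) (i : Fin F) : Sph :=
  ⟨![2 * z0 v i * v (.inl (i, true)) / nrm v i, 2 * z0 v i * v (.inl (i, false)) / nrm v i,
      (z0 v i ^ 2 - (v (.inl (i, true)) ^ 2 + v (.inl (i, false)) ^ 2)) / nrm v i], by
    have h := (nrm_pos v i).ne'
    simp
    field_simp
    unfold nrm
    ring⟩

/-- The parameter in the trivial summand. -/
noncomputable def wgt (v : Idx F e → ℝ) : Fin (e + 1) → ℂ :=
  Fin.cons ((∏ k : Fin e × Bool, (1 - |v (.inr k)|) : ℝ) : ℂ)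
    fun k => (v (.inr (k, true)) : ℂ) + v (.inr (k, false)) * Complex.I

theorem wgt_ne_zero (v : Idx F e → ℝ) : wgt v ≠ 0 := by
  intro h
  have hk : ∀ k : Fin e × Bool, v (.inr k) = 0 := by
    rintro ⟨k, _ | _⟩ <;>
      [have := congrArg Complex.im (congrFun h k.succ); have := congrArg Complex.re (congrFun h k.succ)] <;>
      simpa [wgt] using this
  have := congrFun h 0
  simp [wgt, hk] at this

theorem continuous_pnt : Continuous (pnt (F := F) (e := e)) := by
  have hz : ∀ i, Continuous fun v : Idx F e → ℝ => z0 v i := fun i => by unfold z0; fun_prop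
  have hn : ∀ i, Continuous fun v : Idx F e → ℝ => nrm v i := fun i => by
    unfold nrm; have := hz i; fun_prop
  refine continuous_pi fun i => Continuous.subtype_mk (continuous_pi fun k => ?_) _
  have hne : ∀ v : Idx F e → ℝ, nrm v i ≠ 0 := fun v => (nrm_pos v i).ne'
  have := hz i
  fin_cases k <;> simp <;> refine Continuous.div ?_ (hn i) hne <;> fun_prop

theorem continuous_wgt : Continuous (wgt (F := F) (e := e)) := by
  refine continuous_pi fun k => ?_
  refine Fin.cases ?_ (fun k => ?_) k <;> simp [wgt] <;> fun_prop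

/-- Pairing with the spinor of square `i`. -/
noncomputable def pair (v : Idx F e → ℝ) (i : Fin F) (u : Fin 2 → ℂ) : ℂ :=
  (z0 v i : ℂ) * u 0 + (starRingEnd ℂ) (z1 v i) * u 1

theorem blo_pnt_mulVec (v : Idx F e → ℝ) (i : Fin F) (u : Fin 2 → ℂ)
    (h : pair v i u = 0) : blo (pnt v i).1 *ᵥ u = 0 := by
  have hne : (nrm v i : ℂ) ≠ 0 := Complex.ofReal_ne_zero.2 (nrm_pos v i).ne'
  have hn : (nrm v i : ℂ) = (z0 v i : ℂ) ^ 2
      + ((v (.inl (i, true)) : ℂ) ^ 2 + (v (.inl (i, false)) : ℂ) ^ 2) := by
    simp [nrm]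
  simp only [pair, z1, map_add, map_mul, Complex.conj_ofReal, Complex.conj_I] at h
  funext k
  fin_cases k <;> simp [blo, pnt, Matrix.mulVec, dotProduct] <;> field_simp <;> rw [hn]
  · linear_combination (2 * (z0 v i : ℂ)) * h
  · linear_combination (2 * ((v (.inl (i, true)) : ℂ) + (v (.inl (i, false)) : ℂ) * Complex.I)) * h
      + 2 * (v (.inl (i, false)) : ℂ) ^ 2 * u 1 * Complex.I_sq

theorem pnt_flip_none (v : Idx F e → ℝ) :
    (pnt (Engine.flip blk none v)) = pnt v ∧ (∀ i, z0 (Engine.flip blk none v) i = z0 v i) ∧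
      ∀ i, z1 (Engine.flip blk none v) i = z1 v i := by
  refine ⟨funext fun i => Subtype.ext ?_, fun i => ?_, fun i => ?_⟩ <;>
    simp [pnt, z0, z1, nrm, Engine.flip, blk]

theorem z0_flip_some (v : Idx F e → ℝ) (B i : Fin F) :
    z0 (Engine.flip blk (some B) v) i = z0 v i := by
  by_cases h : i = B <;> simp [z0, Engine.flip, blk, h]

theorem pnt_flip_some (v : Idx F e → ℝ) (B : Fin F) (hB : z0 v B = 0) :
    pnt (Engine.flip blk (some B) v) = pnt v := by
  funext i
  apply Subtype.ext
  by_cases h : i = B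
  · subst h
    simp [pnt, nrm, z0_flip_some, hB]
    simp [Engine.flip, blk]
  · simp [pnt, nrm, z0_flip_some]
    simp [Engine.flip, blk, h]

theorem wgt_flip_some (v : Idx F e → ℝ) (B : Fin F) :
    wgt (Engine.flip blk (some B) v) = wgt v := by
  simp [wgt, Engine.flip, blk]

theorem wgt_flip_none (v : Idx F e → ℝ) (h : ∃ k : Fin e × Bool, |v (.inr k)| = 1) :
    wgt (Engine.flip blk none v) = -wgt v := by
  obtain ⟨k, hk⟩ := h
  have h0 : ∏ k : Fin e × Bool, (1 - |v (.inr k)|) = 0 :=
    Finset.prod_eq_zero (Finset.mem_univ k) (by rw [hk, sub_self])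
  have h0' : ∏ k : Fin e × Bool, (1 - |Engine.flip blk none v (.inr k)|) = 0 := by
    simpa [Engine.flip, blk] using h0
  funext j
  refine Fin.cases ?_ (fun j => ?_) j
  · simp [wgt, h0, h0']
  · simp [wgt, Engine.flip, blk]
    ring

/-- **No injection.** A continuous family, over a product of `F` spheres, of odd maps from
`ℂ^(e+1)` into the sum of the tautological lines and `ℂ^e` vanishes somewhere off zero. -/
theorem no_injection
    (u : (Fin F → Sph) → (Fin (e + 1) → ℂ) → Fin F → Fin 2 → ℂ)
    (c : (Fin F → Sph) → (Fin (e + 1) → ℂ) → Fin e → ℂ)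
    (hu : Continuous fun p : (Fin F → Sph) × (Fin (e + 1) → ℂ) => u p.1 p.2)
    (hc : Continuous fun p : (Fin F → Sph) × (Fin (e + 1) → ℂ) => c p.1 p.2)
    (hu' : ∀ s w, u s (-w) = -u s w) (hc' : ∀ s w, c s (-w) = -c s w)
    (hline : ∀ s w i, blo (s i).1 *ᵥ u s w i = u s w i) :
    ∃ s w, w ≠ 0 ∧ u s w = 0 ∧ c s w = 0 := by
  classical
  let U : (Idx F e → ℝ) → Fin F → Fin 2 → ℂ := fun v => u (pnt v) (wgt v)
  let C : (Idx F e → ℝ) → Fin e → ℂ := fun v => c (pnt v) (wgt v)
  have hU : Continuous U := hu.comp (continuous_pnt.prodMk continuous_wgt)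
  have hC : Continuous C := hc.comp (continuous_pnt.prodMk continuous_wgt)
  let G : Idx F e → (Idx F e → ℝ) → ℝ := fun j v =>
    Sum.elim (fun p => if p.2 then (pair v p.1 (U v p.1)).re else (pair v p.1 (U v p.1)).im)
      (fun p => if p.2 then (C v p.1).re else (C v p.1).im) j
  have hG : ∀ j, Continuous (G j) := by
    rintro (⟨i, _ | _⟩ | ⟨i, _ | _⟩) <;> simp only [G, Sum.elim_inl, Sum.elim_inr, Bool.false_eq_true, if_false, if_true, pair, z0, z1] <;>
      fun_prop
  have hodd : ∀ j B v, (∀ i, |v i| ≤ 1) → (∃ i, blk i = B ∧ |v i| = 1) →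
      G j (Engine.flip blk B v)
        = if Engine.par blk none twist j B = 1 then -G j v else G j v := by
    intro j B v _ hbd
    obtain ⟨i0, hi0, habs⟩ := hbd
    cases B with
    | none =>
      have hk : ∃ k : Fin e × Bool, |v (.inr k)| = 1 := by
        cases i0 with
        | inl p => simp [blk] at hi0
        | inr k => exact ⟨k, habs⟩
      obtain ⟨h1, h2, h3⟩ := pnt_flip_none v
      have hU' : U (Engine.flip blk none v) = -U v := by simp [U, h1, wgt_flip_none v hk, hu']
      have hC' : C (Engine.flip blk none v) = -C v := by simp [C, h1, wgt_flip_none v hk, hc']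
      rcases j with ⟨i, _ | _⟩ | ⟨i, _ | _⟩
      all_goals simp only [G, Sum.elim_inl, Sum.elim_inr, hU', hC', pair, h2, h3]
      all_goals simp [Engine.par, blk, twist]
      all_goals ring
    | some B =>
      have hB : z0 v B = 0 := by
        cases i0 with
        | inr p => simp [blk] at hi0
        | inl p =>
          obtain ⟨q, t⟩ := p
          simp [blk] at hi0
          subst hi0
          cases t <;> simp [z0, habs]
      have hU' : U (Engine.flip blk (some B) v) = U v := by
        simp [U, pnt_flip_some v B hB, wgt_flip_some]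
      have hC' : C (Engine.flip blk (some B) v) = C v := by
        simp [C, pnt_flip_some v B hB, wgt_flip_some]
      have hz : ∀ i, z1 (Engine.flip blk (some B) v) i = if i = B then -z1 v i else z1 v i := by
        intro i
        by_cases h : i = B <;> simp [z1, Engine.flip, blk, h]
        ring
      rcases j with ⟨i, t⟩ | ⟨i, t⟩
      · simp only [G, Sum.elim_inl, hU', pair, z0_flip_some, hz]
        by_cases h : i = B
        · subst h
          cases t <;> simp [Engine.par, blk, twist, hB]
        · cases t <;> simp [Engine.par, blk, twist, h]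
      · simp only [G, Sum.elim_inr, hC']
        simp [Engine.par, blk, twist]
  obtain ⟨v, -, hv⟩ := Engine.exists_common_zero blk none twist
    (by rintro (_ | _) <;> simp [blk, twist]) G hG hodd
  refine ⟨pnt v, wgt v, wgt_ne_zero v, ?_, ?_⟩
  · funext i
    have h1 := hv (.inl (i, true))
    have h2 := hv (.inl (i, false))
    simp [G] at h1 h2
    have hp : pair v i (U v i) = 0 := Complex.ext h1 h2
    rw [← hline (pnt v) (wgt v) i]
    exact blo_pnt_mulVec v i _ hp
  · funext k
    have h1 := hv (.inr (k, true))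
    have h2 := hv (.inr (k, false))
    simp [G] at h1 h2
    exact Complex.ext h1 h2

end Lines

end Vale.Agent.P093
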