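import Vale.Agent.P093.Window

/-!
# The witnesses are not Cuntz comparable
-/

open scoped InnerProductSpace ComplexConjugate

namespace Vale.Agent.P093

open Matrix Embed

variable {X : Type} [TopologicalSpace X] [CompactSpace X] {h : X ≃ₜ X}
variable {C : Set X} {L R M K : ℕ}

open Classical in
/-- The cost of a block: the dimensions that are not lines. -/
noncomputable def Cube.cost {f : C(X, Fin M → ℝ)} {N : ℕ} (Q : Cube h f N)
    (H : Returns h C L R) (d : ℕ → ℕ) (t : ℕ) : ℕ :=
  if Q.Good H t then d (H.rt (iter h (t : ℕ) Q.base)) - Q.lines H t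
  else 2 * d (H.rt (iter h (t : ℕ) Q.base))

/-- The starts used as sources, away from the ends of the window. -/
noncomputable def Cube.sources {f : C(X, Fin M → ℝ)} {N : ℕ} (Q : Cube h f N)
    (H : Returns h C L R) (R₀ : ℕ) : Finset ℕ :=
  (H.starts Q.base N).filter fun t => R₀ ≤ t ∧ t + R₀ + R ≤ N

theorem pad_apply_of_lt {q n : ℕ} (a : Mat h q) (i j : Fin n) (hi : (i : ℕ) < q) (hj : (j : ℕ) < q) :
    pad n a i j = a ⟨i, hi⟩ ⟨j, hj⟩ := by
  show dite _ _ _ = _
  rw [dif_pos hi, dif_pos hj]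

theorem pad_apply_of_left {q n : ℕ} (a : Mat h q) (i j : Fin n) (hi : ¬ (i : ℕ) < q) :
    pad n a i j = 0 := by
  show dite _ _ _ = _
  rw [dif_neg hi]

theorem pad_apply_of_right {q n : ℕ} (a : Mat h q) (i j : Fin n) (hj : ¬ (j : ℕ) < q) :
    pad n a i j = 0 := by
  by_cases hi : (i : ℕ) < q
  · show dite _ _ _ = _
    rw [dif_pos hi, dif_neg hj]
  · exact pad_apply_of_left a i j hi

theorem coe_zero_apply (ξ : OrbitSpace X) : CP.op (0 : CP h) ξ = 0 :=
  rfl

theorem mult_apply (g : C(X, ℂ)) (ξ : OrbitSpace X) (p : X × ℤ) :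
    CP.op (mult h g) ξ p
      = g (iter h p.2 p.1) * ξ p := by
  show weightedShift h g 0 ξ p = _
  simp

theorem coe_mat_mul {n : ℕ} (a b : Mat h n) (i j : Fin n) (ξ : OrbitSpace X) :
    CP.op ((a * b) i j) ξ = ∑ k, CP.op (a i k) (CP.op (b k j) ξ) := by
  have : CP.op ((a * b) i j) = ∑ k, CP.op (a i k) * CP.op (b k j) := by
    rw [CStarMatrix.mul_apply, CP.op_sum]
    exact Finset.sum_congr rfl fun k _ => CP.op_mul _ _
  rw [this, ContinuousLinearMap.sum_apply]
  rfl

theorem Banded.apply_eq_zero {R' : ℕ} {z : OrbitSpace X →L[ℂ] OrbitSpace X} (hz : Banded h R' z)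
    {x x' : X} {k j : ℤ} (hh : x' ≠ x ∨ (R' : ℤ) < |j - k|) : z (basisVec x k) (x', j) = 0 :=
  hh.elim (hz.2.1 x x' k j) (hz.2.2 x x' k j)

theorem Banded.mono {R' R'' : ℕ} {z : OrbitSpace X →L[ℂ] OrbitSpace X} (hz : Banded h R' z)
    (hle : R' ≤ R'') : Banded h R'' z :=
  ⟨hz.1, hz.2.1, fun x x' k j hkj => hz.2.2 x x' k j (by
    have : (R' : ℤ) ≤ R'' := by exact_mod_cast hle
    omega)⟩

namespace Data

variable (H : Returns h C L R) (D : Data h M K R)

/-- The algebraic core: a banded near-solution gives an injection, which cannot exist. -/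
theorem core
    (hv : ∀ P s i, D.v i (emb P s) = if hi : (i : ℕ) < nlines P then (s ⟨i, hi⟩).1 else ![0, 0, 1])
    (hd : ∀ r ∈ Finset.Icc 1 R, D.d r ≤ K) (hq : ∀ r ∈ Finset.Icc 1 R, D.q r ≤ K * 2)
    {n R₀ N : ℕ} (hn : K * 2 ≤ n) (Q : Cube h D.f N)
    (hl : ∀ t ∈ H.starts Q.base N, Q.lines H t ≤ D.d (H.rt (iter h (t : ℕ) Q.base)))
    (hcount : ∑ t ∈ H.starts Q.base N, Q.cost H D.d t
      < ∑ t ∈ Q.sources H R₀, D.q (H.rt (iter h (t : ℕ) Q.base)))
    (x : Mat h n) (hx : ∀ i j, Banded h R₀ (CP.op (x i j)))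
    (hnorm : ‖star x * pad n (D.bMat H) * x - pad n (D.aMat H)‖ < 1 / (4 * ((K * 2 : ℕ) + 1) ^ 2)) :
    False := by
  classical
  set r : ℕ → ℕ := fun t => H.rt (iter h (t : ℕ) Q.base) with hr
  have hrmem : ∀ t ∈ H.starts Q.base N, r t ∈ Finset.Icc 1 R := fun t ht => by
    obtain ⟨h1, h2, -⟩ := H.rt_spec (H.mem_starts.1 ht).1
    exact Finset.mem_Icc.2 ⟨h1, h2⟩
  -- index types
  let T : Type := ↥(H.starts Q.base N)
  let EIdx : Type := Σ t : T, {p : Fin (K * 2) //
    ((Data.row p : Fin K) : ℕ) < D.d (r t.1) ∧ Q.lines H t.1 ≤ ((Data.row p : Fin K) : ℕ) ∧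
      (Q.Good H t.1 → Data.col p = 0)}
  let SIdx : Type := Σ t : ↥(Q.sources H R₀), Fin (D.q (r t.1))
  have hcardE : Fintype.card EIdx ≤ ∑ t ∈ H.starts Q.base N, Q.cost H D.d t := by
    rw [Fintype.card_sigma, ← Finset.sum_coe_sort (H.starts Q.base N) (fun t => Q.cost H D.d t)]
    refine Finset.sum_le_sum fun t _ => ?_
    unfold Cube.cost
    split
    · next hg =>
      refine (Fintype.card_le_of_injective
        (fun p => (⟨((Data.row p.1 : Fin K) : ℕ) - Q.lines H t.1, by
          have := p.2.1; have := p.2.2.1; simp only [hr] at *; omega⟩ :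
            Fin (D.d (H.rt (iter h (t.1 : ℕ) Q.base)) - Q.lines H t.1))) ?_).trans_eq
        (Fintype.card_fin _)
      rintro ⟨p, hp1, hp2, hp3⟩ ⟨p', hp1', hp2', hp3'⟩ he
      simp only [Fin.mk.injEq] at he
      refine Subtype.ext (finProdFinEquiv.symm.injective (Prod.ext (Fin.ext ?_) ?_))
      · show ((Data.row p : Fin K) : ℕ) = ((Data.row p' : Fin K) : ℕ)
        omega
      · exact (hp3 hg).trans (hp3' hg).symm
    · refine (Fintype.card_le_of_injective
        (fun p => (⟨(p.1 : ℕ), by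
          have h1 : (p.1 : ℕ) / 2 < D.d (r t.1) := p.2.1
          simp only [hr] at h1
          omega⟩ : Fin (2 * D.d (H.rt (iter h (t.1 : ℕ) Q.base))))) ?_).trans_eq
        (Fintype.card_fin _)
      intro p p' he
      simp only [Fin.mk.injEq] at he
      exact Subtype.ext (Fin.ext he)
  have hcardS : Fintype.card SIdx = ∑ t ∈ Q.sources H R₀, D.q (r t) := by
    rw [Fintype.card_sigma, ← Finset.sum_coe_sort (Q.sources H R₀) (fun t => D.q (r t))]
    exact Finset.sum_congr rfl fun t _ => Fintype.card_fin _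
  set e := Fintype.card EIdx with he
  have hes : e + 1 ≤ Fintype.card SIdx := by
    rw [hcardS]
    simp only [hr] at hcardE ⊢
    omega
  set F := Fintype.card (Q.LineIdx H) with hF
  set ιF := Fintype.equivFin (Q.LineIdx H) with hιF
  set ιE := Fintype.equivFin EIdx with hιE
  set ιS : Fin (e + 1) → SIdx := fun k => (Fintype.equivFin SIdx).symm (Fin.castLE hes k) with hιS
  have hιSinj : Function.Injective ιS :=
    (Fintype.equivFin SIdx).symm.injective.comp (Fin.castLE_injective hes)
  -- the point, the vectors and their images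
  set pt : (Fin F → Sph) → X := fun s => Q.lift (Q.param H fun l => s (ιF l)) with hpt
  have hptc : Continuous pt :=
    Q.lift.continuous.comp ((Q.continuous_param H).comp
      (continuous_pi fun l => continuous_apply _))
  let src : (Fin F → Sph) → (Fin (e + 1) → ℂ) → Fin n → OrbitSpace X := fun s w i =>
    ∑ k, (if ((ιS k).2 : ℕ) = (i : ℕ) then w k else 0) • basisVec (pt s) ((ιS k).1.1 : ℕ)
  let img : (Fin F → Sph) → (Fin (e + 1) → ℂ) → Fin n → OrbitSpace X := fun s w p =>
    ∑ i, CP.op (x p i) (src s w i)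
  let out : (Fin F → Sph) → (Fin (e + 1) → ℂ) → ℕ → Fin K → Fin 2 → ℂ := fun s w t i =>
    blo (D.vec H i (iter h (t : ℤ) (pt s))) *ᵥ
      fun b => img s w ⟨(finProdFinEquiv (i, b) : ℕ),
        lt_of_lt_of_le (finProdFinEquiv (i, b)).isLt hn⟩ (pt s, (t : ℤ))
  have himg_eq : ∀ s w p x' j, img s w p (x', j)
      = ∑ i : Fin n, ∑ k, (if ((ιS k).2 : ℕ) = (i : ℕ) then w k else 0) *
          CP.op (x p i) (basisVec (pt s) ((ιS k).1.1 : ℕ)) (x', j) := by
    intro s w p x' j
    simp only [img, src, map_sum, map_smul, lp.coeFn_sum, Finset.sum_apply, lp.coeFn_smul,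
      Pi.smul_apply, smul_eq_mul]
  have himgc : ∀ p (j : ℤ), Continuous fun sw : (Fin F → Sph) × (Fin (e + 1) → ℂ) =>
      img sw.1 sw.2 p (pt sw.1, j) := by
    intro p j
    simp only [himg_eq]
    refine continuous_finsetSum _ fun i _ => continuous_finsetSum _ fun k _ => ?_
    refine Continuous.mul ?_ (((hx p i).1 _ j).comp (hptc.comp continuous_fst))
    split
    · exact (continuous_apply k).comp continuous_snd
    · exact continuous_const
  have houtc : ∀ t i a, Continuous fun sw : (Fin F → Sph) × (Fin (e + 1) → ℂ) =>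
      out sw.1 sw.2 t i a := by
    intro t i a
    simp only [out, Matrix.mulVec, dotProduct]
    refine continuous_finsetSum _ fun b _ => Continuous.mul ?_ (himgc _ _)
    exact (continuous_apply b).comp ((continuous_apply a).comp (continuous_blo.comp
      ((D.continuous_vec H i).comp ((iter h _).continuous.comp (hptc.comp continuous_fst)))))
  have houtodd : ∀ s w t i, out s (-w) t i = -out s w t i := by
    intro s w t i
    have hneg : ∀ p x' j, img s (-w) p (x', j) = -img s w p (x', j) := by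
      intro p x' j
      simp only [himg_eq, ← Finset.sum_neg_distrib]
      refine Finset.sum_congr rfl fun i _ => Finset.sum_congr rfl fun k _ => ?_
      split <;> simp
    simp only [out]
    rw [show (fun b => img s (-w) ⟨(finProdFinEquiv (i, b) : ℕ),
        lt_of_lt_of_le (finProdFinEquiv (i, b)).isLt hn⟩ (pt s, (t : ℤ)))
      = -(fun b => img s w ⟨(finProdFinEquiv (i, b) : ℕ),
        lt_of_lt_of_le (finProdFinEquiv (i, b)).isLt hn⟩ (pt s, (t : ℤ))) from
      funext fun b => hneg _ _ _, Matrix.mulVec_neg]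
  have hret : ∀ (s : Fin F → Sph) (t : T),
      iter h ((t.1 : ℕ) : ℤ) (pt s) ∈ retSet h C (r t.1) :=
    fun s t => Q.rt_const H _ (H.mem_starts.1 t.2).1
  have hvec : ∀ (s : Fin F → Sph) (t : T) (i : Fin K), Q.Good H t.1 →
      D.vec H i (iter h ((t.1 : ℕ) : ℤ) (pt s))
        = if hi : (i : ℕ) < Q.lines H t.1 then (s (ιF ⟨t, ⟨i, hi⟩⟩)).1 else ![0, 0, 1] := by
    intro s t i hg
    rw [D.vec_eq H i (hrmem _ t.2) (hret s t)]
    simp only [hpt, hr]
    rw [Q.blockVec_param H _ t hg, hv]
    have hlt : Q.lines H t.1 = nlines (Q.pattern H t.1) := if_pos hg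
    by_cases hi : (i : ℕ) < nlines (Q.pattern H t.1)
    · rw [dif_pos hi, dif_pos (hlt ▸ hi)]
      rfl
    · rw [dif_neg hi, dif_neg (hlt ▸ hi)]
  have hline_lt : ∀ l : Q.LineIdx H, (l.2 : ℕ) < K := fun l =>
    lt_of_lt_of_le l.2.isLt ((hl _ l.1.2).trans (hd _ (hrmem _ l.1.2)))
  have hgood_of_line : ∀ l : Q.LineIdx H, Q.Good H l.1.1 := by
    intro l
    by_contra hg
    have := l.2.isLt
    simp [Cube.lines, hg] at this
  obtain ⟨s, w, hw, hu, hc⟩ := Lines.no_injection (F := F) (e := e)
    (fun s w k => out s w (ιF.symm k).1.1 ⟨(ιF.symm k).2, hline_lt _⟩)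
    (fun s w k => out s w (ιE.symm k).1.1 (Data.row (ιE.symm k).2.1) (Data.col (ιE.symm k).2.1))
    (continuous_pi fun k => continuous_pi fun a => houtc _ _ _)
    (continuous_pi fun k => houtc _ _ _)
    (fun s w => funext fun k => houtodd s w _ _)
    (fun s w => funext fun k => congrFun (houtodd s w _ _) _)
    (fun s w k => by
      set l := ιF.symm k with hl'
      have hv' : D.vec H ⟨l.2, hline_lt l⟩ (iter h ((l.1.1 : ℕ) : ℤ) (pt s)) = (s k).1 := by
        rw [hvec s l.1 _ (hgood_of_line l), dif_pos l.2.isLt,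
          show ιF ⟨l.1, ⟨(l.2 : ℕ), l.2.isLt⟩⟩ = k from by simp [hl']]
      simp only [out, hv']
      rw [Matrix.mulVec_mulVec, blo_sq]
      simp [defect, (s k).2])
  -- every coordinate of the image vanishes
  have hout : ∀ t ∈ H.starts Q.base N, ∀ i : Fin K, (i : ℕ) < D.d (r t) → out s w t i = 0 := by
    intro t ht i hi
    by_cases hil : (i : ℕ) < Q.lines H t
    · have key : ∀ l : Q.LineIdx H, ιF.symm (ιF l) = l →
          out s w l.1.1 ⟨l.2, hline_lt l⟩ = 0 := by
        intro l hll
        have := congrFun hu (ιF l)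
        generalize hl2 : ιF.symm (ιF l) = l' at hll
        have h2 : out s w l'.1.1 ⟨l'.2, hline_lt l'⟩ = 0 := by subst hl2; exact this
        subst hll
        exact h2
      exact key ⟨⟨t, ht⟩, ⟨i, hil⟩⟩ (Equiv.symm_apply_apply _ _)
    · have hget : ∀ a : Fin 2, (Q.Good H t → a = 0) → out s w t i a = 0 := by
        intro a ha
        have key : ∀ l : EIdx, ιE.symm (ιE l) = l →
            out s w l.1.1 (Data.row l.2.1) (Data.col l.2.1) = 0 := by
          intro l hll
          have := congrFun hc (ιE l)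
          generalize hl2 : ιE.symm (ιE l) = l' at hll
          have h2 : out s w l'.1.1 (Data.row l'.2.1) (Data.col l'.2.1) = 0 := by
            subst hl2; exact this
          subst hll
          exact h2
        have := key ⟨⟨t, ht⟩, ⟨finProdFinEquiv (i, a), by
          simp only [Data.row, Data.col, Equiv.symm_apply_apply]
          exact ⟨hi, not_lt.1 hil, ha⟩⟩⟩ (Equiv.symm_apply_apply _ _)
        simpa only [Data.row, Data.col, Equiv.symm_apply_apply] using this
      funext a
      by_cases hg : Q.Good H t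
      · obtain rfl | rfl : a = 0 ∨ a = 1 := by fin_cases a <;> simp
        · exact hget 0 fun _ => rfl
        · have hv' := hvec s ⟨t, ht⟩ i hg
          rw [dif_neg hil] at hv'
          show (blo (D.vec H i (iter h (t : ℤ) (pt s))) *ᵥ _) 1 = 0
          rw [hv']
          simp [blo, Matrix.mulVec, dotProduct, Fin.sum_univ_two]
      · exact hget a fun hg' => absurd hg' hg
  -- hence `b x ξ = 0`
  have himg_zero : ∀ p x' j,
      (x' ≠ pt s ∨ ∀ t ∈ Q.sources H R₀, (R₀ : ℤ) < |j - (t : ℤ)|) →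
        img s w p (x', j) = 0 := by
    intro p x' j hfar
    rw [himg_eq]
    refine Finset.sum_eq_zero fun i _ => Finset.sum_eq_zero fun k _ => ?_
    rw [(hx p i).apply_eq_zero (hfar.imp_right fun hj => hj _ (ιS k).1.2), mul_zero]
  have hbzero : ∀ p : Fin n, ∑ p', CP.op (pad n (D.bMat H) p p') (img s w p') = 0 := by
    intro p
    refine lp.ext (funext fun ⟨x', j⟩ => ?_)
    rw [lp.coeFn_sum, Finset.sum_apply, lp.coeFn_zero, Pi.zero_apply]
    by_cases hp : (p : ℕ) < K * 2
    swap
    · refine Finset.sum_eq_zero fun p' _ => ?_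
      rw [pad_apply_of_left _ _ _ hp, coe_zero_apply]
      rfl
    set i := Data.row (⟨p, hp⟩ : Fin (K * 2)) with hi
    set a := Data.col (⟨p, hp⟩ : Fin (K * 2)) with ha
    have hsum : ∑ p', (CP.op (pad n (D.bMat H) p p') (img s w p')) (x', j)
        = D.chi H i (iter h j x') * (blo (D.vec H i (iter h j x')) *ᵥ
          fun b => img s w ⟨(finProdFinEquiv (i, b) : ℕ),
            lt_of_lt_of_le (finProdFinEquiv (i, b)).isLt hn⟩ (x', j)) a := by
      rw [← Finset.sum_subset (Finset.subset_univ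
        ((Finset.univ : Finset (Fin 2)).map ⟨fun b => (⟨(finProdFinEquiv (i, b) : ℕ),
            lt_of_lt_of_le (finProdFinEquiv (i, b)).isLt hn⟩ : Fin n), fun b b' hb => by
          simp only [Fin.mk.injEq] at hb
          have := finProdFinEquiv.injective (Fin.ext hb)
          exact congrArg Prod.snd this⟩))]
      · rw [Finset.sum_map, Matrix.mulVec, dotProduct, Finset.mul_sum]
        refine Finset.sum_congr rfl fun b _ => ?_
        have hb : (finProdFinEquiv (i, b) : ℕ) < K * 2 := (finProdFinEquiv (i, b)).isLt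
        show (CP.op (pad n (D.bMat H) p (⟨(finProdFinEquiv (i, b) : ℕ), lt_of_lt_of_le hb hn⟩ : Fin n))
          (img s w ⟨(finProdFinEquiv (i, b) : ℕ), lt_of_lt_of_le hb hn⟩)) (x', j) = _
        have hrow : Data.row (finProdFinEquiv (i, b)) = i := by
          simp only [Data.row, Equiv.symm_apply_apply]
        have hcol : Data.col (finProdFinEquiv (i, b)) = b := by
          simp only [Data.col, Equiv.symm_apply_apply]
        rw [pad_apply_of_lt _ _ _ hp hb, Fin.eta, Data.bMat, multMat_apply, mult_apply,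
          Data.blockDiag_apply, if_pos (hi.symm.trans hrow.symm), hcol, ← hi, ← ha]
        simp [Data.bField, mul_assoc]
      · intro p' _ hp'
        by_cases hp'K : (p' : ℕ) < K * 2
        · rw [pad_apply_of_lt _ _ _ hp hp'K, Data.bMat, multMat_apply, mult_apply, Data.blockDiag_apply, if_neg, zero_mul]
          intro hrow
          apply hp'
          refine Finset.mem_map.2 ⟨Data.col (⟨p', hp'K⟩ : Fin (K * 2)), Finset.mem_univ _, ?_⟩
          apply Fin.ext
          show ((finProdFinEquiv (i, _) : Fin (K * 2)) : ℕ) = (p' : ℕ)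
          rw [hi, hrow, Data.row, Data.col, Prod.mk.eta, Equiv.apply_symm_apply]
        · rw [pad_apply_of_right _ _ _ hp'K, coe_zero_apply]
          rfl
    rw [hsum]
    have hzimg : (∀ p', img s w p' (x', j) = 0) → D.chi H i (iter h j x') *
        (blo (D.vec H i (iter h j x')) *ᵥ fun b => img s w ⟨(finProdFinEquiv (i, b) : ℕ),
          lt_of_lt_of_le (finProdFinEquiv (i, b)).isLt hn⟩ (x', j)) a = 0 := by
      intro h0
      simp [h0, Matrix.mulVec, dotProduct]
    by_cases hx' : x' = pt s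
    swap
    · exact hzimg fun p' => himg_zero p' x' j (Or.inl hx')
    subst hx'
    by_cases hnear : ∀ t ∈ Q.sources H R₀, (R₀ : ℤ) < |j - (t : ℤ)|
    · exact hzimg fun p' => himg_zero p' _ j (Or.inr hnear)
    push Not at hnear
    obtain ⟨t₀, ht₀, hclose⟩ := hnear
    simp only [Cube.sources, Finset.mem_filter] at ht₀
    rw [abs_le] at hclose
    obtain ⟨jn, rfl⟩ : ∃ jn : ℕ, (jn : ℤ) = j := ⟨j.toNat, Int.toNat_of_nonneg (by omega)⟩
    by_cases hC : iter h (jn : ℤ) (pt s) ∈ C
    swap
    · simp [D.chi_off H i hC]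
    have hCb : iter h (jn : ℤ) Q.base ∈ C := (Q.orbit_const _ H.clopen _).1 hC
    have hstart : jn ∈ H.starts Q.base N :=
      H.mem_starts.2 ⟨hCb, by have := (H.rt_spec hCb).2.1; omega⟩
    rw [D.chi_eq H i (hrmem _ hstart) (hret s ⟨jn, hstart⟩)]
    split
    · next hlt => rw [show (blo (D.vec H i (iter h (jn : ℤ) (pt s))) *ᵥ _) a = 0 from
        congrFun (hout jn hstart i hlt) a, mul_zero]
    · simp
  -- the quadratic form
  set ξ := src s w with hξ
  set Z := star x * pad n (D.bMat H) * x - pad n (D.aMat H) with hZ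
  set ε : ℝ := 1 / (4 * ((K * 2 : ℕ) + 1) ^ 2) with hε
  have hξzero : ∀ i : Fin n, K * 2 ≤ (i : ℕ) → ξ i = 0 := by
    intro i hi
    refine Finset.sum_eq_zero fun k _ => ?_
    rw [if_neg, zero_smul]
    have h1 := (ιS k).2.isLt
    have h2 := hq _ (hrmem _ (Finset.mem_filter.1 (ιS k).1.2).1)
    omega
  have haξ : ∀ p i : Fin n, CP.op (pad n (D.aMat H) p i) (ξ i) = if p = i then ξ i else 0 := by
    intro p i
    by_cases hi : (i : ℕ) < K * 2
    swap
    · simp [hξzero i (not_lt.1 hi)]
    by_cases hpi : p = i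
    swap
    · rw [if_neg hpi]
      by_cases hp : (p : ℕ) < K * 2
      · have hne : (⟨p, hp⟩ : Fin (K * 2)) ≠ ⟨i, hi⟩ := by
          simpa [Fin.ext_iff] using fun he : (p : ℕ) = i => hpi (Fin.ext he)
        refine lp.ext (funext fun z => ?_)
        rw [pad_apply_of_lt _ _ _ hp hi, Data.aMat, multMat_apply, if_neg hne, map_zero,
          coe_zero_apply]
      · rw [pad_apply_of_left _ _ _ hp, coe_zero_apply]
    subst hpi
    rw [if_pos rfl]
    rw [pad_apply_of_lt _ _ _ hi hi, Data.aMat, multMat_apply, if_pos rfl]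
    refine lp.ext (funext fun z => ?_)
    rw [mult_apply]
    simp only [hξ, src, lp.coeFn_sum, Finset.sum_apply, lp.coeFn_smul, Pi.smul_apply, smul_eq_mul,
      Finset.mul_sum]
    refine Finset.sum_congr rfl fun k _ => ?_
    by_cases hk : ((ιS k).2 : ℕ) = (p : ℕ)
    swap
    · simp [if_neg hk]
    by_cases hz : z = (pt s, (((ιS k).1.1 : ℕ) : ℤ))
    swap
    · simp [basisVec, lp.single_apply, hz]
    subst hz
    have hst := (Finset.mem_filter.1 (ιS k).1.2).1
    have hone : D.aFun H ⟨p, hi⟩ (iter h (((ιS k).1.1 : ℕ) : ℤ) (pt s)) = 1 := by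
      have hrs := hret s ⟨_, hst⟩
      rw [Data.aFun, ContinuousMap.sum_apply, Finset.sum_eq_single (r (ιS k).1.1)]
      · exact H.ind_apply_mem hrs
      · intro r' hr' hne
        refine H.ind_apply_notMem fun h' => hne ?_
        have h1 := (Finset.mem_Icc.1 (Finset.mem_filter.1 hr').1).1
        exact H.retSet_unique h1 (Finset.mem_Icc.1 (hrmem _ hst)).1 h' hrs
      · intro hc
        refine absurd (Finset.mem_filter.2 ⟨hrmem _ hst, ?_⟩) hc
        show (p : ℕ) < D.q (r (ιS k).1.1)
        have := (ιS k).2.isLt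
        omega
    rw [hone, one_mul]
  have hZξ : ∀ p i, CP.op (Z p i) (ξ i)
      = ∑ u, CP.op (star x p u) (∑ v, CP.op (pad n (D.bMat H) u v) (CP.op (x v i) (ξ i)))
        - (if p = i then ξ i else 0) := by
    intro p i
    rw [hZ, CStarMatrix.sub_apply, CP.op_sub, _root_.sub_apply, haξ, mul_assoc,
      coe_mat_mul]
    congr 1
    exact Finset.sum_congr rfl fun u _ => congrArg _ (coe_mat_mul _ _ _ _ _)
  have hrow : ∀ p, ∑ i, CP.op (Z p i) (ξ i) = -ξ p := by
    intro p
    simp only [hZξ, Finset.sum_sub_distrib, Finset.sum_ite_eq, Finset.mem_univ, if_true]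
    have : ∑ i, ∑ u, CP.op (star x p u) (∑ v, CP.op (pad n (D.bMat H) u v) (CP.op (x v i) (ξ i))) = 0 := by
      rw [Finset.sum_comm]
      refine Finset.sum_eq_zero fun u _ => ?_
      rw [← map_sum]
      have : ∑ i, ∑ v, CP.op (pad n (D.bMat H) u v) (CP.op (x v i) (ξ i))
          = ∑ v, CP.op (pad n (D.bMat H) u v) (img s w v) := by
        rw [Finset.sum_comm]
        simp only [img, hξ, map_sum]
      rw [this, hbzero, map_zero]
    rw [this, zero_sub]
  set S : Finset (Fin n) := Finset.univ.filter fun i : Fin n => (i : ℕ) < K * 2 with hS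
  have hScard : S.card ≤ K * 2 := by
    refine le_trans (Finset.card_le_card_of_injOn (t := (Finset.range (K * 2))) (fun i => (i : ℕ))
      (fun i hi => ?_) (fun i _ j _ he => Fin.ext he)) (by simp)
    simpa [hS] using hi
  set B : ℝ := ∑ i ∈ S, ‖ξ i‖ with hB
  have hbound : ∀ p, ‖ξ p‖ ≤ ε * B := by
    intro p
    rw [← norm_neg, ← hrow p, ← Finset.sum_subset (Finset.subset_univ S)]
    · refine (norm_sum_le _ _).trans ?_
      rw [hB, Finset.mul_sum]
      refine Finset.sum_le_sum fun i _ => ?_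
      refine ((CP.op (Z p i)).le_opNorm (ξ i)).trans ?_
      gcongr
      exact (CStarMatrix.norm_entry_le_norm.trans hnorm.le)
    · intro i _ hi
      simp [hξzero i (by simpa [hS] using hi)]
  have hB0 : B = 0 := by
    have h1 : B ≤ (K * 2 : ℕ) * (ε * B) := by
      calc B ≤ S.card • (ε * B) := Finset.sum_le_card_nsmul _ _ _ fun p _ => hbound p
        _ ≤ (K * 2 : ℕ) * (ε * B) := by
          rw [nsmul_eq_mul]
          refine mul_le_mul_of_nonneg_right (by exact_mod_cast hScard) ?_
          positivity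
    have hBn : 0 ≤ B := by positivity
    have hεlt : (K * 2 : ℕ) * ε < 1 := by
      rw [hε, mul_one_div, div_lt_one (by positivity)]
      nlinarith [show (0 : ℝ) ≤ (K * 2 : ℕ) from Nat.cast_nonneg _]
    nlinarith
  apply hw
  funext k
  have h1 := (ιS k).2.isLt
  have h2 := hq _ (hrmem _ (Finset.mem_filter.1 (ιS k).1.2).1)
  set i : Fin n := ⟨((ιS k).2 : ℕ), by omega⟩ with hidef
  have hξi : ξ i = 0 := by
    have := hbound i
    rw [hB0, mul_zero] at this
    simpa using this
  have heval := congrArg (fun v : OrbitSpace X => v (pt s, (((ιS k).1.1 : ℕ) : ℤ))) hξi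
  simp only [hξ, src, lp.coeFn_sum, Finset.sum_apply, lp.coeFn_smul, Pi.smul_apply, smul_eq_mul,
    lp.coeFn_zero, Pi.zero_apply] at heval
  rw [Finset.sum_eq_single k] at heval
  · simpa [basisVec, lp.single_apply, hidef] using heval
  · intro k' _ hne
    by_cases hk : ((ιS k').2 : ℕ) = (i : ℕ)
    swap
    · simp [hk]
    have hne' : ((ιS k').1.1 : ℕ) ≠ ((ιS k).1.1 : ℕ) := by
      intro ht
      apply hne
      apply hιSinj
      refine Sigma.ext (Subtype.ext ht) ((Fin.heq_ext_iff ?_).2 hk)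
      rw [ht]
    refine mul_eq_zero_of_right _ ?_
    simp only [basisVec, lp.single_apply]
    exact Pi.single_eq_of_ne (by simpa using Ne.symm hne') _
  · exact fun hc => absurd (Finset.mem_univ _) hc

end Data

end Vale.Agent.P093
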