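import Vale.Agent.P093.Count
import Vale.Agent.P093.Obstruct

/-!
# The lower bound for the radius of comparison
-/

namespace Vale.Agent.P093

open Filter Topology Embed

variable {X : Type} [TopologicalSpace X] [CompactSpace X] {h : X ≃ₜ X} {M : ℕ}

/-- The ramp sending `[s/S, (s+1)/S]` onto `[0,1]`. -/
noncomputable def ramp (S s : ℕ) (c : ℝ) : ℝ := max 0 (min 1 ((S : ℝ) * c - s))

theorem continuous_ramp (S s : ℕ) : Continuous (ramp S s) := by unfold ramp; fun_prop

theorem ramp_section {S : ℕ} (hS : 0 < S) (s : ℕ) (y : unitInterval) :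
    ramp S s ((s + (y : ℝ)) / S) = y := by
  have hS' : (S : ℝ) ≠ 0 := by exact_mod_cast hS.ne'
  unfold ramp
  rw [mul_div_cancel₀ _ hS', add_sub_cancel_left, min_eq_right y.2.2, max_eq_right y.2.1]

theorem ramp_ne {S s : ℕ} {c : ℝ} (h0 : ramp S s c ≠ 0) (h1 : ramp S s c ≠ 1) :
    0 < (S : ℝ) * c - s ∧ (S : ℝ) * c - s < 1 := by
  unfold ramp at h0 h1
  constructor
  · by_contra hc
    exact h0 (max_eq_left ((min_le_right _ _).trans (not_lt.1 hc)))
  · by_contra hc
    rw [min_eq_left (not_lt.1 hc), max_eq_right zero_le_one] at h1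
    exact h1 rfl

/-- The ramped coordinate map. -/
noncomputable def rampMap (f : C(X, Fin M → ℝ)) (S s : ℕ) : C(X, Fin M → ℝ) :=
  ⟨fun x c => ramp S s (f x c),
    continuous_pi fun c => (continuous_ramp S s).comp ((continuous_apply c).comp f.continuous)⟩

/-- Passing a cube through a ramp. -/
noncomputable def Cube.ramped {f : C(X, Fin M → ℝ)} {N : ℕ} (Q : Cube h f N) {S : ℕ}
    (s : Fin S) : Cube h (rampMap f S s) N where
  J := Q.J
  lift := Q.lift.comp ⟨fun y p => ⟨((s : ℕ) + (y p : ℝ)) / S, by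
      have h1 : ((s : ℕ) : ℝ) + 1 ≤ S := by exact_mod_cast s.isLt
      have h2 := (y p).2
      constructor
      · exact div_nonneg (by linarith [h2.1, show (0 : ℝ) ≤ (s : ℕ) from Nat.cast_nonneg _]) (Nat.cast_nonneg _)
      · rw [div_le_one (by linarith [show (0 : ℝ) ≤ (s : ℕ) from Nat.cast_nonneg _])]
        linarith [h2.2]⟩, by
    refine continuous_pi fun p => Continuous.subtype_mk ?_ _
    fun_prop⟩
  free_eq y p := by
    show ramp S s (f (iter h _ (Q.lift _)) _) = _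
    rw [Q.free_eq]
    exact ramp_section (Fin.pos s) s (y p)
  const_eq p hp y y' := by
    show ramp S s (f (iter h _ (Q.lift _)) _) = ramp S s (f (iter h _ (Q.lift _)) _)
    rw [Q.const_eq p hp]

theorem Cube.exists_ramp {f : C(X, Fin M → ℝ)} {N : ℕ} (Q : Cube h f N) {S : ℕ} (hS : 0 < S) :
    ∃ s : Fin S, (Q.ramped s).wild.card * S ≤ N * M := by
  classical
  have hinj : Fintype.card (Σ s : Fin S, ↥(Q.ramped s).wild) ≤ N * M := by
    refine (Fintype.card_le_of_injective (fun z => (z.2 : Fin N × Fin M)) ?_).trans_eq (by simp)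
    rintro ⟨s, p, hp⟩ ⟨s', p', hp'⟩ he
    simp only at he
    subst he
    obtain rfl : s = s' := by
      obtain ⟨hJ, h0, h1⟩ := (Finset.mem_filter.1 hp).2
      obtain ⟨-, h0', h1'⟩ := (Finset.mem_filter.1 hp').2
      have hJ' : p ∉ Q.J := hJ
      have hv : ∀ t : Fin S, (Q.ramped t).value p.1 p.2 = ramp S t (Q.value p.1 p.2) := by
        intro t
        show ramp S t (f (iter h _ (Q.lift _)) _) = _
        rw [Q.const_eq p hJ' _ (fun _ => 0)]
        rfl
      rw [hv] at h0 h1 h0' h1'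
      obtain ⟨a1, a2⟩ := ramp_ne h0 h1
      obtain ⟨b1, b2⟩ := ramp_ne h0' h1'
      have c1 : ((s : ℕ) : ℝ) < ((s' : ℕ) : ℝ) + 1 := by linarith
      have c2 : ((s' : ℕ) : ℝ) < ((s : ℕ) : ℝ) + 1 := by linarith
      norm_cast at c1 c2
      exact Fin.ext (by omega)
    rfl
  rw [Fintype.card_sigma] at hinj
  by_contra hc
  push Not at hc
  have : (Finset.univ : Finset (Fin S)).card • (N * M + 1)
      ≤ ∑ s : Fin S, (Q.ramped s).wild.card * S :=
    Finset.card_nsmul_le_sum _ _ _ fun s _ => hc s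
  rw [← Finset.sum_mul, Finset.card_univ, Fintype.card_fin, smul_eq_mul] at this
  have h2 : ∑ s : Fin S, (Q.ramped s).wild.card ≤ N * M :=
    le_of_eq_of_le (Finset.sum_congr rfl fun s _ => (Fintype.card_coe _).symm) hinj
  nlinarith

theorem cubes_of_windows {f : C(X, Fin M → ℝ)} {m : ℝ} (hw : CubeWindows h f m) (N₀ : ℕ) :
    ∃ N, N₀ ≤ N ∧ ∃ Q : Cube h f N, m * N ≤ Q.J.card := by
  obtain ⟨N, hN, J, hJ, σ, h1, h2⟩ := hw N₀
  exact ⟨N, hN, ⟨J, σ, fun y p => by rw [iter_natCast]; exact h1 y p,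
    fun p hp y y' => by rw [iter_natCast, iter_natCast]; exact h2 p hp y y'⟩, hJ⟩

theorem le_card_of_windows {f : C(X, Fin M → ℝ)} {m : ℝ} (hw : CubeWindows h f m) : m ≤ M := by
  obtain ⟨N, hN, Q, hJ⟩ := cubes_of_windows hw 1
  have h1 : Q.J.card ≤ N * M := (Finset.card_le_univ _).trans_eq (by simp)
  have h2 : (Q.J.card : ℝ) ≤ N * M := by exact_mod_cast h1
  have hNpos : (0 : ℝ) < N := by exact_mod_cast hN
  nlinarith

/-- Number of lines for a return time. -/
def numLines (M r : ℕ) : ℕ := (M * r + 1) / 2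

/-- The rank deficit for a return time. -/
noncomputable def deficit (μ : ℝ) (r : ℕ) : ℤ := ⌊μ * r / 2⌋ - 1

/-- The rank of the projection for a return time. -/
noncomputable def rankA (M : ℕ) (μ : ℝ) (r : ℕ) : ℕ := ((numLines M r : ℤ) - deficit μ r).toNat

theorem numLines_ge (M r : ℕ) : (M : ℝ) * r / 2 ≤ numLines M r := by
  have : M * r ≤ 2 * numLines M r := by unfold numLines; omega
  rw [div_le_iff₀ two_pos]
  exact_mod_cast this.trans_eq (mul_comm _ _)

theorem rankA_eq {μ : ℝ} (hμM : μ ≤ M) (r : ℕ) :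
    (rankA M μ r : ℝ) = (numLines M r : ℝ) - (deficit μ r : ℝ) := by
  have h1 : (deficit μ r : ℝ) ≤ numLines M r := by
    have h2 := numLines_ge M r
    have h3 : μ * r ≤ M * r := by gcongr
    have h4 := Int.floor_le (μ * r / 2)
    simp only [deficit, Int.cast_sub, Int.cast_one]
    linarith
  have h5 : deficit μ r ≤ (numLines M r : ℤ) := by exact_mod_cast h1
  unfold rankA
  rw [← Int.cast_natCast, Int.toNat_of_nonneg (by omega)]
  push_cast
  ring

theorem rankA_le {μ : ℝ} (hμ : 0 ≤ μ) (hμM : μ ≤ M) (r : ℕ) :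
    rankA M μ r ≤ numLines M r + 1 := by
  have h1 : (0 : ℤ) ≤ ⌊μ * r / 2⌋ := Int.floor_nonneg.2 (by positivity)
  unfold rankA deficit
  omega

theorem exists_banded_near {q : ℕ} {a b : Mat h q} (hle : CuntzLE a b) {ε : ℝ} (hε : 0 < ε) :
    ∃ n, q ≤ n ∧ ∃ (R₀ : ℕ) (y : Mat h n), (∀ i j, Banded h R₀ (CP.op (y i j))) ∧
      ‖star y * pad n b * y - pad n a‖ < ε := by
  obtain ⟨n, hn, x, hx⟩ := hle ε hε
  have hopen : IsOpen {y : Mat h n | ‖star y * pad n b * y - pad n a‖ < ε} :=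
    isOpen_lt (((continuous_star.mul continuous_const).mul continuous_id).sub continuous_const).norm
      continuous_const
  have h0 : Dense ((Set.univ : Set (Fin n)).pi fun _ : Fin n =>
      ((Set.univ : Set (Fin n)).pi fun _ : Fin n =>
        {z : CP h | ∃ R', Banded h R' (CP.op z)})) :=
    dense_pi _ fun _ _ => dense_pi _ fun _ _ => dense_banded h
  obtain ⟨y, hyB, hy⟩ := Dense.exists_mem_open (X := Mat h n) h0 hopen ⟨x, hx⟩
  choose Rij hRij using fun i j => hyB i trivial j trivial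
  exact ⟨n, hn, Finset.univ.sup (fun i => Finset.univ.sup (Rij i)), y, fun i j => (hRij i j).mono
    ((Finset.le_sup (f := Rij i) (Finset.mem_univ j)).trans
      (Finset.le_sup (f := fun i => Finset.univ.sup (Rij i)) (Finset.mem_univ i))), hy⟩

theorem count_ineq {C : Set X} {L R K N : ℕ} (H : Returns h C L R) (D : Data h M K R)
    (Q' : Cube h D.f N) (R₀ : ℕ) {μ m η : ℝ} (hμdef : μ = m - η) (hμ0 : 0 ≤ μ) (hμM : μ ≤ M)
    (hDd : D.d = numLines M) (hDq : D.q = rankA M μ)
    (hd : ∀ r ∈ Finset.Icc 1 R, D.d r ≤ K) (hq : ∀ r ∈ Finset.Icc 1 R, D.q r ≤ K * 2)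
    (hJ' : m * N ≤ Q'.J.card)
    (hWbound : (Q'.wild.card : ℝ) * ((R * M : ℕ) + K) * 4 ≤ η * N)
    (hNbound : 4 * (((2 * R₀ + R) * (2 * K) + R * M : ℕ) : ℝ) < η * N) :
    ∑ t ∈ H.starts Q'.base N, Q'.cost H D.d t
      < ∑ t ∈ Q'.sources H R₀, D.q (H.rt (iter h (t : ℕ) Q'.base)) := by
  classical
  set W := Q'.wild.card with hWdef
  set T := H.starts Q'.base N with hT
  set rt : ℕ → ℕ := fun t => H.rt (iter h (t : ℕ) Q'.base) with hrt
  have hrtmem : ∀ t ∈ T, rt t ∈ Finset.Icc 1 R := fun t ht => by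
    obtain ⟨a, b, -⟩ := H.rt_spec (H.mem_starts.1 ht).1
    exact Finset.mem_Icc.2 ⟨a, b⟩
  -- cost
  have hcost : ∑ t ∈ T, (Q'.cost H D.d t : ℝ) + ∑ t ∈ T, (Q'.lines H t : ℝ)
      ≤ ∑ t ∈ T, (D.d (rt t) : ℝ) + (W : ℝ) * K := by
    rw [← Finset.sum_add_distrib]
    calc ∑ t ∈ T, ((Q'.cost H D.d t : ℝ) + (Q'.lines H t : ℝ))
        ≤ ∑ t ∈ T, ((D.d (rt t) : ℝ) + if Q'.Good H t then (0 : ℝ) else (K : ℝ)) := by
          refine Finset.sum_le_sum fun t ht => ?_
          have hl : Q'.lines H t ≤ D.d (H.rt (iter h (t : ℕ) Q'.base)) := by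
            rw [hDd]; exact Q'.lines_le H t ht
          have hdk := hd _ (hrtmem t ht)
          unfold Cube.cost
          by_cases hg : Q'.Good H t
          · rw [if_pos hg, if_pos hg, add_zero, Nat.cast_sub hl, sub_add_cancel]
          · rw [if_neg hg, if_neg hg, show Q'.lines H t = 0 from if_neg hg]
            simp only [hrt] at hdk ⊢
            push_cast
            have : ((D.d (H.rt (iter h (t : ℕ) Q'.base)) : ℕ) : ℝ) ≤ K := by exact_mod_cast hdk
            linarith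
      _ ≤ _ := by
          rw [Finset.sum_add_distrib, Finset.sum_ite, Finset.sum_const_zero, zero_add,
            Finset.sum_const, nsmul_eq_mul]
          gcongr
          exact Q'.bad_card_le H
  have hfree : (Q'.J.card : ℝ) ≤ 2 * R * M + W * (R * M)
      + (2 * ∑ t ∈ T, (Q'.lines H t : ℝ) + 2 * T.card) := by
    have h1 := Q'.free_card_le H
    have h2 : (Q'.J.card : ℝ) ≤ ((2 * R * M + W * (R * M)
        + ∑ t ∈ T, (2 * Q'.lines H t + 2) : ℕ) : ℝ) := by exact_mod_cast h1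
    push_cast [Finset.sum_add_distrib, Finset.mul_sum] at h2 ⊢
    simp only [Finset.sum_const, nsmul_eq_mul] at h2
    linarith
  -- rank on all starts
  have hrank : ∑ t ∈ T, (D.d (rt t) : ℝ) - μ * N / 2 + T.card ≤ ∑ t ∈ T, (D.q (rt t) : ℝ) := by
    have h1 : ∑ t ∈ T, (rt t : ℝ) ≤ N := by exact_mod_cast H.sum_rt_le Q'.base N
    have h2 : ∑ t ∈ T, ((D.d (rt t) : ℝ) - (μ / 2 * rt t - 1)) ≤ ∑ t ∈ T, (D.q (rt t) : ℝ) := by
      refine Finset.sum_le_sum fun t _ => ?_
      rw [hDq, rankA_eq hμM, hDd]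
      have := Int.floor_le (μ * (rt t) / 2)
      simp only [deficit, Int.cast_sub, Int.cast_one]
      linarith
    simp only [Finset.sum_sub_distrib, ← Finset.mul_sum, Finset.sum_const, nsmul_eq_mul,
      mul_one] at h2
    nlinarith
  -- sources
  have hsrc : ∑ t ∈ T, (D.q (rt t) : ℝ)
      ≤ ∑ t ∈ Q'.sources H R₀, (D.q (rt t) : ℝ) + (2 * R₀ + R : ℕ) * (2 * K : ℕ) := by
    rw [← Finset.sum_filter_add_sum_filter_not T (fun t => R₀ ≤ t ∧ t + R₀ + R ≤ N)]
    refine add_le_add (le_of_eq ?_) ?_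
    · rfl
    · refine (Finset.sum_le_card_nsmul _ _ ((2 * K : ℕ) : ℝ) fun t ht => ?_).trans ?_
      · have := hq _ (hrtmem t (Finset.mem_filter.1 ht).1)
        exact_mod_cast this.trans_eq (mul_comm _ _)
      · rw [nsmul_eq_mul]
        gcongr
        refine (Finset.card_le_card (t := Finset.range R₀ ∪ Finset.Ico (N + 1 - (R₀ + R)) N)
          fun t ht => ?_).trans ((Finset.card_union_le _ _).trans (by simp; omega))
        simp only [Finset.mem_filter, hT, H.mem_starts] at ht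
        simp only [Finset.mem_union, Finset.mem_range, Finset.mem_Ico]
        have := (H.rt_spec ht.1.1).1
        omega
  -- put together
  have hfinal : ∑ t ∈ T, (Q'.cost H D.d t : ℝ) < ∑ t ∈ Q'.sources H R₀, (D.q (rt t) : ℝ) := by
    have hμN : μ * N = m * N - η * N := by rw [hμdef]; ring
    push_cast at hsrc hNbound hWbound ⊢
    have e1 : (W : ℝ) * ((R : ℝ) * M + K) * 4 = 4 * (W * (R * M)) + 4 * (W * K) := by ring
    have e2 : 0 ≤ (W : ℝ) * (R * M) := by positivity
    have e3 : 0 ≤ (W : ℝ) * K := by positivity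
    have e4 : 0 ≤ (R : ℝ) * M := by positivity
    have e5 : 0 ≤ (2 * (R₀ : ℝ) + R) * (2 * K) := by positivity
    nlinarith
  exact_mod_cast hfinal

section

variable {f : C(X, Fin M → ℝ)} {m η : ℝ} {C : Set X} {L R : ℕ}

/-- The witnesses defeat every bound below `(m - η)/2 - 2/L`. -/
theorem bound_of_returns (hw : CubeWindows h f m) (hη : 0 < η) (hηm : η ≤ m)
    (H : Returns h C L R) (hL : 0 < L) {r : ℝ} (hr : IsComparisonBound h r) :
    (m - η) / 2 - 2 * (L : ℝ)⁻¹ ≤ r := by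
  classical
  by_contra hlt
  rw [not_le] at hlt
  set μ := m - η with hμdef
  have hμ : 0 ≤ μ := by linarith
  have hμM : μ ≤ M := le_trans (by linarith) (le_card_of_windows hw)
  set K : ℕ := numLines M R + 2 with hK
  -- the number of shifts
  set S : ℕ := ⌈4 * (M : ℝ) * ((R * M : ℕ) + K) / η⌉₊ + 1 with hS
  have hSpos : 0 < S := Nat.succ_pos _
  -- choose a shift that works for arbitrarily large windows
  have hfreq : ∃ s : Fin S, ∀ N₀, ∃ N, N₀ ≤ N ∧ ∃ Q : Cube h f N, m * N ≤ Q.J.card ∧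
      (Q.ramped s).wild.card * S ≤ N * M := by
    by_contra hc
    push Not at hc
    choose N₀ hN₀ using hc
    obtain ⟨N, hN, Q, hJ⟩ := cubes_of_windows hw (Finset.univ.sup N₀)
    obtain ⟨s, hs⟩ := Q.exists_ramp hSpos
    exact absurd hs (not_le.2 (hN₀ s N ((Finset.le_sup (Finset.mem_univ s)).trans hN) Q hJ))
  obtain ⟨s, hs⟩ := hfreq
  -- the witnesses
  obtain ⟨v, hvc, hvle, hv⟩ := exists_field (R * M) K
  let D : Data h M K R :=
    ⟨rampMap f S s, v, numLines M, rankA M μ, hvc, hvle⟩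
  have hdK : ∀ r ∈ Finset.Icc 1 R, numLines M r + 2 ≤ K := by
    intro r hr
    rw [Finset.mem_Icc] at hr
    have : M * r ≤ M * R := Nat.mul_le_mul_left _ hr.2
    simp only [hK, numLines]
    omega
  have hd : ∀ r ∈ Finset.Icc 1 R, D.d r ≤ K := fun r hr => (hdK r hr).trans' (by show numLines M r ≤ _; omega)
  have hq : ∀ r ∈ Finset.Icc 1 R, D.q r ≤ K * 2 := fun r hr => by
    show rankA M μ r ≤ K * 2
    have := rankA_le hμ hμM r
    have := hdK r hr
    omega
  have hlt' : ∀ τ : TracialState h, dtau τ (D.aMat H) + r < dtau τ (D.bMat H) := by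
    intro τ
    have hb := trace_le_dtau τ (D.bMat_nonneg H) (D.bMat_le_one H)
    rw [D.trace_bMat H τ hd] at hb
    rw [D.dtau_aMat H τ, D.trace_aMat H τ hq]
    refine lt_of_lt_of_le ?_ hb
    have hkey : μ / 2 - 2 * (L : ℝ)⁻¹
        ≤ ∑ k ∈ Finset.Icc 1 R, ((D.d k : ℝ) - D.q k) * H.mass τ k := by
      calc μ / 2 - 2 * (L : ℝ)⁻¹
          ≤ μ / 2 * ∑ k ∈ Finset.Icc 1 R, (k : ℝ) * H.mass τ k
            - 2 * ∑ k ∈ Finset.Icc 1 R, H.mass τ k := by
            rw [H.mass_sum τ, mul_one]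
            linarith [H.mass_sum_le τ hL]
        _ = ∑ k ∈ Finset.Icc 1 R, (μ * k / 2 - 2) * H.mass τ k := by
            rw [Finset.mul_sum, Finset.mul_sum, ← Finset.sum_sub_distrib]
            exact Finset.sum_congr rfl fun k _ => by ring
        _ ≤ _ := by
            refine Finset.sum_le_sum fun k _ => mul_le_mul_of_nonneg_right ?_ (H.mass_nonneg τ k)
            show _ ≤ (numLines M k : ℝ) - (rankA M μ k : ℝ)
            rw [rankA_eq hμM, sub_sub_cancel]
            have := Int.lt_floor_add_one (μ * k / 2)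
            simp only [deficit, Int.cast_sub, Int.cast_one]
            linarith
    simp only [sub_mul, Finset.sum_sub_distrib] at hkey
    linarith
  have hle := hr.2 (K * 2) (D.aMat H) (D.bMat H) (D.aMat_nonneg H) (D.bMat_nonneg H) hlt'
  -- a banded near solution
  obtain ⟨n, hn, R₀, y, hyR, hy⟩ := exists_banded_near hle
    (ε := 1 / (4 * ((K * 2 : ℕ) + 1) ^ 2)) (by positivity)
  -- a large window
  set Cst : ℕ := (2 * R₀ + R) * (2 * K) + R * M with hCst
  obtain ⟨N, hN, Q, hJ, hW⟩ := hs (⌈4 * (Cst : ℝ) / η⌉₊ + 1)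
  set Q' := Q.ramped s with hQ'
  set W := Q'.wild.card with hWdef
  have hJ' : m * N ≤ Q'.J.card := hJ
  refine Data.core H D hv hd hq hn Q' (fun t ht => Q'.lines_le H t ht) ?_ y hyR hy
  have hWbound : (W : ℝ) * ((R * M : ℕ) + K) * 4 ≤ η * N := by
    have h1 : (W : ℝ) * S ≤ N * M := by exact_mod_cast hW
    have h2 : 4 * (M : ℝ) * ((R * M : ℕ) + K) ≤ η * S := by
      have h3 := Nat.le_ceil (4 * (M : ℝ) * ((R * M : ℕ) + K) / η)
      rw [div_le_iff₀ hη] at h3
      simp only [hS, Nat.cast_add, Nat.cast_one]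
      nlinarith
    have hS0 : (0 : ℝ) < S := by exact_mod_cast hSpos
    refine le_of_mul_le_mul_right ?_ hS0
    calc (W : ℝ) * ((R * M : ℕ) + K) * 4 * S = (W * S) * (4 * ((R * M : ℕ) + K)) := by ring
      _ ≤ (N * M) * (4 * ((R * M : ℕ) + K)) := by gcongr
      _ = N * (4 * (M : ℝ) * ((R * M : ℕ) + K)) := by ring
      _ ≤ N * (η * S) := by gcongr
      _ = η * N * S := by ring
  have hNbound : 4 * (Cst : ℝ) < η * N := by
    have h3 := Nat.le_ceil (4 * (Cst : ℝ) / η)
    rw [div_le_iff₀ hη] at h3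
    have h4 : ((⌈4 * (Cst : ℝ) / η⌉₊ + 1 : ℕ) : ℝ) ≤ N := by exact_mod_cast hN
    push_cast at h4
    nlinarith
  exact count_ineq H D Q' R₀ hμdef hμ hμM rfl rfl hd hq hJ' hWbound hNbound
end

/-- The two lower bounds. -/
theorem lower_bounds {f : C(X, Fin M → ℝ)} {m : ℝ} (hw : CubeWindows h f m) :
    (∀ r, IsComparisonBound h r → m / 2 - 2 ≤ r) ∧
      (HasLongReturns h → ∀ r, IsComparisonBound h r → m / 2 ≤ r) := by
  have key : ∀ {L R : ℕ} {C : Set X}, Returns h C L R → 0 < L → ∀ r, IsComparisonBound h r →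
      m / 2 - 2 * (L : ℝ)⁻¹ ≤ r := by
    intro L R C H hL r hr
    refine le_of_forall_pos_le_add fun ε hε => ?_
    have hLpos : (0 : ℝ) < (L : ℝ)⁻¹ := by positivity
    by_cases hεm : 2 * ε ≤ m
    · have := bound_of_returns hw (by linarith) hεm H hL hr
      linarith
    · linarith [hr.1]
  refine ⟨fun r hr => ?_, fun hlong r hr => le_of_forall_pos_le_add fun ε hε => ?_⟩
  · have H : Returns h (Set.univ : Set X) 1 1 :=
      ⟨isClopen_univ, fun x _ k hk hk1 => absurd hk1 (by omega), fun x => ⟨0, one_pos, trivial⟩⟩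
    simpa using key H one_pos r hr
  · obtain ⟨L, hL⟩ := exists_nat_gt (2 / ε)
    have hL0 : 0 < L := by
      have : (0 : ℝ) < L := lt_trans (by positivity) hL
      exact_mod_cast this
    obtain ⟨C, hC, hgap, R, hcov⟩ := hlong L
    have := key ⟨hC, hgap, hcov⟩ hL0 r hr
    have h2 : 2 * (L : ℝ)⁻¹ ≤ ε := by
      rw [← div_eq_mul_inv, div_le_iff₀ (by exact_mod_cast hL0)]
      rw [div_lt_iff₀ hε] at hL
      nlinarith
    linarith

end Vale.Agent.P093
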