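import Vale.Agent.P093.Sparse
import Vale.Agent.P093.Frequency

/-!
# Frequency witnesses in minimal systems, and the bound for sparse free coordinates there
-/

namespace Vale.Agent.P093

variable {X : Type} [TopologicalSpace X] [CompactSpace X] [T2Space X]
  [TopologicalSpace.MetrizableSpace X] [Infinite X] {h : X ≃ₜ X}

/-- In a minimal system every frequency has a witness. -/
theorem exists_frequencyWitness (hmin : ∀ x, Dense (Set.range fun n : ℤ => (h.toEquiv ^ n) x))
    {δ : ℝ} (hδ : 0 < δ) (s : ℝ) (h0 : 0 ≤ s) (h1 : s ≤ 1) :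
    ∃ g, FrequencyWitness h s δ g := by
  obtain ⟨g, hg0, hg1, N₀, hN₀⟩ := exists_fun_frequency (h := h) hmin h0 h1 hδ
  have hN : 0 < N₀ + 1 := Nat.succ_pos _
  have hlo : ∀ x, (s - δ) * (N₀ + 1 : ℕ) ≤
      (((Finset.range (N₀ + 1)).filter fun i : ℕ => 0 < g ((⇑h)^[i] x)).card : ℝ) := fun x => by
    have := (abs_le.1 (hN₀ x (N₀ + 1) (Nat.le_succ _))).1
    linarith
  obtain ⟨η, hη, N₁, hN₁⟩ := exists_threshold (h := h) g hδ hN hlo
  refine ⟨g, hg0, hg1, fun τ q n hq => ?_, η, hη, N₁, fun x N hxN => ?_⟩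
  · have hmem := fun (p : Fin n) x => diagEntries_mem (q := q) hg0 hg1 p x
    refine (dtau_diagMat_le τ (diagEntries g q n) (fun p x => (hmem p x).1) (fun p x => (hmem p x).2)
      (fun p : Fin n => if (p : ℕ) < q then (1 : ℝ) else if (p : ℕ) = q then s + δ else 0) hN
      fun p x => ?_).trans_eq ((sum_diag_frequency hq _).trans (by ring))
    unfold diagEntries
    split_ifs
    · simp
    · have := (abs_le.1 (hN₀ x (N₀ + 1) (Nat.le_succ _))).2
      linarith
    · simp
  · have := hN₁ x N hxN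
    linarith [show (s - 2 * δ) * N = (s - δ - δ) * N by ring]

/-- Sparse free coordinates of density `μ`, with all gaps and all errors, force `μ/2`. -/
theorem bound_of_sparse_minimal
    (hmin : ∀ x, Dense (Set.range fun n : ℤ => (h.toEquiv ^ n) x)) {μ : ℝ}
    (hseq : ∀ (L : ℕ) (ε : ℝ), 0 < L → 0 < ε → ∃ (M : ℕ) (F : C(X, Fin M → ℝ)), ∀ N₀,
      ∃ N, N₀ ≤ N ∧ ∃ Q : Cube h F N, (μ - ε) * N ≤ Q.J.card ∧
        ((Q.J.image Prod.fst).card : ℝ) * L ≤ N + L)
    {r : ℝ} (hr : IsComparisonBound h r) : μ / 2 ≤ r := by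
  refine le_of_forall_pos_le_add fun ε hε => ?_
  obtain ⟨L, hL⟩ := exists_nat_gt (4 / ε)
  have hLpos : (0 : ℝ) < L := lt_trans (by positivity) hL
  obtain ⟨M, F, hF⟩ := hseq L (ε / 4) (by exact_mod_cast hLpos) (by positivity)
  have := bound_of_sparse (δ := ε / 16) (by exact_mod_cast hLpos) (by positivity) hF
    (exists_frequencyWitness hmin (by positivity)) hr
  have h2 : (L : ℝ)⁻¹ < ε / 4 := by
    rw [div_lt_iff₀ hε] at hL
    rw [inv_eq_one_div, div_lt_iff₀ hLpos]
    linarith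
  linarith

end Vale.Agent.P093
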