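import Vale.Agent.P093.Window

/-!
# Recoding the cube coordinates onto sparse starting positions

A marker value in the site's own coordinates switches on the output of the next `L` sites. Along
a suitable subcube the free coordinates then sit on at most `N / L + 1` sites.
-/

namespace Vale.Agent.P093

open Finset

/-- Greedy separated starts covering `P`. -/
theorem exists_separated {L : ℕ} (hL : 0 < L) : ∀ P : Finset ℕ, ∃ T : Finset ℕ, T ⊆ P ∧
    (∀ t ∈ T, ∀ t' ∈ T, t < t' → t + L ≤ t') ∧ ∀ p ∈ P, ∃ t ∈ T, t ≤ p ∧ p < t + L := by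
  intro P
  induction P using Finset.strongInductionOn with
  | _ P ih =>
    rcases P.eq_empty_or_nonempty with rfl | hne
    · exact ⟨∅, by simp⟩
    have hlt : P.filter (fun p => P.min' hne + L ≤ p) ⊂ P :=
      filter_ssubset.2 ⟨_, min'_mem _ hne, by omega⟩
    obtain ⟨T, hT, hsep, hcov⟩ := ih _ hlt
    refine ⟨insert (P.min' hne) T, insert_subset (min'_mem _ hne) (hT.trans (filter_subset _ _)),
      ?_, fun p hp => ?_⟩
    · intro t ht t' ht' htt
      rcases mem_insert.1 ht with rfl | ht <;> rcases mem_insert.1 ht' with rfl | ht'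
      · omega
      · exact (mem_filter.1 (hT ht')).2
      · have := (mem_filter.1 (hT ht)).2; omega
      · exact hsep t ht t' ht' htt
    · by_cases h : P.min' hne + L ≤ p
      · obtain ⟨t, ht, h'⟩ := hcov p (mem_filter.2 ⟨hp, h⟩)
        exact ⟨t, mem_insert_of_mem ht, h'⟩
      · exact ⟨_, mem_insert_self _ _, min'_le _ _ hp, by omega⟩

theorem card_separated_mul {L n : ℕ} (T : Finset ℕ)
    (hsep : ∀ t ∈ T, ∀ t' ∈ T, t < t' → t + L ≤ t') (hT : ∀ t ∈ T, t + L ≤ n) :
    T.card * L ≤ n := by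
  have := card_le_card_of_injOn (s := T ×ˢ range L) (t := range n) (fun z => z.1 + z.2)
    (fun z hz => by
      simp only [coe_product, Set.mem_prod, mem_coe, mem_range] at hz ⊢
      have := hT z.1 hz.1
      omega)
    (fun z hz w hw e => by
      simp only [coe_product, Set.mem_prod, mem_coe, mem_range] at hz hw e
      rcases lt_trichotomy z.1 w.1 with h | h | h
      · have := hsep _ hz.1 _ hw.1 h; omega
      · exact Prod.ext h (by omega)
      · have := hsep _ hw.1 _ hz.1 h; omega)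
  simpa using this

/-- Clamping to the unit interval. -/
noncomputable def clamp (v : ℝ) : ℝ := max 0 (min 1 v)

theorem clamp_of_one_le {v : ℝ} (h : 1 ≤ v) : clamp v = 1 := by
  simp [clamp, min_eq_left h]

theorem clamp_unit (y : unitInterval) : clamp y = y := by
  simp [clamp, min_eq_right y.2.2, max_eq_right y.2.1]

/-- The centre of a marker interval. -/
noncomputable def centre (S s : ℕ) : ℝ := 1 / 2 + ((s : ℝ) + 1) / (2 * ((S : ℝ) + 2))

/-- The bump of a marker interval. -/
noncomputable def bump (S s : ℕ) (v : ℝ) : ℝ := max 0 (1 - |v - centre S s| * (8 * ((S : ℝ) + 2)))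

theorem bump_nonneg (S s : ℕ) (v : ℝ) : 0 ≤ bump S s v := le_max_left _ _

theorem bump_centre (S s : ℕ) : bump S s (centre S s) = 1 := by simp [bump]

theorem centre_mem {S : ℕ} (s : Fin S) : centre S s ∈ unitInterval := by
  have h1 : ((s : ℕ) : ℝ) + 1 ≤ S := by exact_mod_cast s.isLt
  have h2 : ((s : ℕ) + 1 : ℝ) / (2 * ((S : ℝ) + 2)) ≤ 1 / 2 := by
    rw [div_le_div_iff₀ (by positivity) (by norm_num)]; linarith
  constructor
  · unfold centre; positivity
  · unfold centre; linarith

theorem bump_small {S : ℕ} (s : ℕ) {v : ℝ} (h : v ≤ 1 / 4) : bump S s v = 0 := by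
  unfold bump
  refine max_eq_left ?_
  have h1 : (1 : ℝ) / 4 ≤ |v - centre S s| := by
    rw [abs_sub_comm]
    refine le_trans ?_ (le_abs_self _)
    have : (0 : ℝ) ≤ ((s : ℝ) + 1) / (2 * ((S : ℝ) + 2)) := by positivity
    unfold centre
    linarith
  nlinarith [mul_le_mul_of_nonneg_right h1 (show (0 : ℝ) ≤ 8 * ((S : ℝ) + 2) by positivity),
    show (0 : ℝ) ≤ (S : ℝ) from Nat.cast_nonneg S]

theorem bump_disjoint {S s s' : ℕ} {v : ℝ} (h : bump S s v ≠ 0) (h' : bump S s' v ≠ 0) : s = s' := by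
  have key : ∀ t, bump S t v ≠ 0 → |v - centre S t| * (8 * ((S : ℝ) + 2)) < 1 := fun t ht => by
    by_contra hc
    exact ht (max_eq_left (by linarith))
  have h1 := key s h
  have h2 := key s' h'
  by_contra hne
  have h3 : (1 : ℝ) ≤ |(s : ℝ) - s'| := by
    rcases lt_or_gt_of_ne hne with hlt | hlt
    · have : (s : ℝ) + 1 ≤ s' := by exact_mod_cast hlt
      rw [abs_sub_comm]; exact le_trans (by linarith) (le_abs_self _)
    · have : (s' : ℝ) + 1 ≤ s := by exact_mod_cast hlt
      exact le_trans (by linarith) (le_abs_self _)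
  have e : |centre S s - centre S s'| * (8 * ((S : ℝ) + 2)) = 4 * |(s : ℝ) - s'| := by
    have hd : centre S s - centre S s' = ((s : ℝ) - s') / (2 * ((S : ℝ) + 2)) := by
      unfold centre; ring
    rw [hd, abs_div, abs_of_pos (show (0 : ℝ) < 2 * ((S : ℝ) + 2) by positivity)]
    field_simp
    ring
  have htri : |centre S s - centre S s'| ≤ |v - centre S s| + |v - centre S s'| := by
    have := abs_sub (v - centre S s') (v - centre S s)
    rw [show (v - centre S s') - (v - centre S s) = centre S s - centre S s' by ring] at this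
    linarith
  nlinarith [mul_le_mul_of_nonneg_right htri (show (0 : ℝ) ≤ 8 * ((S : ℝ) + 2) by positivity)]

variable {X : Type} [TopologicalSpace X] [CompactSpace X] {h : X ≃ₜ X} {M : ℕ}

/-- The recoded map. -/
noncomputable def recodeMap (h : X ≃ₜ X) (f : C(X, Fin M → ℝ)) (L S s : ℕ) :
    C(X, Fin (L * M) → ℝ) :=
  ⟨fun x k => clamp (∑ c, bump S s (f x c))
      * clamp (4 * f (iter h (((finProdFinEquiv.symm k).1 : ℕ) : ℤ) x) (finProdFinEquiv.symm k).2), by
    refine continuous_pi fun k => ?_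
    unfold clamp bump
    have h1 : ∀ c, Continuous fun x => f x c := fun c =>
      (continuous_apply c).comp f.continuous
    have h2 := (h1 (finProdFinEquiv.symm k).2).comp
      (iter h (((finProdFinEquiv.symm k).1 : ℕ) : ℤ)).continuous
    fun_prop⟩

namespace Cube

variable {f : C(X, Fin M → ℝ)} {N : ℕ} (Q : Cube h f N)

/-- The fixed coordinates with a value in the marker interval `s`. -/
noncomputable def badMark (S s : ℕ) : Finset (Fin N × Fin M) :=
  univ.filter fun p => p ∉ Q.J ∧ bump S s (Q.value p.1 p.2) ≠ 0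

omit [CompactSpace X] in
theorem exists_badMark_le (S : ℕ) (hS : 0 < S) : ∃ s : Fin S, (Q.badMark S s).card * S ≤ N * M := by
  classical
  have hsum : ∑ s : Fin S, (Q.badMark S s).card ≤ N * M := by
    rw [← card_biUnion]
    · exact (card_le_univ _).trans (by simp)
    · intro s _ s' _ hne
      exact disjoint_left.2 fun p hp hp' =>
        hne (Fin.ext (bump_disjoint (mem_filter.1 hp).2.2 (mem_filter.1 hp').2.2))
  obtain ⟨s, -, hs⟩ := exists_le_of_sum_le
    (s := (univ : Finset (Fin S))) ⟨⟨0, hS⟩, mem_univ _⟩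
    (f := fun s : Fin S => (Q.badMark S s).card * S) (g := fun _ => N * M) (by
      rw [← Finset.sum_mul, sum_const, card_univ, Fintype.card_fin, smul_eq_mul, mul_comm S]
      exact Nat.mul_le_mul_right _ hsum)
  exact ⟨s, hs⟩

open Classical in
/-- The recoded subcube. -/
theorem exists_recoded {L : ℕ} (hL : 0 < L) {n S : ℕ} (hn : n + L ≤ N) (hn' : N ≤ n + L)
    (s : Fin S) :
    ∃ Q' : Cube h (recodeMap h f L S s) n,
      Q.J.card ≤ Q'.J.card + (N / L) + L * M
        + L * M * (Q.badMark S s).card ∧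
      (Q'.J.image Prod.fst).card * L ≤ N := by
  let P : Finset ℕ := (range n).filter fun t => ∃ c, Q.Free t c
  obtain ⟨T, hTP, hsep, hcov⟩ := exists_separated hL P
  have hTn : ∀ t ∈ T, t < n := fun t ht => mem_range.1 (mem_filter.1 (hTP ht)).1
  have hTc : ∀ t ∈ T, ∃ c, Q.Free t c := fun t ht => (mem_filter.1 (hTP ht)).2
  have hTcard : T.card * L ≤ N := card_separated_mul T hsep fun t ht => by have := hTn t ht; omega
  let B : Finset (Fin N) := ((Q.badMark S s).image Prod.fst).filter fun t => (t : ℕ) ∉ T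
  -- markers
  let mark : Fin N × Fin M → Prop := fun p => ∃ ht : (p.1 : ℕ) ∈ T, p.2 = (hTc _ ht).choose
  -- coordinates set to zero
  let zero : Fin N × Fin M → Prop := fun p =>
    n ≤ (p.1 : ℕ) ∨ ∃ t ∈ B, (t : ℕ) ≤ p.1 ∧ (p.1 : ℕ) < t + L
  let K : Finset (Fin N × Fin M) := Q.J.filter fun p => ¬ mark p ∧ ¬ zero p
  let J' : Finset (Fin n × Fin (L * M)) := univ.filter fun q =>
    (q.1 : ℕ) ∈ T ∧ ∃ hp : (q.1 : ℕ) + (finProdFinEquiv.symm q.2).1 < N,
      (⟨_, hp⟩, (finProdFinEquiv.symm q.2).2) ∈ K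
  let IsAt : Fin N × Fin M → ↥J' → Prop := fun p q =>
    (q.1.1 : ℕ) + (finProdFinEquiv.symm q.1.2).1 = p.1 ∧ (finProdFinEquiv.symm q.1.2).2 = p.2
  have huniq : ∀ p q q', IsAt p q → IsAt p q' → q = q' := by
    rintro p ⟨⟨t, k⟩, hq⟩ ⟨⟨t', k'⟩, hq'⟩ ⟨e1, e2⟩ ⟨e1', e2'⟩
    have ht := (mem_filter.1 hq).2.1
    have ht' := (mem_filter.1 hq').2.1
    simp only at e1 e2 e1' e2' ht ht'
    have a1 := (finProdFinEquiv.symm k).1.2
    have a2 := (finProdFinEquiv.symm k').1.2
    have htt : t = t' := by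
      rcases lt_trichotomy (t : ℕ) t' with hlt | heq | hlt
      · have := hsep _ ht _ ht' hlt; omega
      · exact Fin.ext heq
      · have := hsep _ ht' _ ht hlt; omega
    subst htt
    have hk : k = k' := finProdFinEquiv.symm.injective
      (Prod.ext (Fin.ext (by omega)) (e2.trans e2'.symm))
    subst hk
    rfl
  let y : (↥J' → unitInterval) → (↥Q.J → unitInterval) := fun z p =>
    if mark p.1 then ⟨centre S s, centre_mem s⟩
    else if hq : ∃ q, IsAt p.1 q then
      ⟨(z hq.choose : ℝ) / 4, ⟨by linarith [(z hq.choose).2.1], by linarith [(z hq.choose).2.2]⟩⟩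
    else 0
  have hy : Continuous y := by
    refine continuous_pi fun p => ?_
    simp only [y]
    by_cases hm : mark p.1
    · simp only [if_pos hm]; exact continuous_const
    · simp only [if_neg hm]
      split
      · next hq =>
        exact ((continuous_subtype_val.comp (continuous_apply hq.choose)).div_const 4).subtype_mk _
      · exact continuous_const
  -- coordinates whose value does not depend on the parameters
  have hconst : ∀ (p : Fin N × Fin M), (p ∈ Q.J → p ∉ K) → ∀ z z',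
      f (iter h ((p.1 : ℕ) : ℤ) (Q.lift (y z))) p.2 = f (iter h ((p.1 : ℕ) : ℤ) (Q.lift (y z'))) p.2 := by
    intro p hp z z'
    by_cases hJ : p ∈ Q.J
    · rw [Q.free_eq (y z) ⟨p, hJ⟩, Q.free_eq (y z') ⟨p, hJ⟩]
      simp only [y]
      by_cases hm : mark p
      · simp [hm]
      · simp only [if_neg hm]
        rw [dif_neg ?_, dif_neg ?_] <;>
        · rintro ⟨⟨⟨t, k⟩, hq⟩, e1, e2⟩
          obtain ⟨-, -, hpN, hmem⟩ := mem_filter.1 hq
          have e : p = (⟨_, hpN⟩, (finProdFinEquiv.symm k).2) := Prod.ext (Fin.ext e1.symm) e2.symm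
          exact hp hJ (e ▸ hmem)
    · exact Q.const_eq p hJ _ _
  refine ⟨{ J := J'
            lift := Q.lift.comp ⟨y, hy⟩
            free_eq := ?_
            const_eq := ?_ }, ?_, ?_⟩
  · rintro z ⟨⟨t, k⟩, hq⟩
    obtain ⟨-, htT, hpN, hK⟩ := mem_filter.1 hq
    simp only at htT hpN hK ⊢
    obtain ⟨hcJ, hcm, hcz⟩ := mem_filter.1 hK
    obtain ⟨hc0, hcJ0⟩ := (hTc _ htT).choose_spec
    set c₀ := (hTc _ htT).choose with hc₀
    show clamp (∑ c, bump S s (f (iter h ((t : ℕ) : ℤ) (Q.lift (y z))) c)) *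
      clamp (4 * f (iter h (((finProdFinEquiv.symm k).1 : ℕ) : ℤ) (iter h ((t : ℕ) : ℤ) (Q.lift (y z))))
        (finProdFinEquiv.symm k).2) = _
    have h1 : 1 ≤ ∑ c, bump S s (f (iter h ((t : ℕ) : ℤ) (Q.lift (y z))) c) := by
      refine le_trans (le_of_eq ?_) (single_le_sum (fun c _ => bump_nonneg S s _) (mem_univ c₀))
      have := Q.free_eq (y z) ⟨(⟨t, hc0⟩, c₀), hcJ0⟩
      simp only at this
      rw [this]
      simp only [y]
      rw [if_pos ⟨htT, hc₀⟩]
      exact (bump_centre S s).symm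
    rw [clamp_of_one_le h1, one_mul, ← iter_add, add_comm, show ((t : ℕ) : ℤ)
      + (((finProdFinEquiv.symm k).1 : ℕ) : ℤ) = (((t : ℕ) + (finProdFinEquiv.symm k).1 : ℕ) : ℤ) by
        push_cast; rfl]
    have := Q.free_eq (y z) ⟨(⟨_, hpN⟩, (finProdFinEquiv.symm k).2), hcJ⟩
    simp only at this
    rw [this]
    simp only [y]
    have hex : ∃ q, IsAt (⟨_, hpN⟩, (finProdFinEquiv.symm k).2) q := ⟨⟨(t, k), hq⟩, rfl, rfl⟩
    rw [if_neg hcm, dif_pos hex,
      huniq _ hex.choose ⟨(t, k), hq⟩ hex.choose_spec ⟨rfl, rfl⟩]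
    simp only
    rw [mul_div_cancel₀ _ (by norm_num)]
    exact clamp_unit _
  · rintro ⟨t, k⟩ hq z z'
    show clamp (∑ c, bump S s (f (iter h ((t : ℕ) : ℤ) (Q.lift (y z))) c)) *
        clamp (4 * f (iter h (((finProdFinEquiv.symm k).1 : ℕ) : ℤ) (iter h ((t : ℕ) : ℤ) (Q.lift (y z))))
          (finProdFinEquiv.symm k).2) =
      clamp (∑ c, bump S s (f (iter h ((t : ℕ) : ℤ) (Q.lift (y z'))) c)) *
        clamp (4 * f (iter h (((finProdFinEquiv.symm k).1 : ℕ) : ℤ) (iter h ((t : ℕ) : ℤ) (Q.lift (y z'))))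
          (finProdFinEquiv.symm k).2)
    rw [← iter_add, ← iter_add, add_comm, show ((t : ℕ) : ℤ)
      + (((finProdFinEquiv.symm k).1 : ℕ) : ℤ) = (((t : ℕ) + (finProdFinEquiv.symm k).1 : ℕ) : ℤ) by
        push_cast; rfl]
    have hlt : (t : ℕ) < N := by have := t.2; omega
    have hi := (finProdFinEquiv.symm k).1.2
    have hpN : (t : ℕ) + (finProdFinEquiv.symm k).1 < N := by have := t.2; omega
    have hdata := hconst (⟨_, hpN⟩, (finProdFinEquiv.symm k).2)
    simp only at hdata
    by_cases hT : (t : ℕ) ∈ T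
    · have hone : ∀ w, 1 ≤ ∑ c, bump S s (f (iter h ((t : ℕ) : ℤ) (Q.lift (y w))) c) := by
        intro w
        obtain ⟨hc0, hcJ0⟩ := (hTc _ hT).choose_spec
        refine le_trans (le_of_eq ?_) (single_le_sum (fun c _ => bump_nonneg S s _)
          (mem_univ (hTc _ hT).choose))
        have := Q.free_eq (y w) ⟨(⟨t, hc0⟩, (hTc _ hT).choose), hcJ0⟩
        simp only at this
        rw [this]
        simp only [y]
        rw [if_pos ⟨hT, rfl⟩]
        exact (bump_centre S s).symm
      rw [clamp_of_one_le (hone z), clamp_of_one_le (hone z'),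
        hdata (fun _ hK => hq (mem_filter.2 ⟨mem_univ _, hT, hpN, hK⟩)) z z']
    · have hfree : ∀ c, ((⟨t, hlt⟩ : Fin N), c) ∈ Q.J → ∀ w,
          bump S s (f (iter h ((t : ℕ) : ℤ) (Q.lift (y w))) c) = 0 := by
        intro c hJ w
        have := Q.free_eq (y w) ⟨(⟨t, hlt⟩, c), hJ⟩
        simp only at this
        rw [this]
        apply bump_small
        simp only [y]
        rw [if_neg (fun hm => hT hm.1)]
        split
        · next hq => simp only; linarith [(w hq.choose).2.2]
        · simp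
      have hsum : ∀ w, ∑ c, bump S s (f (iter h ((t : ℕ) : ℤ) (Q.lift (y w))) c) =
          ∑ c, if ((⟨t, hlt⟩ : Fin N), c) ∈ Q.J then 0 else bump S s (Q.value t c) := by
        intro w
        refine sum_congr rfl fun c _ => ?_
        split_ifs with hJ
        · exact hfree c hJ w
        · exact congrArg (bump S s) (Q.const_eq (⟨t, hlt⟩, c) hJ (y w) _)
      rw [hsum z, hsum z']
      by_cases hB : (⟨t, hlt⟩ : Fin N) ∈ B
      · rw [hdata (fun _ hK => (mem_filter.1 hK).2.2
          (Or.inr ⟨_, hB, Nat.le_add_right _ _, show (t : ℕ) + _ < (t : ℕ) + L by omega⟩)) z z']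
      · have h0 : (∑ c, if ((⟨t, hlt⟩ : Fin N), c) ∈ Q.J then 0 else bump S s (Q.value t c)) = 0 := by
          refine sum_eq_zero fun c _ => ?_
          split_ifs with hJ
          · rfl
          · by_contra hne
            exact hB (mem_filter.2 ⟨mem_image.2 ⟨(⟨t, hlt⟩, c),
              mem_filter.2 ⟨mem_univ _, hJ, hne⟩, rfl⟩, hT⟩)
        rw [h0]
        simp [clamp]
  · -- counting
    show Q.J.card ≤ J'.card + N / L + L * M + L * M * (Q.badMark S s).card
    have hKJ : K.card ≤ J'.card := by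
      have hex : ∀ p ∈ K, ∃ q : ↥J', IsAt p q := by
        intro p hp
        obtain ⟨hJ, -, hz⟩ := mem_filter.1 hp
        simp only [zero, not_or, not_le] at hz
        obtain ⟨t, ht, h1, h2⟩ := hcov (p.1 : ℕ)
          (mem_filter.2 ⟨mem_range.2 hz.1, p.2, p.1.2, hJ⟩)
        have he : t + ((p.1 : ℕ) - t) = p.1 := by omega
        refine ⟨⟨(⟨t, hTn t ht⟩, finProdFinEquiv (⟨(p.1 : ℕ) - t, by omega⟩, p.2)),
          mem_filter.2 ⟨mem_univ _, ?_⟩⟩, ?_⟩
        · simp only [Equiv.symm_apply_apply]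
          refine ⟨ht, by omega, ?_⟩
          convert hp using 1
          exact Prod.ext (Fin.ext he) rfl
        · simp only [IsAt, Equiv.symm_apply_apply]
          exact ⟨he, trivial⟩
      choose g hg using hex
      have := Fintype.card_le_of_injective (fun p : ↥K => g p.1 p.2) fun p p' e => by
        have h1 := hg p.1 p.2
        have h2 := hg p'.1 p'.2
        simp only at e
        rw [e] at h1
        exact Subtype.ext (Prod.ext (Fin.ext (h1.1.symm.trans h2.1)) (h1.2.symm.trans h2.2))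
      simpa using this
    have hmark : (univ.filter mark).card ≤ T.card := by
      refine card_le_card_of_injOn (fun p => (p.1 : ℕ)) (fun p hp => ?_) ?_
      · exact (mem_filter.1 hp).2.1
      · intro p hp p' hp' e
        obtain ⟨ht, e1⟩ := (mem_filter.1 hp).2
        obtain ⟨ht', e2⟩ := (mem_filter.1 hp').2
        refine Prod.ext (Fin.ext e) ?_
        simp only at e
        rw [e1, e2]
        congr 1
        rw [e]
    have hzero : (univ.filter zero).card ≤ L * M + L * M * (Q.badMark S s).card := by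
      let I : ℕ → Finset (Fin N × Fin M) := fun a =>
        (univ.filter fun q : Fin N => a ≤ (q : ℕ) ∧ (q : ℕ) < a + L) ×ˢ univ
      have hI : ∀ a, (I a).card ≤ L * M := by
        intro a
        rw [card_product, card_univ, Fintype.card_fin]
        refine Nat.mul_le_mul_right _ ?_
        calc (univ.filter fun q : Fin N => a ≤ (q : ℕ) ∧ (q : ℕ) < a + L).card
            ≤ (Ico a (a + L)).card := card_le_card_of_injOn (fun q => (q : ℕ))
              (fun q hq => mem_Ico.2 (mem_filter.1 hq).2) (fun q _ q' _ e => Fin.ext e)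
          _ = L := by simp
      refine (card_le_card (t := I n ∪ B.biUnion fun t => I t) fun p hp => ?_).trans ?_
      · rcases (mem_filter.1 hp).2 with h' | ⟨t, ht, h1, h2⟩
        · exact mem_union_left _ (by simp only [I, mem_product, mem_filter, mem_univ, true_and, and_true]; exact ⟨h', by have := p.1.2; omega⟩)
        · exact mem_union_right _ (mem_biUnion.2 ⟨t, ht, by
            simp only [I, mem_product, mem_filter, mem_univ, true_and, and_true]; exact ⟨h1, h2⟩⟩)
      refine (card_union_le _ _).trans (Nat.add_le_add (hI n) ?_)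
      refine (card_biUnion_le_card_mul B (fun t : Fin N => I t) (L * M) fun t _ => hI t).trans ?_
      rw [mul_comm B.card]
      exact Nat.mul_le_mul_left _ ((card_filter_le _ _).trans card_image_le)
    have hJ : Q.J.card ≤ K.card + (univ.filter mark).card + (univ.filter zero).card := by
      refine le_trans (card_le_card (t := K ∪ univ.filter mark ∪ univ.filter zero) fun p hp => ?_)
        ((card_union_le _ _).trans (Nat.add_le_add_right (card_union_le _ _) _))
      by_cases hm : mark p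
      · simp [hm]
      · by_cases hz : zero p
        · simp [hz]
        · simp [K, hp, hm, hz]
    have hTN : T.card ≤ N / L := (Nat.le_div_iff_mul_le hL).2 hTcard
    omega
  · refine le_trans (Nat.mul_le_mul_right _ ?_) hTcard
    refine card_le_card_of_injOn (fun t => (t : ℕ)) (fun t ht => ?_) (fun t _ t' _ e => Fin.ext e)
    obtain ⟨q, hq, rfl⟩ := mem_image.1 ht
    exact (mem_filter.1 hq).2.1

end Cube

/-- The recoding: cubes of almost the same dimension whose free coordinates sit on sparse sites. -/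
theorem exists_sparse_recode {f : C(X, Fin M → ℝ)} {m : ℝ} (hw : CubeWindows h f m) {L : ℕ}
    (hL : 0 < L) {η : ℝ} (hη : 0 < η) :
    ∃ F : C(X, Fin (L * M) → ℝ), ∀ N₀, ∃ N, N₀ ≤ N ∧ ∃ Q : Cube h F N,
      (m - η - 1 / L) * N ≤ Q.J.card ∧ ((Q.J.image Prod.fst).card : ℝ) * L ≤ N + L := by
  classical
  obtain ⟨S, hS0, hS⟩ : ∃ S : ℕ, 0 < S ∧ ((L * M * M : ℕ) : ℝ) ≤ η / 2 * S := by
    obtain ⟨k, hk⟩ := exists_nat_ge (((L * M * M : ℕ) : ℝ) / (η / 2))
    rw [div_le_iff₀ (by linarith)] at hk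
    refine ⟨k + 1, by omega, ?_⟩
    push_cast at hk ⊢
    linarith
  have hcubes : ∀ N₀, ∃ N, N₀ ≤ N ∧ ∃ Q : Cube h f N, m * N ≤ Q.J.card := by
    intro N₀
    obtain ⟨N, hN, J, hJ, σ, hfree, hconst⟩ := hw N₀
    refine ⟨N, hN, ⟨J, σ, fun y p => ?_, fun p hp y y' => ?_⟩, hJ⟩
    · rw [iter_natCast]; exact hfree y p
    · simp only [iter_natCast]; exact hconst p hp y y'
  obtain ⟨s, hs⟩ : ∃ s : Fin S, ∀ N₀, ∃ N, N₀ ≤ N ∧ ∃ Q : Cube h f N,
      m * N ≤ Q.J.card ∧ (Q.badMark S s).card * S ≤ N * M := by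
    by_contra hc
    simp only [not_exists, not_forall, not_and] at hc
    choose a ha using hc
    obtain ⟨N, hN, Q, hQ⟩ := hcubes (univ.sup a)
    obtain ⟨s, hs⟩ := Q.exists_badMark_le S hS0
    exact ha s N ((le_sup (mem_univ s)).trans hN) Q hQ hs
  refine ⟨recodeMap h f L S s, fun N₀ => ?_⟩
  obtain ⟨N₁, hN₁⟩ : ∃ N₁ : ℕ, ((L * M : ℕ) : ℝ) + 1 ≤ η / 2 * N₁ := by
    obtain ⟨k, hk⟩ := exists_nat_ge ((((L * M : ℕ) : ℝ) + 1) / (η / 2))
    rw [div_le_iff₀ (by linarith)] at hk
    exact ⟨k, by linarith⟩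
  obtain ⟨N, hN, Q, hQ, hbad⟩ := hs (N₀ + L + N₁)
  obtain ⟨Q', hc, hT⟩ := Q.exists_recoded hL (n := N - L) (S := S) (by omega) (by omega) s
  refine ⟨N - L, by omega, Q', ?_, ?_⟩
  · have hLr : (0 : ℝ) < L := by exact_mod_cast hL
    have hSr : (0 : ℝ) < S := by exact_mod_cast hS0
    have h1 : (Q.J.card : ℝ) ≤ Q'.J.card + (N / L : ℕ) + (L * M : ℕ)
        + (L * M : ℕ) * (Q.badMark S s).card := by exact_mod_cast hc
    have h3 : ((N / L : ℕ) : ℝ) ≤ (N : ℝ) / L := Nat.cast_div_le
    have h4 : ((L * M : ℕ) : ℝ) * (Q.badMark S s).card ≤ η / 2 * N := by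
      have hb : ((Q.badMark S s).card : ℝ) * S ≤ N * M := by exact_mod_cast hbad
      refine le_of_mul_le_mul_right (a := (S : ℝ)) ?_ hSr
      calc ((L * M : ℕ) : ℝ) * (Q.badMark S s).card * S ≤ ((L * M : ℕ) : ℝ) * (N * M) := by
            rw [mul_assoc]; exact mul_le_mul_of_nonneg_left hb (Nat.cast_nonneg _)
        _ = ((L * M * M : ℕ) : ℝ) * N := by push_cast; ring
        _ ≤ η / 2 * S * N := mul_le_mul_of_nonneg_right hS (Nat.cast_nonneg _)
        _ = η / 2 * N * S := by ring
    have h5 : η / 2 * (N₁ : ℝ) ≤ η / 2 * N :=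
      mul_le_mul_of_nonneg_left (Nat.cast_le.2 (by omega)) (by linarith)
    have h6 : ((N - L : ℕ) : ℝ) ≤ N := Nat.cast_le.2 (Nat.sub_le _ _)
    have key : (m - η - 1 / L) * N ≤ Q'.J.card := by
      have : (1 : ℝ) / L * N = N / L := by ring
      nlinarith
    rcases le_total (m - η - 1 / (L : ℝ)) 0 with hneg | hpos
    · exact (mul_nonpos_of_nonpos_of_nonneg hneg (Nat.cast_nonneg _)).trans (Nat.cast_nonneg _)
    · exact (mul_le_mul_of_nonneg_left h6 hpos).trans key
  · have : (Q'.J.image Prod.fst).card * L ≤ (N - L) + L := by omega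
    exact_mod_cast this

end Vale.Agent.P093
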