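import Vale.Agent.P093.Main
import Vale.Agent.P093.Soft

/-!
# The bound from sparse free coordinates and a function of given frequency

Here the blocks are single sites. When the free coordinates of a window sit on few sites the
rounding per site is negligible, and a diagonal entry of fractional frequency in `a` removes the
rounding of the rank.
-/

namespace Vale.Agent.P093

open Filter Topology Embed

variable {X : Type} [TopologicalSpace X] [CompactSpace X] {h : X ≃ₜ X} {M : ℕ}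

/-- Every point starts a block of length one. -/
theorem returns_univ (h : X ≃ₜ X) : Returns h (Set.univ : Set X) 1 1 :=
  ⟨isClopen_univ, fun x _ k hk hk1 => absurd hk1 (by omega), fun x => ⟨0, one_pos, trivial⟩⟩

theorem Returns.rt_one (H : Returns h (Set.univ : Set X) 1 1) (x : X) : H.rt x = 1 := by
  obtain ⟨h1, h2, -⟩ := H.rt_spec (Set.mem_univ x)
  omega

theorem Returns.starts_univ (H : Returns h (Set.univ : Set X) 1 1) (x : X) (N : ℕ) :
    H.starts x N = Finset.range N := by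
  ext t
  rw [H.mem_starts, H.rt_one, Finset.mem_range]
  exact ⟨fun ht => by omega, fun ht => ⟨Set.mem_univ _, by omega⟩⟩

/-- Free coordinates are lost only in bad sites and once per site that has some. -/
theorem Cube.free_card_le_sites {f : C(X, Fin M → ℝ)} {N : ℕ} (Q : Cube h f N)
    (H : Returns h (Set.univ : Set X) 1 1) :
    Q.J.card ≤ Q.wild.card * M + 2 * (∑ t ∈ Finset.range N, Q.lines H t)
      + 2 * (Q.J.image Prod.fst).card := by
  classical
  set S : Finset ℕ := (Q.J.image Prod.fst).image fun t : Fin N => (t : ℕ) with hS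
  have hSsub : S ⊆ Finset.range N := fun t ht => by
    obtain ⟨u, -, rfl⟩ := Finset.mem_image.1 ht
    exact Finset.mem_range.2 u.isLt
  have hsub : Q.J ⊆ S.biUnion (Q.inBlock H) := fun p hp =>
    Finset.mem_biUnion.2 ⟨(p.1 : ℕ), Finset.mem_image.2 ⟨p.1, Finset.mem_image.2 ⟨p, hp, rfl⟩, rfl⟩,
      Finset.mem_filter.2 ⟨hp, le_refl _, by rw [H.rt_one]; omega⟩⟩
  have hst : ∀ t ∈ S, t ∈ H.starts Q.base N := fun t ht => by
    rw [H.starts_univ]; exact hSsub ht
  calc Q.J.card ≤ ∑ t ∈ S, (Q.inBlock H t).card :=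
        (Finset.card_le_card hsub).trans Finset.card_biUnion_le
    _ ≤ ∑ t ∈ S, ((if Q.Good H t then 0 else M) + (2 * Q.lines H t + 2)) := by
        refine Finset.sum_le_sum fun t ht => ?_
        by_cases hg : Q.Good H t
        · rw [if_pos hg]
          have := Q.inBlock_le_free H t (hst t ht)
          simp only [Cube.lines, if_pos hg, nlines]
          omega
        · rw [if_neg hg]
          have := Q.inBlock_card_le H t (hst t ht)
          omega
    _ = (S.filter fun t => ¬ Q.Good H t).card * M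
          + (2 * ∑ t ∈ S, Q.lines H t + 2 * S.card) := by
        simp only [Finset.sum_add_distrib, Finset.sum_ite, Finset.sum_const, smul_eq_mul,
          mul_zero, zero_add, ← Finset.mul_sum]
        ring
    _ ≤ Q.wild.card * M + (2 * ∑ t ∈ Finset.range N, Q.lines H t
          + 2 * (Q.J.image Prod.fst).card) := by
        gcongr
        · refine (Finset.card_le_card ?_).trans (Q.bad_card_le H)
          intro t ht
          rw [Finset.mem_filter] at ht
          exact Finset.mem_filter.2 ⟨hst t ht.1, ht.2⟩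
        · exact Finset.card_image_le
    _ = _ := by ring

/-- The diagonal of the witness `a`: `q` ones and one fractional entry. -/
noncomputable def diagEntries (g : C(X, ℝ)) (q n : ℕ) (p : Fin n) : C(X, ℝ) :=
  if (p : ℕ) < q then 1 else if (p : ℕ) = q then g else 0

theorem diagEntries_mem {g : C(X, ℝ)} (hg0 : ∀ x, 0 ≤ g x) (hg1 : ∀ x, g x ≤ 1) {q n : ℕ}
    (p : Fin n) (x : X) : 0 ≤ diagEntries g q n p x ∧ diagEntries g q n p x ≤ 1 := by
  unfold diagEntries
  split_ifs <;> simp [hg0 x, hg1 x]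

theorem sum_diag_frequency {q n : ℕ} (hq : q < n) (c : ℝ) :
    ∑ p : Fin n, (if (p : ℕ) < q then (1 : ℝ) else if (p : ℕ) = q then c else 0) = q + c := by
  rw [Fin.sum_univ_eq_sum_range (fun p => if p < q then (1 : ℝ) else if p = q then c else 0) n,
    ← Finset.sum_range_add_sum_Ico _ hq.le, Finset.sum_eq_sum_Ico_succ_bot hq]
  have h1 : ∀ p ∈ Finset.range q,
      (if p < q then (1 : ℝ) else if p = q then c else 0) = 1 := fun p hp =>
    if_pos (Finset.mem_range.1 hp)
  have h2 : ∀ p ∈ Finset.Ico (q + 1) n,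
      (if p < q then (1 : ℝ) else if p = q then c else 0) = 0 := fun p hp => by
    rw [Finset.mem_Ico] at hp
    rw [if_neg (by omega), if_neg (by omega)]
  rw [Finset.sum_congr rfl h1, Finset.sum_congr rfl h2]
  simp

/-- Sources of a diagonal witness. -/
theorem source_count {N R₀ q K : ℕ} (hq : q < K * 2) (H : Returns h (Set.univ : Set X) 1 1)
    {f : C(X, Fin M → ℝ)} (Q : Cube h f N) (g : C(X, ℝ)) {η : ℝ} (hη : η < 1) (y : X) {c : ℝ}
    (hc : c ≤ (((Finset.range N).filter fun i : ℕ => η < g ((⇑h)^[i] y)).card : ℝ)) :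
    (q : ℝ) * N + c - ((q : ℝ) + 1) * (2 * R₀ + 1) ≤
      (((Q.sources H R₀ ×ˢ (Finset.univ : Finset (Fin (K * 2)))).filter
        fun z => η < diagEntries g q (K * 2) z.2 (iter h (z.1 : ℕ) y)).card : ℝ) := by
  classical
  set T := Q.sources H R₀ with hT
  set P := (T ×ˢ (Finset.univ : Finset (Fin (K * 2)))).filter
        fun z => η < diagEntries g q (K * 2) z.2 (iter h (z.1 : ℕ) y) with hP
  set A := (T.filter fun t : ℕ => η < g ((⇑h)^[t] y)) with hA
  have h1 : T.card * q + A.card ≤ P.card := by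
    let e : Fin q ↪ Fin (K * 2) := ⟨fun i => ⟨i, i.isLt.trans hq⟩, fun i j hij => by
      simpa [Fin.ext_iff] using hij⟩
    have hd : Disjoint (T ×ˢ (Finset.univ : Finset (Fin q)).map e) (A ×ˢ {⟨q, hq⟩}) := by
      rw [Finset.disjoint_left]
      rintro ⟨t, p⟩ hp hp'
      simp only [Finset.mem_product, Finset.mem_map, Finset.mem_singleton] at hp hp'
      obtain ⟨-, i, -, hi⟩ := hp
      rw [hp'.2] at hi
      have h2 : (i : ℕ) = q := congrArg Fin.val hi
      exact absurd i.isLt (by omega)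
    refine le_of_eq_of_le ?_ (Finset.card_le_card (s := (T ×ˢ (Finset.univ : Finset (Fin q)).map e)
      ∪ (A ×ˢ {⟨q, hq⟩})) ?_)
    · rw [Finset.card_union_of_disjoint hd, Finset.card_product, Finset.card_product,
        Finset.card_map, Finset.card_univ, Fintype.card_fin, Finset.card_singleton, mul_one]
    · rintro ⟨t, p⟩ hp
      simp only [Finset.mem_union, Finset.mem_product, Finset.mem_map, Finset.mem_singleton] at hp
      refine Finset.mem_filter.2 ⟨Finset.mem_product.2 ⟨?_, Finset.mem_univ _⟩, ?_⟩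
      · rcases hp with hp | hp
        · exact hp.1
        · exact (Finset.mem_filter.1 hp.1).1
      · rcases hp with ⟨-, i, -, rfl⟩ | ⟨ht, rfl⟩
        · have hi : ((e i : Fin (K * 2)) : ℕ) < q := i.isLt
          simp [diagEntries, hi, hη]
        · simpa [diagEntries, iter_natCast] using (Finset.mem_filter.1 ht).2
  have hcard : ∀ (S : Finset ℕ), S ⊆ Finset.range N →
      S.card ≤ (S.filter fun t => t ∈ T).card + (2 * R₀ + 1) := by
    intro S hS
    rw [← Finset.card_filter_add_card_filter_not (s := S) (fun t => t ∈ T)]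
    gcongr
    refine (Finset.card_le_card (t := Finset.range R₀ ∪ Finset.Ico (N - R₀) N) ?_).trans
      ((Finset.card_union_le _ _).trans (by simp; omega))
    intro t ht
    simp only [Finset.mem_filter, hT, Cube.sources, H.starts_univ] at ht
    have htN := hS ht.1
    simp only [Finset.mem_union, Finset.mem_range, Finset.mem_Ico] at htN ⊢
    obtain ⟨-, ht⟩ := ht
    by_contra hc
    push Not at hc
    exact ht ⟨Finset.mem_range.2 htN, hc.1, by omega⟩
  have h2 : N ≤ T.card + (2 * R₀ + 1) := by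
    refine le_trans (by simp) ((hcard (Finset.range N) subset_rfl).trans ?_)
    gcongr
    exact fun t ht => (Finset.mem_filter.1 ht).2
  have h3 : ((Finset.range N).filter fun i : ℕ => η < g ((⇑h)^[i] y)).card
      ≤ A.card + (2 * R₀ + 1) := by
    refine (hcard _ (Finset.filter_subset _ _)).trans ?_
    gcongr
    intro t ht
    simp only [Finset.mem_filter] at ht
    exact Finset.mem_filter.2 ⟨ht.2, ht.1.2⟩
  have h1' : (T.card : ℝ) * q + A.card ≤ P.card := by exact_mod_cast h1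
  have h2' : (N : ℝ) ≤ T.card + (2 * R₀ + 1) := by exact_mod_cast h2
  have h3' := (Nat.cast_le (α := ℝ)).2 h3
  push_cast at h3'
  nlinarith [mul_le_mul_of_nonneg_left h2' (Nat.cast_nonneg q : (0 : ℝ) ≤ q)]

/-- A function in the unit interval whose positivity set has window frequency near `s`, with a
threshold keeping most of it, and a bound on the dimension of its diagonal matrices. -/
def FrequencyWitness (h : X ≃ₜ X) (s δ : ℝ) (g : C(X, ℝ)) : Prop :=
  (∀ x, 0 ≤ g x) ∧ (∀ x, g x ≤ 1) ∧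
    (∀ (τ : TracialState h) (q n : ℕ), q < n → dtau τ (diagMat h (diagEntries g q n)) ≤ q + s + δ) ∧
    ∃ η : ℝ, 0 < η ∧ ∃ N₁ : ℕ, ∀ x, ∀ N ≥ N₁,
      (s - 2 * δ) * N ≤ (((Finset.range N).filter fun i : ℕ => η < g ((⇑h)^[i] x)).card : ℝ)

theorem sparse_arith {N W M d L' J cost lines sites q s δ μ Cst : ℝ}
    (e1 : J ≤ W * M + 2 * lines + 2 * sites) (e2 : cost + lines ≤ N * d + W * d)
    (e3 : μ * N ≤ J) (e4 : sites ≤ N * L' + 1) (hC : 2 * (Cst + 1) < δ * N)
    (hW : W * (d + M) * 2 ≤ δ * N) (e5 : 0 ≤ W * M)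
    (e6 : (q + (s - 2 * δ)) * N = (d - μ / 2 + δ + L') * N) :
    cost < q * N + (s - 2 * δ) * N - Cst := by
  nlinarith

theorem wild_bound {W N M d δ : ℝ} {S : ℕ} (hδ : 0 < δ) (h1 : W * S ≤ N * M) (hS0 : (0 : ℝ) < S)
    {c : ℕ} (h3 : 2 * M * (d + M) / δ ≤ c) (hS : (S : ℝ) = c + 1) (hM : 0 ≤ M) (hd : 0 ≤ d)
    (hN : 0 ≤ N) :
    W * (d + M) * 2 ≤ δ * N := by
  rw [div_le_iff₀ hδ] at h3
  refine le_of_mul_le_mul_right ?_ hS0
  calc W * (d + M) * 2 * S = (W * S) * (2 * (d + M)) := by ring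
    _ ≤ (N * M) * (2 * (d + M)) := by gcongr
    _ = N * (2 * M * (d + M)) := by ring
    _ ≤ N * (δ * S) := mul_le_mul_of_nonneg_left (by rw [hS]; nlinarith) hN
    _ = δ * N * S := by ring

theorem window_bound {C δ : ℝ} {N : ℕ} (hδ : 0 < δ) (hN : ⌈C / δ⌉₊ + 1 ≤ N) : C < δ * N := by
  have h3 := Nat.le_ceil (C / δ)
  rw [div_le_iff₀ hδ] at h3
  have h4 : ((⌈C / δ⌉₊ : ℕ) : ℝ) + 1 ≤ N := by exact_mod_cast hN
  nlinarith

/-- The three count bounds of a window with sparse free coordinates. -/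
theorem sparse_count {N₀ : ℕ} (H : Returns h (Set.univ : Set X) 1 1) {d : ℕ} (D : Data h M d 1)
    (hDd : D.d = numLines M) (Q' : Cube h D.f N₀) {L : ℕ} (hL : 0 < L)
    (hsp : ((Q'.J.image Prod.fst).card : ℝ) * L ≤ N₀ + L) (hdd : d = numLines M 1) :
    (Q'.J.card : ℝ) ≤ Q'.wild.card * M + 2 * ∑ t ∈ Finset.range N₀, (Q'.lines H t : ℝ)
        + 2 * (Q'.J.image Prod.fst).card ∧
      (∑ t ∈ Finset.range N₀, (Q'.cost H D.d t : ℝ)) + ∑ t ∈ Finset.range N₀, (Q'.lines H t : ℝ)
        ≤ N₀ * d + Q'.wild.card * d ∧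
      ((Q'.J.image Prod.fst).card : ℝ) ≤ (N₀ : ℝ) * (L : ℝ)⁻¹ + 1 := by
  classical
  set W := Q'.wild.card with hWdef
  have hlines := Q'.free_card_le_sites H
  have hcost : ∀ t ∈ Finset.range N₀, Q'.cost H D.d t + Q'.lines H t
      ≤ d + if Q'.Good H t then 0 else d := by
    intro t ht
    have hl : Q'.lines H t ≤ d := by
      have := Q'.lines_le H t (by rw [H.starts_univ]; exact ht)
      rw [H.rt_one] at this
      exact this.trans_eq hdd.symm
    unfold Cube.cost
    rw [H.rt_one, show D.d 1 = d from (congrFun hDd 1).trans hdd.symm]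
    by_cases hg : Q'.Good H t
    · rw [if_pos hg, if_pos hg]
      omega
    · rw [if_neg hg, if_neg hg, show Q'.lines H t = 0 from if_neg hg]
      omega
  have hcost' : ∑ t ∈ Finset.range N₀, Q'.cost H D.d t + ∑ t ∈ Finset.range N₀, Q'.lines H t
      ≤ N₀ * d + W * d := by
    rw [← Finset.sum_add_distrib]
    refine (Finset.sum_le_sum hcost).trans ?_
    rw [Finset.sum_add_distrib, Finset.sum_ite, Finset.sum_const_zero, zero_add, Finset.sum_const,
      Finset.sum_const, Finset.card_range, smul_eq_mul, smul_eq_mul]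
    gcongr
    refine (le_of_eq ?_).trans (Q'.bad_card_le H)
    simp only [Cube.bad, H.starts_univ]
  refine ⟨by exact_mod_cast hlines, by exact_mod_cast hcost', ?_⟩
  have hLpos : (0 : ℝ) < L := by exact_mod_cast hL
  rw [← div_eq_mul_inv, div_add_one hLpos.ne', le_div_iff₀ hLpos]
  exact hsp

/-- Sparse free coordinates of density `μ` defeat every bound below `μ/2`. -/
theorem bound_of_sparse {f : C(X, Fin M → ℝ)} {μ δ : ℝ} {L : ℕ} (hL : 0 < L) (hδ : 0 < δ)
    (hseq : ∀ N₀, ∃ N, N₀ ≤ N ∧ ∃ Q : Cube h f N, μ * N ≤ Q.J.card ∧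
      ((Q.J.image Prod.fst).card : ℝ) * L ≤ N + L)
    (hfreq : ∀ s : ℝ, 0 ≤ s → s ≤ 1 → ∃ g, FrequencyWitness h s δ g)
    {r : ℝ} (hr : IsComparisonBound h r) : μ / 2 - 4 * δ - (L : ℝ)⁻¹ ≤ r := by
  classical
  by_contra hlt
  rw [not_le] at hlt
  have hLpos : (0 : ℝ) < L := by exact_mod_cast hL
  set m' : ℝ := μ / 2 - 3 * δ - (L : ℝ)⁻¹ with hm'
  have hm'0 : 0 < m' := by linarith [hr.1]
  set d := numLines M 1 with hd'
  have hμM : μ ≤ M := by
    obtain ⟨N, hN, Q, hJ, -⟩ := hseq 1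
    have h1 : (Q.J.card : ℝ) ≤ N * M := by
      exact_mod_cast (Finset.card_le_univ Q.J).trans_eq (by simp)
    have hNpos : (0 : ℝ) < N := by exact_mod_cast hN
    nlinarith
  have hdM : (M : ℝ) / 2 ≤ d := by simpa using numLines_ge M 1
  set k := ⌈m'⌉₊ with hk
  have hk1 : 1 ≤ k := Nat.ceil_pos.2 hm'0
  have hkd : k ≤ d := Nat.ceil_le.2 (by
    have : (0 : ℝ) < (L : ℝ)⁻¹ := by positivity
    linarith)
  set q := d - k with hq
  have hqd : q < d * 2 := by omega
  set s : ℝ := (k : ℝ) - m' with hs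
  have hs0 : 0 ≤ s := by linarith [Nat.le_ceil m']
  have hs1 : s ≤ 1 := by linarith [Nat.ceil_lt_add_one hm'0.le]
  obtain ⟨g, hg0, hg1, hdim, η₀, hη₀, N₁, hη₁⟩ := hfreq s hs0 hs1
  set η := min η₀ (1 / 2) with hη
  have hηpos : 0 < η := lt_min hη₀ (by norm_num)
  have hηlt : η < 1 := lt_of_le_of_lt (min_le_right _ _) (by norm_num)
  -- choose a shift
  set S : ℕ := ⌈2 * (M : ℝ) * ((d : ℝ) + M) / δ⌉₊ + 1 with hS
  have hSpos : 0 < S := Nat.succ_pos _
  have hramp : ∃ σ : Fin S, ∀ N₀, ∃ N, N₀ ≤ N ∧ ∃ Q : Cube h f N, μ * N ≤ Q.J.card ∧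
      ((Q.J.image Prod.fst).card : ℝ) * L ≤ N + L ∧ (Q.ramped σ).wild.card * S ≤ N * M := by
    by_contra hc
    push Not at hc
    choose N₀ hN₀ using hc
    obtain ⟨N, hN, Q, hJ, hsp⟩ := hseq (Finset.univ.sup N₀)
    obtain ⟨σ, hσ⟩ := Q.exists_ramp hSpos
    exact absurd hσ (not_le.2 (hN₀ σ N ((Finset.le_sup (Finset.mem_univ σ)).trans hN) Q hJ hsp))
  obtain ⟨σ, hσ⟩ := hramp
  obtain ⟨v, hvc, hvle, hv⟩ := exists_field (1 * M) d
  let D : Data h M d 1 := ⟨rampMap f S σ, v, numLines M, fun _ => 0, hvc, hvle⟩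
  let H := returns_univ h
  have hdD : ∀ r ∈ Finset.Icc 1 1, D.d r ≤ d := fun r hr => by
    obtain rfl : r = 1 := by rw [Finset.mem_Icc] at hr; omega
    exact le_refl _
  have hmass : ∀ τ : TracialState h, H.mass τ 1 = 1 := fun τ => by simpa using H.mass_sum τ
  have hmem := fun (p : Fin (d * 2)) x => diagEntries_mem (q := q) hg0 hg1 p x
  have hlt' : ∀ τ : TracialState h,
      dtau τ (diagMat h (diagEntries g q (d * 2))) + r < dtau τ (D.bMat H) := by
    intro τ
    have hb := trace_le_dtau τ (D.bMat_nonneg H) (D.bMat_le_one H)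
    rw [D.trace_bMat H τ hdD] at hb
    simp only [Finset.Icc_self, Finset.sum_singleton, hmass, mul_one] at hb
    have ha := hdim τ q (d * 2) hqd
    have hqR : (q : ℝ) = d - k := by rw [hq, Nat.cast_sub hkd]
    have hdd : (D.d 1 : ℝ) = d := rfl
    linarith
  have hle := hr.2 (d * 2) (diagMat h (diagEntries g q (d * 2))) (D.bMat H)
    (diagMat_nonneg h _ fun p x => (hmem p x).1) (D.bMat_nonneg H) hlt'
  obtain ⟨n, hn, R₀, y, hyR, hy⟩ := exists_banded_near hle
    (ε := η / (2 * ((d * 2 : ℕ) + 1))) (by positivity)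
  -- a large window
  set Cst : ℝ := ((q : ℝ) + 1) * (2 * R₀ + 1) with hCst
  obtain ⟨N, hN, Q, hJ, hsp, hW⟩ := hσ (max N₁ (⌈2 * (Cst + 1) / δ⌉₊ + 1))
  set Q' := Q.ramped σ with hQ'
  set W := Q'.wild.card with hWdef
  refine Data.core_soft H D hv hdD (diagEntries g q (d * 2)) hηpos hn Q'
    (fun t ht => Q'.lines_le H t ht)
    (Q₀ := (∑ t ∈ H.starts Q'.base N, Q'.cost H D.d t) + 1) (Nat.lt_succ_self _) ?_ y hyR hy
  intro x
  rw [Nat.succ_le_iff, ← Nat.cast_lt (α := ℝ), Nat.cast_sum, H.starts_univ]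
  have hsrc := source_count (R₀ := R₀) hqd H Q' g hηlt x
    (c := (s - 2 * δ) * N) ((hη₁ x N ((le_max_left _ _).trans hN)).trans (by
      exact_mod_cast Finset.card_le_card (Finset.monotone_filter_right _ fun i _ hi =>
        lt_of_le_of_lt (min_le_left _ _) hi)))
  refine lt_of_lt_of_le ?_ hsrc
  have hWbound : (W : ℝ) * ((d : ℝ) + M) * 2 ≤ δ * N := by
    have h1 : (W : ℝ) * S ≤ N * M := by exact_mod_cast hW
    have h3 := Nat.le_ceil (2 * (M : ℝ) * ((d : ℝ) + M) / δ)
    exact wild_bound hδ h1 (by exact_mod_cast hSpos) h3 (by simp [hS]) (Nat.cast_nonneg _)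
      (Nat.cast_nonneg _) (Nat.cast_nonneg _)
  have hqR : (q : ℝ) = d - k := by rw [hq, Nat.cast_sub hkd]
  have e6 : ((q : ℝ) + (s - 2 * δ)) * N = ((d : ℝ) - μ / 2 + δ + (L : ℝ)⁻¹) * N := by
    rw [hqR, hs, hm']
    ring
  obtain ⟨e1, e2, e4⟩ := sparse_count H D rfl Q' hL hsp rfl
  exact sparse_arith e1 e2 hJ e4 (window_bound hδ ((le_max_right _ _).trans hN)) hWbound
    (by positivity) e6

end Vale.Agent.P093
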