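import Vale.Agent.P093.Field

/-!
# A window: good blocks, their patterns, and the map from sphere parameters to points
-/

namespace Vale.Agent.P093

open Embed

variable {X : Type} [TopologicalSpace X] [CompactSpace X] {h : X ≃ₜ X}
variable {C : Set X} {L R M : ℕ}

/-- A cube in a window: free coordinates and a lift along which the others are constant. -/
structure Cube (h : X ≃ₜ X) (f : C(X, Fin M → ℝ)) (N : ℕ) where
  /-- The free coordinates. -/
  J : Finset (Fin N × Fin M)
  /-- The lift. -/
  lift : C(↥J → unitInterval, X)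
  free_eq : ∀ y (p : ↥J), f (iter h ((p.1.1 : ℕ) : ℤ) (lift y)) p.1.2 = (y p : ℝ)
  const_eq : ∀ p : Fin N × Fin M, p ∉ J → ∀ y y',
    f (iter h ((p.1 : ℕ) : ℤ) (lift y)) p.2 = f (iter h ((p.1 : ℕ) : ℤ) (lift y')) p.2

namespace Cube

variable {f : C(X, Fin M → ℝ)} {N : ℕ} (Q : Cube h f N) (H : Returns h C L R)

/-- Membership of a coordinate in the free set. -/
def Free (p : ℕ) (c : Fin M) : Prop := ∃ hp : p < N, ((⟨p, hp⟩ : Fin N), c) ∈ Q.J

/-- The base point. -/
noncomputable def base : X := Q.lift fun _ => 0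

/-- The fixed value of a coordinate. -/
noncomputable def value (p : ℕ) (c : Fin M) : ℝ := f (iter h (p : ℤ) Q.base) c

/-- All fixed values in the block are `0` or `1`. -/
def Good (t : ℕ) : Prop :=
  ∀ k < H.rt (iter h (t : ℕ) Q.base), ∀ c : Fin M,
    Q.Free (t + k) c ∨ Q.value (t + k) c = 0 ∨ Q.value (t + k) c = 1

open Classical in
/-- The pattern of a block. -/
noncomputable def pattern (t : ℕ) (i : Fin (R * M)) : Option Bool :=
  if ((finProdFinEquiv.symm i).1 : ℕ) < H.rt (iter h (t : ℕ) Q.base) then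
    if Q.Free (t + (finProdFinEquiv.symm i).1) (finProdFinEquiv.symm i).2 then none
    else some (decide (Q.value (t + (finProdFinEquiv.symm i).1) (finProdFinEquiv.symm i).2 = 1))
  else some false

open Classical in
/-- The number of lines carried by a block. -/
noncomputable def lines (t : ℕ) : ℕ := if Q.Good H t then nlines (Q.pattern H t) else 0

theorem orbit_const (y : ↥Q.J → unitInterval) {S : Set X} (hS : IsClopen S) (p : ℤ) :
    iter h p (Q.lift y) ∈ S ↔ iter h p Q.base ∈ S := by
  have hc : IsClopen ((fun y => iter h p (Q.lift y)) ⁻¹' S) :=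
    hS.preimage ((iter h p).continuous.comp Q.lift.continuous)
  rcases isClopen_iff.1 hc with he | he
  · constructor
    · intro hy
      exact absurd (show y ∈ (fun y => iter h p (Q.lift y)) ⁻¹' S from hy) (by simp [he])
    · intro hy
      exact absurd (show (fun _ => 0) ∈ (fun y => iter h p (Q.lift y)) ⁻¹' S from hy) (by simp [he])
  · constructor <;> intro _
    · show (fun _ => 0) ∈ (fun y => iter h p (Q.lift y)) ⁻¹' S
      rw [he]; trivial
    · show y ∈ (fun y => iter h p (Q.lift y)) ⁻¹' S
      rw [he]; trivial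

theorem rt_const (y : ↥Q.J → unitInterval) {p : ℤ} (hp : iter h p Q.base ∈ C) :
    iter h p (Q.lift y) ∈ retSet h C (H.rt (iter h p Q.base)) :=
  (Q.orbit_const y (isClopen_retSet H.clopen _) p).2 (H.rt_spec hp).2.2.2

/-- The parameters of the lines: one sphere for each line of each block. -/
abbrev LineIdx : Type := Σ t : ↥(H.starts Q.base N), Fin (Q.lines H t)

open Classical in
/-- The coordinate of a point of the cube prescribed by sphere parameters. -/
noncomputable def coord (s : Q.LineIdx H → Sph) (p : ℕ) (c : Fin M) : ℝ :=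
  if hp : ∃ t : ↥(H.starts Q.base N), Q.Good H t ∧
      ∃ k : Fin R, (k : ℕ) < H.rt (iter h ((t : ℕ) : ℤ) Q.base) ∧ (t : ℕ) + k = p then
    emb (Q.pattern H hp.choose)
      (fun i => s ⟨hp.choose, Fin.cast (by rw [lines, if_pos hp.choose_spec.1]) i⟩)
      (finProdFinEquiv (hp.choose_spec.2.choose, c))
  else 1 / 2

theorem coord_mem (s : Q.LineIdx H → Sph) (p : ℕ) (c : Fin M) :
    Q.coord H s p c ∈ unitInterval := by
  classical
  unfold coord
  split
  · next hp =>
    set P := Q.pattern H (hp.choose : ℕ)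
    set i := finProdFinEquiv (hp.choose_spec.2.choose, c)
    obtain ⟨h1, h2⟩ := emb_free P
      (fun i => s ⟨hp.choose, Fin.cast (by rw [lines, if_pos hp.choose_spec.1]) i⟩) i
    rcases hP : P i with _ | b
    · exact ⟨(h1 hP).1.le, (h1 hP).2.le⟩
    · rw [h2 b hP]
      split <;> constructor <;> norm_num
  · constructor <;> norm_num

/-- The point of the cube prescribed by sphere parameters. -/
noncomputable def param (s : Q.LineIdx H → Sph) : ↥Q.J → unitInterval :=
  fun p => ⟨Q.coord H s p.1.1 p.1.2, Q.coord_mem H s _ _⟩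

theorem continuous_param : Continuous (Q.param H) := by
  classical
  refine continuous_pi fun p => Continuous.subtype_mk ?_ _
  unfold coord
  split
  · next hp =>
    have hsel : Continuous fun (s : Q.LineIdx H → Sph) (i : Fin (nlines (Q.pattern H hp.choose))) =>
        s ⟨hp.choose, Fin.cast (by rw [lines, if_pos hp.choose_spec.1]) i⟩ :=
      continuous_pi fun i => continuous_apply _
    exact (continuous_apply (finProdFinEquiv (hp.choose_spec.2.choose, p.1.2))).comp
      ((continuous_emb (Q.pattern H hp.choose)).comp hsel)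
  · exact continuous_const

theorem coord_eq (s : Q.LineIdx H → Sph) (t : ↥(H.starts Q.base N)) (hg : Q.Good H t)
    (k : Fin R) (hk : (k : ℕ) < H.rt (iter h ((t : ℕ) : ℤ) Q.base)) (c : Fin M) :
    Q.coord H s ((t : ℕ) + k) c =
      emb (Q.pattern H t) (fun i => s ⟨t, Fin.cast (by rw [lines, if_pos hg]) i⟩)
        (finProdFinEquiv (k, c)) := by
  classical
  unfold coord
  have hp : ∃ t' : ↥(H.starts Q.base N), Q.Good H t' ∧
      ∃ k' : Fin R, (k' : ℕ) < H.rt (iter h ((t' : ℕ) : ℤ) Q.base) ∧ (t' : ℕ) + k' = (t : ℕ) + k :=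
    ⟨t, hg, k, hk, rfl⟩
  rw [dif_pos hp]
  obtain ⟨hk', heq⟩ := hp.choose_spec.2.choose_spec
  obtain ⟨h1, h2⟩ := H.block_unique hp.choose.2 t.2 hk' hk heq
  have key : ∀ (t' : ↥(H.starts Q.base N)) (k' : Fin R) (hg' : Q.Good H t'), t' = t → k' = k →
      emb (Q.pattern H t') (fun i => s ⟨t', Fin.cast (by rw [lines, if_pos hg']) i⟩)
        (finProdFinEquiv (k', c)) =
      emb (Q.pattern H t) (fun i => s ⟨t, Fin.cast (by rw [lines, if_pos hg]) i⟩)
        (finProdFinEquiv (k, c)) := by
    rintro t' k' hg' rfl rfl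
    rfl
  exact key _ _ hp.choose_spec.1 (Subtype.ext h1) (Fin.ext h2)

/-- The block of a good start, as seen from the prescribed point, is the embedded point. -/
theorem blockVec_param (s : Q.LineIdx H → Sph) (t : ↥(H.starts Q.base N)) (hg : Q.Good H t) :
    blockVec h f R (H.rt (iter h ((t : ℕ) : ℤ) Q.base))
        (iter h ((t : ℕ) : ℤ) (Q.lift (Q.param H s)))
      = emb (Q.pattern H t) (fun i => s ⟨t, Fin.cast (by rw [lines, if_pos hg]) i⟩) := by
  classical
  funext i
  obtain ⟨⟨k, c⟩, rfl⟩ := finProdFinEquiv.surjective i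
  obtain ⟨h1, h2⟩ := emb_free (Q.pattern H t)
    (fun i => s ⟨t, Fin.cast (by rw [lines, if_pos hg]) i⟩) (finProdFinEquiv (k, c))
  simp only [blockVec, Equiv.symm_apply_apply]
  by_cases hk : (k : ℕ) < H.rt (iter h ((t : ℕ) : ℤ) Q.base)
  · rw [if_pos hk, ← iter_add, add_comm, show ((t : ℕ) : ℤ) + ((k : ℕ) : ℤ)
      = (((t : ℕ) + k : ℕ) : ℤ) by push_cast; rfl]
    have hpN : (t : ℕ) + k < N := by
      have := (H.mem_starts.1 t.2).2
      omega
    by_cases hf : Q.Free ((t : ℕ) + k) c
    · obtain ⟨hp, hJ⟩ := hf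
      have := Q.free_eq (Q.param H s) ⟨(⟨(t : ℕ) + k, hp⟩, c), hJ⟩
      rw [this]
      exact Q.coord_eq H s t hg k hk c
    · have hpat : Q.pattern H t (finProdFinEquiv (k, c))
          = some (decide (Q.value ((t : ℕ) + k) c = 1)) := by
        simp [pattern, hk, hf]
      rw [h2 _ hpat, Q.const_eq (⟨(t : ℕ) + k, hpN⟩, c) (fun hJ => hf ⟨hpN, hJ⟩)
        (Q.param H s) (fun _ => 0)]
      show Q.value ((t : ℕ) + k) c = _
      rcases (hg k hk c).resolve_left hf with hv | hv <;> simp [hv]
  · rw [if_neg hk]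
    have hpat : Q.pattern H t (finProdFinEquiv (k, c)) = some false := by simp [pattern, hk]
    simpa using (h2 _ hpat).symm

end Cube

end Vale.Agent.P093
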